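import Vale.Agent.P283.MathlibUsed
import Vale.Agent.P283.Setting
attribute [-instance] ProperSMul.toContinuousSMul IsTopologicalTorsor.toContinuousSMul IdemSemiring.toCanonicallyOrderedAdd IdemSemiring.toMulLeftMono IdemSemiring.toMulRightMono AddQuantale.instAddLeftMono AddQuantale.instAddRightMono Quantale.instMulLeftMono Quantale.instMulRightMono FiniteDimensional.rclike_to_real IsScalarTower.complexToReal FiniteDimensional.complexToReal

set_option linter.all false

section

section

open Module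

namespace Vale.Agent.P283

/-- integral point viewed as a real point -/
def toR {Q : Type*} [AddCommGroup Q] (w : Q →ₗ[ℤ] ℤ) : Q →ₗ[ℤ] ℝ :=
  (Int.castAddHom ℝ).toIntLinearMap ∘ₗ w

@[simp] lemma toR_apply {Q : Type*} [AddCommGroup Q] (w : Q →ₗ[ℤ] ℤ) (m : Q) :
    toR w m = (w m : ℝ) := rfl

/-- A non-torsion vector is, up to torsion, a multiple of a vector on which some integral
functional takes the value one (times the multiple). -/
lemma primitive_aux {Q : Type*} [AddCommGroup Q] [Module.Finite ℤ Q] (u : Q)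
    (hu : ∃ w : Q →ₗ[ℤ] ℝ, w u ≠ 0) :
    ∃ (u' : Q) (l : ℤ) (w₀ : Q →ₗ[ℤ] ℤ), 0 < l ∧ w₀ u = l ∧
      ∀ w : Q →ₗ[ℤ] ℝ, w u = l * w u' := by
  classical
  let T := Submodule.torsion ℤ Q
  let F := Q ⧸ T
  have hfree : Module.Free ℤ F := inferInstance
  let b := Module.Free.chooseBasis ℤ F
  let π : Q →ₗ[ℤ] F := T.mkQ
  let ι := Module.Free.ChooseBasisIndex ℤ F
  let a : ι → ℤ := fun i => b.repr (π u) i
  let I : Ideal ℤ := Ideal.span (Set.range a)
  obtain ⟨l, hl⟩ := (inferInstance : I.IsPrincipal).principal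
  have hlmem : l ∈ I := by rw [hl]; exact Submodule.mem_span_singleton_self l
  have hdvd : ∀ i, l ∣ a i := by
    intro i
    have : a i ∈ I := Ideal.subset_span ⟨i, rfl⟩
    rw [hl] at this
    exact Ideal.mem_span_singleton.mp this
  choose a' ha' using hdvd
  obtain ⟨β, hβ⟩ := (Ideal.mem_span_range_iff_exists_fun).mp hlmem
  -- torsion elements are killed
  have hker : ∀ (w : Q →ₗ[ℤ] ℝ) (x : Q), π x = 0 → w x = 0 := by
    intro w x hx
    have hx' : x ∈ T := (Submodule.Quotient.mk_eq_zero T).mp hx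
    rw [Submodule.mem_torsion_iff] at hx'
    obtain ⟨k, hk⟩ := hx'
    have h1 : w ((k : ℤ) • x) = 0 := by
      have : (k : ℤ) • x = 0 := hk
      rw [this, map_zero]
    rw [map_smul] at h1
    have hk0 : (k : ℤ) ≠ 0 := nonZeroDivisors.ne_zero k.2
    have h2 : ((k : ℤ) : ℝ) * w x = 0 := by simpa only [mul_eq_zero, Int.cast_eq_zero, nonZeroDivisors.coe_ne_zero, false_or, zsmul_eq_mul] using h1
    rcases mul_eq_zero.mp h2 with h | h
    · exact absurd (by exact_mod_cast h) hk0
    · exact h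
  have hl0 : l ≠ 0 := by
    rintro rfl
    obtain ⟨w, hw⟩ := hu
    apply hw
    apply hker
    apply b.repr.injective
    ext i
    have := ha' i
    simp only [zero_mul] at this
    simpa only [map_zero, Finsupp.coe_zero, Pi.zero_apply] using this
  obtain ⟨u', hu'⟩ := Submodule.mkQ_surjective T (∑ i, a' i • b i)
  let w₀ : Q →ₗ[ℤ] ℤ := ∑ i, β i • (b.coord i ∘ₗ π)
  have hw₀ : w₀ u = l := by
    simp only [w₀, LinearMap.sum_apply, LinearMap.smul_apply, LinearMap.comp_apply,
      Basis.coord_apply, smul_eq_mul]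
    simpa only using hβ
  have hrel : ∀ w : Q →ₗ[ℤ] ℝ, w u = l * w u' := by
    intro w
    have h1 : w (u - l • u') = 0 := by
      apply hker
      have : π u = ∑ i, a i • b i := by
        simpa only using (b.sum_repr (π u)).symm
      rw [map_sub, map_smul, this]
      have h2 : π u' = ∑ i, a' i • b i := hu'
      rw [h2, Finset.smul_sum, ← Finset.sum_sub_distrib]
      apply Finset.sum_eq_zero
      intro i _
      rw [ha' i, mul_smul, sub_self]
    rw [map_sub, map_smul, sub_eq_zero] at h1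
    simpa using h1
  rcases lt_or_gt_of_ne hl0 with h | h
  · refine ⟨-u', -l, -w₀, by omega, by simp [hw₀], ?_⟩
    intro w
    rw [hrel w]; simp only [Int.cast_neg, map_neg, mul_neg, neg_mul, neg_neg]
  · exact ⟨u', l, w₀, h, hw₀, hrel⟩

/-- the space of real points is finite dimensional -/
instance finiteDimensional_points {Q : Type*} [AddCommGroup Q] [Module.Finite ℤ Q] :
    Module.Finite ℝ (Q →ₗ[ℤ] ℝ) := by
  obtain ⟨n, s, hs⟩ := Module.Finite.exists_fin (R := ℤ) (M := Q)
  let ev : (Q →ₗ[ℤ] ℝ) →ₗ[ℝ] (Fin n → ℝ) :=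
    { toFun := fun w i => w (s i)
      map_add' := by intro x y; ext i; simp
      map_smul' := by intro c x; ext i; simp }
  refine Module.Finite.of_injective ev ?_
  intro x y hxy
  have : ∀ i, x (s i) = y (s i) := fun i => congrFun hxy i
  apply LinearMap.ext_on (s := Set.range s) hs
  rintro _ ⟨i, rfl⟩
  exact this i

/-- evaluation at a lattice vector -/
def evalL {Q : Type*} [AddCommGroup Q] (m : Q) : (Q →ₗ[ℤ] ℝ) →ₗ[ℝ] ℝ where
  toFun := fun w => w m
  map_add' := by intro x y; simp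
  map_smul' := by intro c x; simp

@[simp] lemma evalL_apply {Q : Type*} [AddCommGroup Q] (m : Q) (w : Q →ₗ[ℤ] ℝ) :
    evalL m w = w m := rfl

/-- pull back of points along the quotient map -/
def pull {Q : Type*} [AddCommGroup Q] (U : Submodule ℤ Q) :
    ((Q ⧸ U) →ₗ[ℤ] ℝ) →ₗ[ℝ] (Q →ₗ[ℤ] ℝ) where
  toFun := fun w => w ∘ₗ U.mkQ
  map_add' := by intro x y; ext; simp
  map_smul' := by intro c x; ext; simp

@[simp] lemma pull_apply {Q : Type*} [AddCommGroup Q] (U : Submodule ℤ Q)
    (w : (Q ⧸ U) →ₗ[ℤ] ℝ) (m : Q) : pull U w m = w (U.mkQ m) := rfl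

lemma pull_injective {Q : Type*} [AddCommGroup Q] (U : Submodule ℤ Q) :
    Function.Injective (pull U) := by
  intro x y hxy
  ext m
  have := congrArg (fun f : Q →ₗ[ℤ] ℝ => f m) hxy
  simpa only [LinearMap.coe_comp, Function.comp_apply, Submodule.mkQ_apply, pull_apply] using this

lemma exists_pull {Q : Type*} [AddCommGroup Q] (u : Q) (w : Q →ₗ[ℤ] ℝ) (h : w u = 0) :
    ∃ w' : (Q ⧸ (Submodule.span ℤ {u})) →ₗ[ℤ] ℝ, pull _ w' = w := by
  refine ⟨Submodule.liftQ _ w ?_, ?_⟩
  · rw [Submodule.span_le]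
    rintro _ rfl
    simpa only [SetLike.mem_coe, LinearMap.mem_ker] using h
  · ext m
    simp

lemma finrank_pull {Q : Type*} [AddCommGroup Q] [Module.Finite ℤ Q] (u : Q)
    (hu : ∃ w : Q →ₗ[ℤ] ℝ, w u ≠ 0) :
    finrank ℝ ((Q ⧸ (Submodule.span ℤ {u})) →ₗ[ℤ] ℝ) + 1 = finrank ℝ (Q →ₗ[ℤ] ℝ) := by
  have h1 := LinearMap.finrank_range_add_finrank_ker (evalL u)
  have h2 : LinearMap.range (evalL u) = ⊤ := by
    rw [LinearMap.range_eq_top]
    obtain ⟨w, hw⟩ := hu
    intro c
    refine ⟨(c / w u) • w, ?_⟩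
    simp only [map_smul, evalL_apply, smul_eq_mul, isUnit_iff_ne_zero, ne_eq, hw, not_false_eq_true, IsUnit.div_mul_cancel]
  have h3 : LinearMap.range (pull (Submodule.span ℤ {u})) = LinearMap.ker (evalL u) := by
    ext w
    constructor
    · rintro ⟨w', rfl⟩
      have h0 : (Submodule.span ℤ {u}).mkQ u = 0 := by
        simp [Submodule.mem_span_singleton_self]
      have : (pull (Submodule.span ℤ {u}) w') u = 0 := by
        rw [pull_apply, h0, map_zero]
      simpa only [LinearMap.mem_ker, evalL_apply, pull_apply, Submodule.mkQ_apply] using this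
    · intro hw
      obtain ⟨w', hw'⟩ := exists_pull u w (by simpa only [LinearMap.mem_ker, evalL_apply] using hw)
      exact ⟨w', hw'⟩
  have h4 : finrank ℝ ((Q ⧸ (Submodule.span ℤ {u})) →ₗ[ℤ] ℝ)
      = finrank ℝ (LinearMap.range (pull (Submodule.span ℤ {u}))) :=
    (LinearMap.finrank_range_of_inj (pull_injective _)).symm
  rw [h4, h3, ← h1, h2]
  simp only [finrank_top, finrank_self]
  omega

universe v

/-- Transference: if no short dual vector exists then the lattice is dense. -/
theorem transference (n : ℕ) : ∀ (Q : Type v) [AddCommGroup Q] [Module.Finite ℤ Q],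
    finrank ℝ (Q →ₗ[ℤ] ℝ) = n → ∀ (p : (Q →ₗ[ℤ] ℝ) → ℝ),
    (∀ x y, p (x + y) ≤ p x + p y) → (∀ (c : ℝ) x, p (c • x) = |c| * p x) →
    (∀ m : Q, ∃ c, ∀ w : Q →ₗ[ℤ] ℝ, w m ≤ c * p w) → ∀ lam : ℝ, 0 < lam →
    (∀ m : Q, (∃ w : Q →ₗ[ℤ] ℝ, w m ≠ 0) → ∀ c, (∀ w : Q →ₗ[ℤ] ℝ, w m ≤ c * p w) → lam ≤ c) →
    ∀ a : Q →ₗ[ℤ] ℝ, ∃ w : Q →ₗ[ℤ] ℤ, p (toR w - a) ≤ 4 ^ n / lam := by
  induction n with
  | zero =>
    intro Q _ _ hn p hsub hhom _ lam hlam _ a
    refine ⟨0, ?_⟩
    have h0 : toR (0 : Q →ₗ[ℤ] ℤ) - a = 0 := by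
      have : Subsingleton (Q →ₗ[ℤ] ℝ) := Module.finrank_zero_iff.mp hn
      exact Subsingleton.elim _ _
    have : p 0 = 0 := by simpa using hhom 0 0
    rw [h0, this]
    positivity
  | succ n ih =>
    intro Q _ _ hn p hsub hhom hbd lam hlam hdual a
    have hp0 : p 0 = 0 := by simpa using hhom 0 0
    have hneg : ∀ x, p (-x) = p x := by
      intro x
      have := hhom (-1) x
      simpa using this
    have hpos : ∀ x, 0 ≤ p x := by
      intro x
      have h := hsub x (-x)
      rw [add_neg_cancel, hp0, hneg] at h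
      linarith only [h]
    -- the set of dual norm bounds
    let 𝒮 : Set ℝ := {c | ∃ m : Q, (∃ w : Q →ₗ[ℤ] ℝ, w m ≠ 0) ∧ ∀ w : Q →ₗ[ℤ] ℝ, w m ≤ c * p w}
    have hne : 𝒮.Nonempty := by
      have hnt : Nontrivial (Q →ₗ[ℤ] ℝ) :=
        Module.nontrivial_of_finrank_pos (R := ℝ) (by omega)
      obtain ⟨w, hw⟩ := exists_ne (0 : Q →ₗ[ℤ] ℝ)
      have : ∃ m, w m ≠ 0 := by
        by_contra hcon
        push Not at hcon
        exact hw (LinearMap.ext hcon)
      obtain ⟨m, hm⟩ := this
      obtain ⟨c, hc⟩ := hbd m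
      exact ⟨c, m, ⟨w, hm⟩, hc⟩
    have hlb : ∀ c ∈ 𝒮, lam ≤ c := by
      rintro c ⟨m, hm, hc⟩
      exact hdual m hm c hc
    have hbdd : BddBelow 𝒮 := ⟨lam, hlb⟩
    let l₁ := sInf 𝒮
    have hl₁ : lam ≤ l₁ := le_csInf hne hlb
    have hl₁pos : 0 < l₁ := lt_of_lt_of_le hlam hl₁
    obtain ⟨c₁, ⟨u, hu, hc₁⟩, hc₁lt⟩ := exists_lt_of_csInf_lt hne
      (show sInf 𝒮 < (5 / 4) * l₁ by show l₁ < _; linarith only [hlam, hl₁])
    have hinf : ∀ c ∈ 𝒮, l₁ ≤ c := fun c hc => csInf_le hbdd hc
    have hc₁abs : ∀ w : Q →ₗ[ℤ] ℝ, |w u| ≤ c₁ * p w := by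
      intro w
      rw [abs_le]
      constructor
      · have := hc₁ (-w)
        rw [hneg] at this
        simp only [LinearMap.neg_apply] at this
        linarith only [this]
      · exact hc₁ w
    -- primitivity
    obtain ⟨u', l, w₀, hlpos, hw₀, hrel⟩ := primitive_aux u hu
    have hl1 : l = 1 := by
      have hlR : (0 : ℝ) < l := by exact_mod_cast hlpos
      have hmem : c₁ / l ∈ 𝒮 := by
        refine ⟨u', ?_, ?_⟩
        · obtain ⟨w, hw⟩ := hu
          refine ⟨w, fun h => hw ?_⟩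
          rw [hrel w, h, mul_zero]
        · intro w
          have h1 := hc₁ w
          rw [hrel w] at h1
          rw [div_mul_eq_mul_div, le_div_iff₀ hlR]
          linarith only [h1]
      have h2 := hinf _ hmem
      rw [le_div_iff₀ hlR] at h2
      have h3 : (l : ℝ) < 2 := by
        by_contra hcon
        push Not at hcon
        nlinarith only [hlam, hc₁lt, h2, hcon, hl₁]
      have h4 : l < 2 := by exact_mod_cast h3
      omega
    subst hl1
    -- the quotient
    let U := Submodule.span ℤ {u}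
    have hn' : finrank ℝ ((Q ⧸ U) →ₗ[ℤ] ℝ) = n := by
      have := finrank_pull u hu
      change finrank ℝ ((Q ⧸ U) →ₗ[ℤ] ℝ) + 1 = _ at this
      omega
    have hpullu : ∀ w' : (Q ⧸ U) →ₗ[ℤ] ℝ, pull U w' u = 0 := by
      intro w'
      have h0 : U.mkQ u = 0 := by
        simp [U, Submodule.mem_span_singleton_self]
      rw [pull_apply, h0, map_zero]
    have key : ∀ m' : Q ⧸ U, (∃ w' : (Q ⧸ U) →ₗ[ℤ] ℝ, w' m' ≠ 0) →
        ∀ c, (∀ w' : (Q ⧸ U) →ₗ[ℤ] ℝ, w' m' ≤ c * p (pull U w')) → (3 / 8) * l₁ ≤ c := by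
      intro m' hm' c hc
      obtain ⟨m, rfl⟩ := Submodule.mkQ_surjective U m'
      obtain ⟨w₁, hw₁⟩ := hm'
      have hcpos : 0 < c := by
        rcases lt_or_gt_of_ne hw₁ with h | h
        · have h1 := hc (-w₁)
          have h2 : 0 < c * p (pull U (-w₁)) := by
            refine lt_of_lt_of_le ?_ h1
            simp only [LinearMap.neg_apply]
            linarith only [h]
          by_contra hcon
          push Not at hcon
          have := mul_nonpos_of_nonpos_of_nonneg hcon (hpos (pull U (-w₁)))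
          linarith only [h2, this]
        · have h1 := hc w₁
          have h2 : 0 < c * p (pull U w₁) := lt_of_lt_of_le h h1
          by_contra hcon
          push Not at hcon
          have := mul_nonpos_of_nonpos_of_nonneg hcon (hpos (pull U w₁))
          linarith only [h, h1, this]
      let K : Submodule ℝ (Q →ₗ[ℤ] ℝ) := LinearMap.ker (evalL u)
      let f : (Q →ₗ[ℤ] ℝ) →ₗ.[ℝ] ℝ := ⟨K, (evalL m).comp K.subtype⟩
      obtain ⟨g, hg1, hg2⟩ := exists_extension_of_le_sublinear f (fun w => c * p w)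
        (by
          intro d hd x
          show c * p (d • x) = d * (c * p x)
          rw [hhom, abs_of_pos hd]; ring)
        (by
          intro x y
          show c * p (x + y) ≤ c * p x + c * p y
          have := hsub x y
          nlinarith only [hcpos, this])
        (by
          rintro ⟨x, hx⟩
          have hx' : x u = 0 := hx
          obtain ⟨x', rfl⟩ := exists_pull u x hx'
          exact hc x')
      obtain ⟨wu, hwu⟩ := hu
      let w₂ : Q →ₗ[ℤ] ℝ := (wu u)⁻¹ • wu
      have hw₂ : w₂ u = 1 := by simp [w₂, hwu]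
      let t : ℝ := g w₂ - w₂ m
      have hgt : ∀ w : Q →ₗ[ℤ] ℝ, g w = w m + t * w u := by
        intro w
        have hk : w - (w u) • w₂ ∈ K := by
          show (w - (w u) • w₂) u = 0
          simp [hw₂]
        have h1 := hg1 ⟨_, hk⟩
        have h2 : f ⟨_, hk⟩ = (w - (w u) • w₂) m := rfl
        rw [h2] at h1
        simp only [map_sub, map_smul, LinearMap.sub_apply, LinearMap.smul_apply,
          smul_eq_mul] at h1
        simp only [t]
        linarith only [h1]
      let z : ℤ := round t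
      have hz : |t - z| ≤ 1 / 2 := abs_sub_round t
      have hmem : c + c₁ / 2 ∈ 𝒮 := by
        refine ⟨m + z • u, ⟨pull U w₁, ?_⟩, ?_⟩
        · rw [map_add, map_smul, hpullu]
          simpa only [pull_apply, Submodule.mkQ_apply, smul_zero, add_zero, ne_eq] using hw₁
        · intro w
          have h1 := hg2 w
          rw [hgt w] at h1
          have h2 : w (m + z • u) = w m + z * w u := by
            rw [map_add, map_smul]; simp
          rw [h2]
          have h3 : (z : ℝ) * w u = t * w u - (t - z) * w u := by ring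
          have h4 : -((t - z) * w u) ≤ (1 / 2) * (c₁ * p w) := by
            have h5 : |(t - z) * w u| ≤ (1 / 2) * (c₁ * p w) := by
              rw [abs_mul]
              exact mul_le_mul hz (hc₁abs w) (abs_nonneg _) (by norm_num)
            have := neg_abs_le ((t - z) * w u)
            linarith only [h5, this]
          rw [h3]
          have h6 : w m + t * w u ≤ c * p w := h1
          linarith only [h1, h4]
      have := hinf _ hmem
      linarith only [hc₁lt, this]
    -- a short vector with value one on `u`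
    have hx₀ : ∃ x₀ : Q →ₗ[ℤ] ℝ, x₀ u = 1 ∧ p x₀ ≤ 2 / l₁ := by
      by_contra hcon
      have hmem : l₁ / 2 ∈ 𝒮 := by
        refine ⟨u, hu, ?_⟩
        intro w
        by_contra hw
        push Not at hw
        have hwpos : 0 < w u := lt_of_le_of_lt (by have := hpos w; (clear * - hl₁pos this; positivity)) hw
        apply hcon
        refine ⟨(w u)⁻¹ • w, by simp [hwpos.ne'], ?_⟩
        rw [hhom, abs_of_pos (inv_pos.mpr hwpos), inv_mul_le_iff₀ hwpos,
          mul_div_assoc', le_div_iff₀ hl₁pos]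
        linarith only [hw]
      have := hinf _ hmem
      linarith only [hlam, hl₁, this]
    obtain ⟨x₀, hx₀u, hx₀p⟩ := hx₀
    let zz : ℤ := round (a u)
    let Δ : ℝ := zz - a u
    have hΔ : |Δ| ≤ 1 / 2 := by
      have := abs_sub_round (a u)
      simp only [Δ, zz]
      rwa [abs_sub_comm]
    let a₂ : Q →ₗ[ℤ] ℝ := a + Δ • x₀ - (zz : ℝ) • toR w₀
    have ha₂ : a₂ u = 0 := by
      simp only [a₂, LinearMap.sub_apply, LinearMap.add_apply, LinearMap.smul_apply, hx₀u,
        toR_apply, hw₀, smul_eq_mul, Δ]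
      push_cast
      ring
    obtain ⟨a', ha'⟩ := exists_pull u a₂ ha₂
    obtain ⟨w', hw'⟩ := ih (Q ⧸ U) hn' (fun x => p (pull U x))
      (by intro x y; show p (pull U (x + y)) ≤ _; rw [map_add]; exact hsub _ _)
      (by intro c x; show p (pull U (c • x)) = _; rw [map_smul]; exact hhom _ _)
      (by
        intro m'
        obtain ⟨m, rfl⟩ := Submodule.mkQ_surjective U m'
        obtain ⟨c, hc⟩ := hbd m
        exact ⟨c, fun w => hc (pull U w)⟩)
      ((3 / 8) * l₁) (by positivity) key a'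
    refine ⟨w' ∘ₗ U.mkQ + zz • w₀, ?_⟩
    have hdecomp : toR (w' ∘ₗ U.mkQ + zz • w₀) - a = pull U (toR w' - a') + Δ • x₀ := by
      rw [map_sub]
      have h1 : pull U a' = a₂ := ha'
      rw [h1]
      ext m
      simp only [a₂, toR_apply, LinearMap.sub_apply, LinearMap.add_apply, LinearMap.smul_apply,
        LinearMap.comp_apply, pull_apply, smul_eq_mul]
      push_cast
      ring
    rw [hdecomp]
    have h1 := hsub (pull U (toR w' - a')) (Δ • x₀)
    have h2 : p (Δ • x₀) ≤ 1 / l₁ := by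
      rw [hhom]
      have h3 : |Δ| * p x₀ ≤ (1 / 2) * (2 / l₁) :=
        mul_le_mul hΔ hx₀p (hpos _) (by norm_num)
      have h4 : (1 / 2) * (2 / l₁) = 1 / l₁ := by ring
      linarith only [h3, h4]
    have h3 : p (pull U (toR w' - a')) ≤ 4 ^ n / ((3 / 8) * l₁) := hw'
    have h4 : (4 : ℝ) ^ n / ((3 / 8) * l₁) + 1 / l₁ ≤ 4 ^ (n + 1) / l₁ := by
      have e1 : (4 : ℝ) ^ n / ((3 / 8) * l₁) = ((8 / 3) * 4 ^ n) / l₁ := by
        (clear * - hl₁pos; field_simp)
      rw [e1, ← add_div]
      apply div_le_div_of_nonneg_right _ hl₁pos.le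
      have : (1 : ℝ) ≤ 4 ^ n := one_le_pow₀ (by norm_num)
      rw [pow_succ]
      linarith only [this]
    have h5 : (4 : ℝ) ^ (n + 1) / l₁ ≤ 4 ^ (n + 1) / lam :=
      div_le_div_of_nonneg_left (by positivity) hlam hl₁
    linarith only [hw', h1, h2, h4, h5]

end Vale.Agent.P283
end
end

section

section

open Module Set

namespace Vale.Agent.P283

section Normed

variable {E : Type*} [NormedAddCommGroup E] [NormedSpace ℝ E] [FiniteDimensional ℝ E]
variable {ι : Type*} (h : ι → E →ₗ[ℝ] ℝ) (ψ : E →ₗ[ℝ] ℝ)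
  (hψ : ∀ x, (∀ a, 0 ≤ h a x) → x ≠ 0 → 0 < ψ x)

include hψ in
lemma cone_bdd : ∃ B : ℝ, 0 < B ∧ ∀ x, (∀ a, 0 ≤ h a x) → ‖x‖ ≤ B * ψ x := by
  let S : Set E := {x | ∀ a, 0 ≤ h a x} ∩ Metric.sphere 0 1
  have hclosed : IsClosed {x : E | ∀ a, 0 ≤ h a x} := by
    rw [Set.ofPred_forall]
    exact isClosed_iInter fun a =>
      isClosed_le continuous_const (LinearMap.continuous_of_finiteDimensional (h a))
  have hS : IsCompact S := (isCompact_sphere 0 1).inter_left hclosed
  have hψc : Continuous ψ := LinearMap.continuous_of_finiteDimensional ψ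
  rcases S.eq_empty_or_nonempty with hSe | hSn
  · refine ⟨1, one_pos, ?_⟩
    intro x hx
    by_cases hx0 : x = 0
    · subst hx0; simp
    · exfalso
      have hn : 0 < ‖x‖ := norm_pos_iff.mpr hx0
      have : (‖x‖⁻¹ • x) ∈ S := by
        refine ⟨?_, ?_⟩
        · intro a
          rw [map_smul, smul_eq_mul]
          exact mul_nonneg (inv_nonneg.mpr hn.le) (hx a)
        · simp only [mem_sphere_iff_norm, sub_zero, norm_smul, norm_inv, norm_norm, ne_eq, hn.ne', not_false_eq_true, inv_mul_cancel₀]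
      rw [hSe] at this
      exact this
  · obtain ⟨y, hyS, hy⟩ := hS.exists_isMinOn hSn hψc.continuousOn
    have hy0 : y ≠ 0 := by
      rintro rfl
      have := hyS.2
      simp at this
    have hm : 0 < ψ y := hψ y hyS.1 hy0
    refine ⟨(ψ y)⁻¹, inv_pos.mpr hm, ?_⟩
    intro x hx
    by_cases hx0 : x = 0
    · subst hx0; simp
    · have hn : 0 < ‖x‖ := norm_pos_iff.mpr hx0
      have hmem : (‖x‖⁻¹ • x) ∈ S := by
        refine ⟨?_, ?_⟩
        · intro a
          rw [map_smul, smul_eq_mul]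
          exact mul_nonneg (inv_nonneg.mpr hn.le) (hx a)
        · simp [norm_smul, hn.ne']
      have h1 : ψ y ≤ ψ (‖x‖⁻¹ • x) := hy hmem
      rw [map_smul, smul_eq_mul, le_inv_mul_iff₀ hn] at h1
      rw [inv_mul_eq_div, le_div_iff₀ hm]
      exact h1

lemma cone_closed : IsClosed {x : E | ∀ a, 0 ≤ h a x} := by
  rw [Set.ofPred_forall]
  exact isClosed_iInter fun a =>
    isClosed_le continuous_const (LinearMap.continuous_of_finiteDimensional (h a))

include hψ in
lemma slice_compact : IsCompact {x : E | (∀ a, 0 ≤ h a x) ∧ ψ x = 1} := by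
  obtain ⟨B, hB, hb⟩ := cone_bdd h ψ hψ
  have hψc : Continuous ψ := LinearMap.continuous_of_finiteDimensional ψ
  have hcl : IsClosed {x : E | (∀ a, 0 ≤ h a x) ∧ ψ x = 1} :=
    (cone_closed h).inter (isClosed_eq hψc continuous_const)
  refine Metric.isCompact_of_isClosed_isBounded hcl ?_
  refine (Metric.isBounded_closedBall (x := (0 : E)) (r := B)).subset ?_
  rintro x ⟨hx, hx1⟩
  have := hb x hx
  rw [hx1, mul_one] at this
  simpa only [Metric.mem_closedBall, dist_zero_right, ge_iff_le] using this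

include hψ in
/-- approximate Auerbach basis of a pointed cone -/
lemma auerbach_normed : ∃ (e : ℕ) (v : Fin e → E), e ≤ finrank ℝ E ∧
    (∀ i, (∀ a, 0 ≤ h a (v i)) ∧ ψ (v i) = 1) ∧ LinearIndependent ℝ v ∧
    ∀ x, (∀ a, 0 ≤ h a x) → ∃ t : Fin e → ℝ, (∀ i, |t i| ≤ ψ x) ∧ x = ∑ i, t i • v i := by
  classical
  let K₁ : Set E := {x : E | (∀ a, 0 ≤ h a x) ∧ ψ x = 1}
  have hK : IsCompact K₁ := slice_compact h ψ hψ
  obtain ⟨e, f, he, hfK, hfspan, hfli⟩ : ∃ (e : ℕ) (f : Fin e → E),
      e = finrank ℝ (Submodule.span ℝ K₁) ∧ (∀ i, f i ∈ K₁) ∧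
      Submodule.span ℝ (Set.range f) = Submodule.span ℝ K₁ ∧ LinearIndependent ℝ f := by
    obtain ⟨f, hf⟩ := Submodule.exists_fun_fin_finrank_span_eq ℝ K₁
    exact ⟨_, f, rfl, hf⟩
  -- functionals dual to `f`
  let b := Basis.span hfli
  have hs : ∀ j : Fin e, ∃ s : E →ₗ[ℝ] ℝ, ∀ i, s (f i) = if i = j then 1 else 0 := by
    intro j
    obtain ⟨g, hg⟩ := LinearMap.exists_extend (b.coord j)
    refine ⟨g, ?_⟩
    intro i
    have h1 : g (f i) = (b.coord j) (b i) := by
      rw [← hg]
      simp [b, Basis.span_apply]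
    rw [h1, Basis.coord_apply, Basis.repr_self, Finsupp.single_apply]
  choose s hs using hs
  let A : (Fin e → E) → Matrix (Fin e) (Fin e) ℝ := fun v => Matrix.of fun i j => s j (v i)
  have hAc : Continuous fun v => |(A v).det| := by
    refine Continuous.abs (Continuous.matrix_det ?_)
    refine continuous_matrix ?_
    intro i j
    exact (LinearMap.continuous_of_finiteDimensional (s j)).comp (continuous_apply i)
  have hcomp : IsCompact (Set.pi Set.univ (fun _ : Fin e => K₁)) :=
    isCompact_univ_pi fun _ => hK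
  obtain ⟨v, hvK, hv⟩ := hcomp.exists_isMaxOn ⟨f, fun i _ => hfK i⟩ hAc.continuousOn
  have hvK' : ∀ i, v i ∈ K₁ := fun i => hvK i (Set.mem_univ i)
  have hAf : A f = 1 := by
    ext i j
    simp [A, hs, Matrix.one_apply]
  have hdet : 1 ≤ |(A v).det| := by
    have h1 : |(A f).det| ≤ |(A v).det| := hv (show f ∈ _ from fun i _ => hfK i)
    rw [hAf] at h1
    simpa only [ge_iff_le, Matrix.det_one, abs_one] using h1
  have hdet0 : (A v).det ≠ 0 := by
    intro h0
    rw [h0] at hdet
    simp at hdet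
    linarith only [hdet]
  have hli : LinearIndependent ℝ v := by
    rw [Fintype.linearIndependent_iff]
    intro c hc
    have h1 : Matrix.vecMul c (A v) = 0 := by
      ext j
      simp only [Matrix.vecMul, dotProduct, A, Matrix.of_apply, Pi.zero_apply]
      have h2 : s j (∑ i, c i • v i) = 0 := by rw [hc, map_zero]
      rw [map_sum] at h2
      simpa only [map_smul, smul_eq_mul] using h2
    have h3 := Matrix.eq_zero_of_vecMul_eq_zero hdet0 h1
    intro i
    exact congrFun h3 i
  have hspan : Submodule.span ℝ (Set.range v) = Submodule.span ℝ K₁ := by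
    apply Submodule.eq_of_le_of_finrank_eq
    · rw [Submodule.span_le]
      rintro _ ⟨i, rfl⟩
      exact Submodule.subset_span (hvK' i)
    · rw [finrank_span_eq_card hli, Fintype.card_fin, he]
  refine ⟨e, v, by rw [he]; exact Submodule.finrank_le _, fun i => hvK' i, hli, ?_⟩
  intro x hx
  by_cases hx0 : x = 0
  · subst hx0
    exact ⟨0, by simp, by simp only [Pi.zero_apply, zero_smul, Finset.sum_const_zero]⟩
  · have hpos := hψ x hx hx0
    have hx'K : ((ψ x)⁻¹ • x) ∈ K₁ := by
      refine ⟨?_, ?_⟩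
      · intro a
        rw [map_smul, smul_eq_mul]
        exact mul_nonneg (inv_nonneg.mpr hpos.le) (hx a)
      · rw [map_smul, smul_eq_mul, inv_mul_cancel₀ hpos.ne']
    have hmem : ((ψ x)⁻¹ • x) ∈ Submodule.span ℝ (Set.range v) := by
      rw [hspan]; exact Submodule.subset_span hx'K
    obtain ⟨t, ht⟩ := (Submodule.mem_span_range_iff_exists_fun ℝ).mp hmem
    have htle : ∀ i, |t i| ≤ 1 := by
      intro i
      have h1 : |(A (Function.update v i ((ψ x)⁻¹ • x))).det| ≤ |(A v).det| := by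
        apply hv
        intro j _
        by_cases hj : j = i
        · subst hj; simpa using hx'K
        · simpa [Function.update_of_ne hj] using hvK' j
      have h2 : A (Function.update v i ((ψ x)⁻¹ • x))
          = (A v).updateRow i (∑ k, t k • (A v) k) := by
        ext j l
        by_cases hj : j = i
        · subst hj
          rw [Matrix.updateRow_self]
          simp only [A, Matrix.of_apply, Function.update_self, ← ht, map_sum, map_smul,
            Finset.sum_apply, Pi.smul_apply]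
        · rw [Matrix.updateRow_ne hj]
          simp [A, Function.update_of_ne hj]
      rw [h2, Matrix.det_updateRow_sum, smul_eq_mul, abs_mul] at h1
      have h3 : 0 < |(A v).det| := by linarith only [hdet]
      by_contra hcon
      push Not at hcon
      nlinarith only [h1, hcon, hdet]
    refine ⟨fun i => ψ x * t i, ?_, ?_⟩
    · intro i
      rw [abs_mul, abs_of_pos hpos]
      have := htle i
      nlinarith only [hpos, this]
    · simp only [mul_smul]
      rw [← Finset.smul_sum, ht, smul_smul, mul_inv_cancel₀ hpos.ne', one_smul]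

include hψ in
/-- a one-constraint Farkas lemma with slack -/
lemma one_constraint_normed (u f : E →ₗ[ℝ] ℝ)
    (hf : ∀ x, (∀ a, 0 ≤ h a x) → u x = 0 → 0 ≤ f x) (δ : ℝ) (hδ : 0 < δ) :
    ∃ t : ℝ, ∀ x, (∀ a, 0 ≤ h a x) → -(δ * ψ x) ≤ f x + t * u x := by
  let K₁ : Set E := {x : E | (∀ a, 0 ≤ h a x) ∧ ψ x = 1}
  have hK : IsCompact K₁ := slice_compact h ψ hψ
  have huc : Continuous u := LinearMap.continuous_of_finiteDimensional u
  have hψc : Continuous ψ := LinearMap.continuous_of_finiteDimensional ψ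
  have hfc : Continuous f := LinearMap.continuous_of_finiteDimensional f
  let g : E →ₗ[ℝ] ℝ := f + δ • ψ
  have hgc : Continuous g := LinearMap.continuous_of_finiteDimensional g
  have hgx : ∀ x, g x = f x + δ * ψ x := fun x => rfl
  -- it suffices to work on the slice
  suffices hmain : ∃ t : ℝ, ∀ x ∈ K₁, 0 ≤ g x + t * u x by
    obtain ⟨t, ht⟩ := hmain
    refine ⟨t, ?_⟩
    intro x hx
    by_cases hx0 : x = 0
    · subst hx0; simp
    · have hpos := hψ x hx hx0
      have hx'K : ((ψ x)⁻¹ • x) ∈ K₁ := by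
        refine ⟨?_, ?_⟩
        · intro a
          rw [map_smul, smul_eq_mul]
          exact mul_nonneg (inv_nonneg.mpr hpos.le) (hx a)
        · rw [map_smul, smul_eq_mul, inv_mul_cancel₀ hpos.ne']
      have h1 := ht _ hx'K
      rw [map_smul, map_smul, smul_eq_mul, smul_eq_mul] at h1
      have h2 : (ψ x)⁻¹ * g x + t * ((ψ x)⁻¹ * u x) = (ψ x)⁻¹ * (g x + t * u x) := by ring
      rw [h2] at h1
      have h3 : 0 ≤ g x + t * u x := by
        by_contra hcon
        push Not at hcon
        have := mul_neg_of_pos_of_neg (inv_pos.mpr hpos) hcon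
        linarith only [h1, this]
      rw [hgx] at h3
      linarith only [h3]
  have hg0 : ∀ x ∈ K₁, u x = 0 → 0 < g x := by
    intro x hx hux
    have h1 := hf x hx.1 hux
    rw [hgx, hx.2]
    linarith
  let A : Set E := K₁ ∩ {x | g x ≤ 0}
  have hA : IsCompact A := hK.inter_right (isClosed_le hgc continuous_const)
  have hconv : ∀ x ∈ K₁, ∀ y ∈ K₁, ∀ a b : ℝ, 0 ≤ a → 0 ≤ b → a + b = 1 → a • x + b • y ∈ K₁ := by
    intro x hx y hy a b ha hb hab
    refine ⟨?_, ?_⟩
    · intro i
      rw [map_add, map_smul, map_smul, smul_eq_mul, smul_eq_mul]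
      exact add_nonneg (mul_nonneg ha (hx.1 i)) (mul_nonneg hb (hy.1 i))
    · rw [map_add, map_smul, map_smul, hx.2, hy.2]
      simpa using hab
  -- key: combine a point with `u > 0` and one with `u < 0`
  have hcomb : ∀ x ∈ K₁, ∀ y ∈ K₁, 0 < u x → u y < 0 → 0 < (-u y) * g x + u x * g y := by
    intro x hx y hy hux huy
    have hs : 0 < -u y + u x := by linarith
    have hz := hconv x hx y hy ((-u y) / (-u y + u x)) (u x / (-u y + u x))
      (div_nonneg (by linarith) hs.le) (div_nonneg hux.le hs.le)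
      (by rw [← add_div, div_self hs.ne'])
    have huz : u (((-u y) / (-u y + u x)) • x + (u x / (-u y + u x)) • y) = 0 := by
      rw [map_add, map_smul, map_smul, smul_eq_mul, smul_eq_mul]
      field_simp
      ring
    have h1 := hg0 _ hz huz
    rw [map_add, map_smul, map_smul, smul_eq_mul, smul_eq_mul] at h1
    have h2 : (-u y) / (-u y + u x) * g x + u x / (-u y + u x) * g y
        = ((-u y) * g x + u x * g y) / (-u y + u x) := by
      rw [add_div]; ring
    rw [h2] at h1
    exact (div_pos_iff_of_pos_right hs).mp h1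
  rcases A.eq_empty_or_nonempty with hAe | ⟨x₁, hx₁⟩
  · refine ⟨0, ?_⟩
    intro x hx
    by_contra hcon
    push Not at hcon
    have : x ∈ A := ⟨hx, by simp only [zero_mul, add_zero] at hcon; exact hcon.le⟩
    rw [hAe] at this
    exact this
  · have hx₁u : u x₁ ≠ 0 := by
      intro h0
      have := hg0 x₁ hx₁.1 h0
      have h2 : g x₁ ≤ 0 := hx₁.2
      linarith
    rcases lt_or_gt_of_ne hx₁u with hneg | hpos
    · -- all of `A` has `u < 0`
      have hAneg : ∀ x ∈ A, u x < 0 := by
        intro x hx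
        rcases lt_trichotomy (u x) 0 with h1 | h1 | h1
        · exact h1
        · exfalso
          have := hg0 x hx.1 h1
          have h2 : g x ≤ 0 := hx.2
          linarith
        · exfalso
          have := hcomb x hx.1 x₁ hx₁.1 h1 hneg
          have h2 : g x ≤ 0 := hx.2
          have h3 : g x₁ ≤ 0 := hx₁.2
          nlinarith only [this, hneg, h2, h1, h3]
      obtain ⟨y, hyA, hy⟩ := hA.exists_isMaxOn ⟨x₁, hx₁⟩
        (f := fun x => g x / u x)
        (hgc.continuousOn.div huc.continuousOn fun x hx => (hAneg x hx).ne)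
      have huy := hAneg y hyA
      refine ⟨-(g y / u y), ?_⟩
      intro x hx
      by_cases hgx0 : g x ≤ 0
      · have h1 : g x / u x ≤ g y / u y := hy ⟨hx, hgx0⟩
        have h2 := hAneg x ⟨hx, hgx0⟩
        rw [div_le_iff_of_neg h2] at h1
        linarith only [h1]
      · push Not at hgx0
        have h3 : 0 ≤ g y / u y := div_nonneg_of_nonpos hyA.2 huy.le
        rcases le_or_gt (u x) 0 with h4 | h4
        · nlinarith only [hgx0, h3, h4]
        · have h5 := hcomb x hx y hyA.1 h4 huy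
          have h6 : g x - (g y / u y) * u x = ((-u y) * g x + u x * g y) / (-u y) := by
            have hne : u y ≠ 0 := huy.ne
            field_simp
            ring
          have h7 : 0 < ((-u y) * g x + u x * g y) / (-u y) := div_pos h5 (by linarith only [huy])
          linarith only [h6, h7]
    · have hApos : ∀ x ∈ A, 0 < u x := by
        intro x hx
        rcases lt_trichotomy (u x) 0 with h1 | h1 | h1
        · exfalso
          have := hcomb x₁ hx₁.1 x hx.1 hpos h1
          have h2 : g x ≤ 0 := hx.2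
          have h3 : g x₁ ≤ 0 := hx₁.2
          nlinarith only [this, hpos, h2, h1, h3]
        · exfalso
          have := hg0 x hx.1 h1
          have h2 : g x ≤ 0 := hx.2
          linarith
        · exact h1
      obtain ⟨y, hyA, hy⟩ := hA.exists_isMinOn ⟨x₁, hx₁⟩
        (f := fun x => g x / u x)
        (hgc.continuousOn.div huc.continuousOn fun x hx => (hApos x hx).ne')
      have huy := hApos y hyA
      refine ⟨-(g y / u y), ?_⟩
      intro x hx
      by_cases hgx0 : g x ≤ 0
      · have h1 : g y / u y ≤ g x / u x := hy ⟨hx, hgx0⟩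
        have h2 := hApos x ⟨hx, hgx0⟩
        rw [le_div_iff₀ h2] at h1
        linarith only [h1]
      · push Not at hgx0
        have h3 : g y / u y ≤ 0 := div_nonpos_of_nonpos_of_nonneg hyA.2 huy.le
        rcases le_or_gt 0 (u x) with h4 | h4
        · nlinarith only [hgx0, h3, h4]
        · have h5 := hcomb y hyA.1 x hx huy h4
          have h6 : g x - (g y / u y) * u x = ((-u x) * g y + u y * g x) / (u y) := by
            have hne : u y ≠ 0 := huy.ne'
            field_simp
            ring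
          have h7 : 0 < ((-u x) * g y + u y * g x) / (u y) := div_pos h5 huy
          linarith only [h6, h7]

end Normed

section General

variable {V : Type*} [AddCommGroup V] [Module ℝ V] [Module.Finite ℝ V]

omit [Module.Finite ℝ V] in
lemma dual_functionals {e : ℕ} {v : Fin e → V} (hli : LinearIndependent ℝ v) :
    ∃ t : Fin e → V →ₗ[ℝ] ℝ, ∀ i j, t j (v i) = if i = j then 1 else 0 := by
  let b := Basis.span hli
  have hs : ∀ j : Fin e, ∃ s : V →ₗ[ℝ] ℝ, ∀ i, s (v i) = if i = j then 1 else 0 := by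
    intro j
    obtain ⟨g, hg⟩ := LinearMap.exists_extend (b.coord j)
    refine ⟨g, ?_⟩
    intro i
    have h1 : g (v i) = (b.coord j) (b i) := by
      rw [← hg]
      simp [b, Basis.span_apply]
    rw [h1, Basis.coord_apply, Basis.repr_self, Finsupp.single_apply]
  choose t ht using hs
  exact ⟨t, fun i j => ht j i⟩

variable {ι : Type*} (h : ι → V →ₗ[ℝ] ℝ) (ψ : V →ₗ[ℝ] ℝ)
  (hψ : ∀ x, (∀ a, 0 ≤ h a x) → x ≠ 0 → 0 < ψ x)

include hψ in
lemma auerbach : ∃ (e : ℕ) (v : Fin e → V), e ≤ finrank ℝ V ∧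
    (∀ i, (∀ a, 0 ≤ h a (v i)) ∧ ψ (v i) = 1) ∧ LinearIndependent ℝ v ∧
    ∀ x, (∀ a, 0 ≤ h a x) → ∃ t : Fin e → ℝ, (∀ i, |t i| ≤ ψ x) ∧ x = ∑ i, t i • v i := by
  let e := (Module.finBasis ℝ V).equivFun
  let _ : NormedAddCommGroup V := NormedAddCommGroup.induced V (Fin (finrank ℝ V) → ℝ) e e.injective
  let _ : NormedSpace ℝ V := NormedSpace.induced ℝ V (Fin (finrank ℝ V) → ℝ) e
  exact auerbach_normed h ψ hψ

include hψ in
lemma one_constraint (u f : V →ₗ[ℝ] ℝ)
    (hf : ∀ x, (∀ a, 0 ≤ h a x) → u x = 0 → 0 ≤ f x) (δ : ℝ) (hδ : 0 < δ) :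
    ∃ t : ℝ, ∀ x, (∀ a, 0 ≤ h a x) → -(δ * ψ x) ≤ f x + t * u x := by
  let e := (Module.finBasis ℝ V).equivFun
  let _ : NormedAddCommGroup V := NormedAddCommGroup.induced V (Fin (finrank ℝ V) → ℝ) e e.injective
  let _ : NormedSpace ℝ V := NormedSpace.induced ℝ V (Fin (finrank ℝ V) → ℝ) e
  exact one_constraint_normed h ψ hψ u f hf δ hδ

end General

end Vale.Agent.P283
end
end

section

section

open Module Set

namespace Vale.Agent.P283

universe v

/-- integral points with all functionals bounded form a finite set -/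
lemma finite_bounded_points {Q : Type v} [AddCommGroup Q] [Module.Finite ℤ Q]
    (F : Set (Q →ₗ[ℤ] ℤ)) (hF : ∀ m : Q, ∃ B : ℝ, ∀ w ∈ F, |toR w m| ≤ B) : F.Finite := by
  obtain ⟨n, s, hs⟩ := Module.Finite.exists_fin (R := ℤ) (M := Q)
  choose B hB using hF
  let C : Fin n → ℤ := fun i => ⌈B (s i)⌉
  have hinj : Set.InjOn (fun (w : Q →ₗ[ℤ] ℤ) (i : Fin n) => w (s i)) F := by
    intro x _ y _ hxy
    apply LinearMap.ext_on (s := Set.range s) hs
    rintro _ ⟨i, rfl⟩
    exact congrFun hxy i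
  refine Set.Finite.of_finite_image ?_ hinj
  refine (Set.finite_Icc (-C) C).subset ?_
  rintro _ ⟨w, hw, rfl⟩
  have hb : ∀ i, |w (s i)| ≤ C i := by
    intro i
    have h1 := hB (s i) w hw
    rw [toR_apply] at h1
    have h2 : (|w (s i)| : ℝ) ≤ (C i : ℝ) := h1.trans (Int.le_ceil _)
    exact_mod_cast h2
  refine ⟨fun i => ?_, fun i => ?_⟩
  · have := (abs_le.mp (hb i)).1
    simpa only [Pi.neg_apply, ge_iff_le] using this
  · exact (abs_le.mp (hb i)).2

/-- the constant of the key lemma -/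
noncomputable def Kc (n : ℕ) : ℝ := 7 * (n : ℝ) ^ 2 * 4 ^ n

/-- Flatness of a cone free of small lattice points. -/
theorem key_lemma (Q : Type v) [AddCommGroup Q] [Module.Finite ℤ Q] {ι : Type*} (h : ι → Q)
    (ψ : (Q →ₗ[ℤ] ℝ) →ₗ[ℝ] ℝ)
    (hψ : ∀ w : Q →ₗ[ℤ] ℝ, (∀ a, 0 ≤ w (h a)) → w ≠ 0 → 0 < ψ w) (ε : ℝ) (hε : 0 < ε)
    (hlc : ∀ w : Q →ₗ[ℤ] ℤ, (∀ a, 0 ≤ toR w (h a)) → toR w ≠ 0 → ε ≤ ψ (toR w))
    (hn : 0 < finrank ℝ (Q →ₗ[ℤ] ℝ)) :
    ∃ u : Q, (∃ w : Q →ₗ[ℤ] ℝ, w u ≠ 0) ∧
      ∀ w : Q →ₗ[ℤ] ℝ, (∀ a, 0 ≤ w (h a)) → |w u| ≤ (Kc (finrank ℝ (Q →ₗ[ℤ] ℝ)) / ε) * ψ w := by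
  classical
  set n := finrank ℝ (Q →ₗ[ℤ] ℝ) with hndef
  have hn1 : (1 : ℝ) ≤ n := by exact_mod_cast hn
  have hKpos : 0 < Kc n := by unfold Kc; positivity
  by_contra hcon
  push Not at hcon
  obtain ⟨e, v, he, hv, hli, hx⟩ := auerbach (fun a => evalL (h a)) ψ hψ
  have heR : (e : ℝ) ≤ n := by exact_mod_cast he
  -- some vector of the dual
  obtain ⟨m₀, hm₀⟩ : ∃ m₀ : Q, ∃ w : Q →ₗ[ℤ] ℝ, w m₀ ≠ 0 := by
    have hnt : Nontrivial (Q →ₗ[ℤ] ℝ) := Module.nontrivial_of_finrank_pos (R := ℝ) hn
    obtain ⟨w, hw⟩ := exists_ne (0 : Q →ₗ[ℤ] ℝ)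
    have : ∃ m, w m ≠ 0 := by
      by_contra hc
      push Not at hc
      exact hw (LinearMap.ext hc)
    obtain ⟨m, hm⟩ := this
    exact ⟨m, w, hm⟩
  have he0 : 0 < e := by
    rcases Nat.eq_zero_or_pos e with h0 | h0
    · exfalso
      subst h0
      obtain ⟨w, hw, hlt⟩ := hcon m₀ hm₀
      obtain ⟨t, -, ht⟩ := hx w hw
      simp only [Finset.univ_eq_empty, Finset.sum_empty] at ht
      subst ht
      simp at hlt
    · exact h0
  have heR1 : (1 : ℝ) ≤ e := by exact_mod_cast he0
  obtain ⟨t, ht⟩ := dual_functionals hli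
  -- the projection
  let π : (Q →ₗ[ℤ] ℝ) →ₗ[ℝ] (Q →ₗ[ℤ] ℝ) := LinearMap.id - ∑ i, (t i).smulRight (v i)
  have hπ : ∀ w, π w = w - ∑ i, t i w • v i := by
    intro w
    simp only [LinearMap.sub_apply, LinearMap.id_coe, id_eq, LinearMap.coe_sum, LinearMap.coe_smulRight, Finset.sum_apply, π]
  have hπv : ∀ i, π (v i) = 0 := by
    intro i
    rw [hπ]
    simp only [ht, ite_smul, one_smul, zero_smul, Finset.sum_ite_eq, Finset.mem_univ, ↓reduceIte, sub_self]
  let b := Module.finBasis ℝ (Q →ₗ[ℤ] ℝ)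
  let S : (Q →ₗ[ℤ] ℝ) → ℝ := fun w => ∑ k, |b.coord k (π w)|
  have hS0 : ∀ w, 0 ≤ S w := fun w => Finset.sum_nonneg fun k _ => abs_nonneg _
  have hSsub : ∀ x y, S (x + y) ≤ S x + S y := by
    intro x y
    simp only [S, map_add]
    rw [← Finset.sum_add_distrib]
    exact Finset.sum_le_sum fun k _ => abs_add_le _ _
  have hShom : ∀ (c : ℝ) x, S (c • x) = |c| * S x := by
    intro c x
    simp only [S, map_smul, smul_eq_mul, abs_mul]
    rw [Finset.mul_sum]
  let lam : ℝ := Kc n / (n * ε)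
  have hlam : 0 < lam := by positivity
  let ρ : ℝ := 4 ^ n / lam
  have hρ : 0 < ρ := by positivity
  -- finiteness and the choice of `η`
  let F : Set (Q →ₗ[ℤ] ℤ) := {w | (∀ i, |t i (toR w)| ≤ 3 * ρ) ∧ S (toR w) ≤ ρ}
  have hdecomp : ∀ (w : Q →ₗ[ℤ] ℝ) (m : Q),
      w m = ∑ i, t i w * v i m + ∑ k, b.coord k (π w) * b k m := by
    intro w m
    have h1 : w = (∑ i, t i w • v i) + π w := by rw [hπ]; abel
    have h2 : π w = ∑ k, b.coord k (π w) • b k := (b.sum_repr (π w)).symm
    have h3 : (π w) m = ∑ k, b.coord k (π w) * b k m := by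
      have h4 := congrArg (fun f : Q →ₗ[ℤ] ℝ => f m) h2
      simp only [LinearMap.sum_apply, LinearMap.smul_apply, smul_eq_mul] at h4
      exact h4
    have h5 := congrArg (fun f : Q →ₗ[ℤ] ℝ => f m) h1
    simp only [LinearMap.sum_apply, LinearMap.smul_apply, smul_eq_mul,
      LinearMap.add_apply] at h5
    rw [h3] at h5
    exact h5
  have hFfin : F.Finite := by
    apply finite_bounded_points
    intro m
    refine ⟨∑ i, 3 * ρ * |v i m| + ∑ k, ρ * |b k m|, ?_⟩
    rintro w ⟨hw1, hw2⟩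
    rw [hdecomp (toR w) m]
    refine (abs_add_le _ _).trans (add_le_add ?_ ?_)
    · refine (Finset.abs_sum_le_sum_abs _ _).trans (Finset.sum_le_sum fun i _ => ?_)
      rw [abs_mul]
      exact mul_le_mul_of_nonneg_right (hw1 i) (abs_nonneg _)
    · refine (Finset.abs_sum_le_sum_abs _ _).trans (Finset.sum_le_sum fun k _ => ?_)
      rw [abs_mul]
      refine mul_le_mul_of_nonneg_right ?_ (abs_nonneg _)
      refine le_trans ?_ hw2
      exact Finset.single_le_sum (f := fun k => |b.coord k (π (toR w))|)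
        (fun k _ => abs_nonneg _) (Finset.mem_univ k)
  have hη : ∃ η : ℝ, 0 < η ∧ η ≤ 1 ∧ ∀ w ∈ F, S (toR w) ≤ η * ρ → S (toR w) = 0 := by
    let G : Set (Q →ₗ[ℤ] ℤ) := {w ∈ F | S (toR w) ≠ 0}
    have hG : G.Finite := hFfin.subset fun w hw => hw.1
    rcases G.eq_empty_or_nonempty with hGe | hGn
    · refine ⟨1, one_pos, le_refl _, ?_⟩
      intro w hw _
      by_contra hne
      have : w ∈ G := ⟨hw, hne⟩
      rw [hGe] at this
      exact this
    · obtain ⟨w₁, hw₁, hmin⟩ := Set.exists_min_image G (fun w => S (toR w)) hG hGn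
      have hpos : 0 < S (toR w₁) := lt_of_le_of_ne (hS0 _) (Ne.symm hw₁.2)
      refine ⟨min 1 (S (toR w₁) / (2 * ρ)), by (clear * - hpos hKpos hn hε; positivity), min_le_left _ _, ?_⟩
      intro w hw hle
      by_contra hne
      have h1 := hmin w ⟨hw, hne⟩
      have h2 : min 1 (S (toR w₁) / (2 * ρ)) * ρ ≤ (S (toR w₁) / (2 * ρ)) * ρ :=
        mul_le_mul_of_nonneg_right (min_le_right _ _) hρ.le
      have h3 : (S (toR w₁) / (2 * ρ)) * ρ = S (toR w₁) / 2 := by (clear * - hρ hpos; field_simp)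
      linarith only [hpos, hle, h1, h2, h3]
  obtain ⟨η, hη0, hη1, hηF⟩ := hη
  let p : (Q →ₗ[ℤ] ℝ) → ℝ := fun w => ∑ i, |t i w| + η⁻¹ * S w
  have hη' : 0 < η⁻¹ := inv_pos.mpr hη0
  have hpcone : ∀ w : Q →ₗ[ℤ] ℝ, (∀ a, 0 ≤ w (h a)) → p w ≤ n * ψ w := by
    intro w hw
    obtain ⟨t', ht', hw'⟩ := hx w hw
    have h1 : ∀ i, t i w = t' i := by
      intro i
      conv_lhs => rw [hw']
      simp only [map_sum, map_smul, ht, smul_eq_mul, mul_ite, mul_one, mul_zero, Finset.sum_ite_eq', Finset.mem_univ, ↓reduceIte]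
    have h2 : π w = 0 := by
      conv_lhs => rw [hw']
      simp only [map_sum, map_smul, hπv, smul_zero, Finset.sum_const_zero]
    have h3 : S w = 0 := by simp only [Basis.coord_apply, h2, map_zero, Finsupp.coe_zero, Pi.zero_apply, abs_zero, Finset.sum_const_zero, S]
    have hψ0 : 0 ≤ ψ w := (abs_nonneg _).trans (ht' ⟨0, he0⟩)
    calc p w = ∑ i, |t' i| := by simp only [h1, h3, mul_zero, add_zero, p]
      _ ≤ ∑ _i : Fin e, ψ w := Finset.sum_le_sum fun i _ => ht' i
      _ = e * ψ w := by simp only [Finset.sum_const, Finset.card_univ, Fintype.card_fin, nsmul_eq_mul]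
      _ ≤ n * ψ w := mul_le_mul_of_nonneg_right heR hψ0
  have hpneg : ∀ w, p (-w) = p w := by
    intro w
    have : S (-w) = S w := by simpa only [neg_smul, one_smul, abs_neg, abs_one, one_mul] using hShom (-1) w
    simp only [map_neg, abs_neg, this, p]
  obtain ⟨w, hw⟩ := transference n Q hndef.symm p
    (by
      intro x y
      show (∑ i, |t i (x + y)|) + η⁻¹ * S (x + y) ≤
        ((∑ i, |t i x|) + η⁻¹ * S x) + ((∑ i, |t i y|) + η⁻¹ * S y)
      have h1 : (∑ i, |t i (x + y)|) ≤ (∑ i, |t i x|) + ∑ i, |t i y| := by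
        rw [← Finset.sum_add_distrib]
        exact Finset.sum_le_sum fun i _ => by rw [map_add]; exact abs_add_le _ _
      have h2 : η⁻¹ * S (x + y) ≤ η⁻¹ * (S x + S y) := mul_le_mul_of_nonneg_left (hSsub x y) hη'.le
      linarith only [h1, h2])
    (by
      intro c x
      show (∑ i, |t i (c • x)|) + η⁻¹ * S (c • x) = |c| * ((∑ i, |t i x|) + η⁻¹ * S x)
      rw [hShom]
      simp only [map_smul, smul_eq_mul, abs_mul]
      rw [← Finset.mul_sum]
      ring)
    (by
      intro m
      refine ⟨∑ i, |v i m| + ∑ k, |b k m|, ?_⟩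
      intro w
      rw [hdecomp w m]
      have h1 : ∑ i, t i w * v i m ≤ (∑ i, |v i m|) * p w := by
        rw [Finset.sum_mul]
        refine Finset.sum_le_sum fun i _ => ?_
        have h2 : |t i w| ≤ p w := by
          have h3 : |t i w| ≤ ∑ i, |t i w| :=
            Finset.single_le_sum (f := fun i => |t i w|) (fun i _ => abs_nonneg _)
              (Finset.mem_univ i)
          have h4 : 0 ≤ η⁻¹ * S w := mul_nonneg hη'.le (hS0 w)
          show |t i w| ≤ ∑ i, |t i w| + η⁻¹ * S w
          linarith only [h3, h4]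
        calc t i w * v i m ≤ |t i w * v i m| := le_abs_self _
          _ = |v i m| * |t i w| := by rw [abs_mul]; ring
          _ ≤ |v i m| * p w := mul_le_mul_of_nonneg_left h2 (abs_nonneg _)
      have h1' : ∑ k, b.coord k (π w) * b k m ≤ (∑ k, |b k m|) * p w := by
        rw [Finset.sum_mul]
        refine Finset.sum_le_sum fun k _ => ?_
        have h2 : |b.coord k (π w)| ≤ p w := by
          have h3 : |b.coord k (π w)| ≤ S w :=
            Finset.single_le_sum (f := fun k => |b.coord k (π w)|) (fun k _ => abs_nonneg _)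
              (Finset.mem_univ k)
          have h4 : 0 ≤ ∑ i, |t i w| := Finset.sum_nonneg fun i _ => abs_nonneg _
          have h5 : S w ≤ η⁻¹ * S w := by
            have : 1 ≤ η⁻¹ := (one_le_inv₀ hη0).mpr hη1
            have := mul_le_mul_of_nonneg_right this (hS0 w)
            linarith only [this]
          show |b.coord k (π w)| ≤ ∑ i, |t i w| + η⁻¹ * S w
          linarith only [h3, h4, h5]
        calc b.coord k (π w) * b k m ≤ |b.coord k (π w) * b k m| := le_abs_self _
          _ = |b k m| * |b.coord k (π w)| := by rw [abs_mul]; ring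
          _ ≤ |b k m| * p w := mul_le_mul_of_nonneg_left h2 (abs_nonneg _)
      rw [add_mul]
      linarith only [h1, h1'])
    lam hlam
    (by
      intro m hm c hc
      obtain ⟨w, hw, hlt⟩ := hcon m hm
      have h1 : |w m| ≤ c * p w := by
        rw [abs_le]
        constructor
        · have := hc (-w)
          rw [hpneg] at this
          simp only [LinearMap.neg_apply] at this
          linarith only [this]
        · exact hc w
      have hw0 : w ≠ 0 := by
        rintro rfl
        simp at hlt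
      have hψpos := hψ w hw hw0
      have h2 := hpcone w hw
      have hc0 : 0 < c := by
        by_contra hc0
        push Not at hc0
        have h3 : 0 ≤ p w := by
          show 0 ≤ ∑ i, |t i w| + η⁻¹ * S w
          have := mul_nonneg hη'.le (hS0 w)
          have := Finset.sum_nonneg fun (i : Fin e) (_ : i ∈ Finset.univ) => abs_nonneg (t i w)
          (clear ι h ψ hψ ε hε hlc n hn hndef hn1 hKpos hcon he hv hli hx heR m₀ hm₀ he0 heR1 ht hπ hπv hSsub hShom lam hlam ρ hρ F hdecomp hFfin hη1 hηF p hpcone hpneg m hm c hc hw hlt h1 hw0 hψpos h2 hc0; linarith)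
        have h4 : c * p w ≤ 0 := mul_nonpos_of_nonpos_of_nonneg hc0 h3
        have h5 : 0 < (Kc n / ε) * ψ w := by (clear * - hKpos hε hψpos; positivity)
        linarith only [hlt, h1, h4, h5]
      have h3 : (Kc n / ε) * ψ w < (c * n) * ψ w := by
        have := mul_le_mul_of_nonneg_left h2 hc0.le
        calc (Kc n / ε) * ψ w < |w m| := hlt
          _ ≤ c * p w := h1
          _ ≤ c * (n * ψ w) := this
          _ = (c * n) * ψ w := by ring
      have h4 : Kc n / ε < c * n := lt_of_mul_lt_mul_right h3 hψpos.le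
      show Kc n / (n * ε) ≤ c
      rw [div_le_iff₀ (by positivity)]
      rw [div_lt_iff₀ hε] at h4
      linarith only [h4])
    (∑ i, (2 * ρ) • v i)
  -- the lattice point found
  have hw' : ∑ i, |t i (toR w - ∑ i, (2 * ρ) • v i)| + η⁻¹ * S (toR w - ∑ i, (2 * ρ) • v i) ≤ ρ :=
    hw
  have hti : ∀ i, t i (toR w - ∑ i, (2 * ρ) • v i) = t i (toR w) - 2 * ρ := by
    intro i
    rw [map_sub, map_sum]
    simp only [map_smul, ht, smul_eq_mul, mul_ite, mul_one, mul_zero, Finset.sum_ite_eq', Finset.mem_univ, ↓reduceIte]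
  have hSw : S (toR w - ∑ i, (2 * ρ) • v i) = S (toR w) := by
    simp only [Basis.coord_apply, map_sub, map_sum, map_smul, hπv, smul_zero, Finset.sum_const_zero, sub_zero, S]
  rw [hSw] at hw'
  have hSnn : 0 ≤ η⁻¹ * S (toR w) := mul_nonneg hη'.le (hS0 _)
  have hsumnn : 0 ≤ ∑ i, |t i (toR w - ∑ i, (2 * ρ) • v i)| :=
    Finset.sum_nonneg fun i _ => abs_nonneg _
  have htb : ∀ i, |t i (toR w) - 2 * ρ| ≤ ρ := by
    intro i
    rw [← hti i]
    have h3 : |t i (toR w - ∑ i, (2 * ρ) • v i)| ≤ ∑ i, |t i (toR w - ∑ i, (2 * ρ) • v i)| :=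
      Finset.single_le_sum (f := fun i => |t i (toR w - ∑ i, (2 * ρ) • v i)|)
        (fun i _ => abs_nonneg _) (Finset.mem_univ i)
    linarith only [hw', hSnn, h3]
  have hSη : S (toR w) ≤ η * ρ := by
    have h3 : η⁻¹ * S (toR w) ≤ ρ := by linarith only [hw', hsumnn]
    rwa [inv_mul_le_iff₀ hη0] at h3
  have hwF : w ∈ F := by
    refine ⟨fun i => ?_, ?_⟩
    · have h3 := abs_le.mp (htb i)
      rw [abs_le]
      constructor <;> linarith only [h3]
    · refine hSη.trans ?_
      have := mul_le_mul_of_nonneg_right hη1 hρ.le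
      linarith only [this]
  have hS00 := hηF w hwF hSη
  have hπ0 : π (toR w) = 0 := by
    have h3 : ∀ k, b.coord k (π (toR w)) = 0 := by
      intro k
      have h4 := (Finset.sum_eq_zero_iff_of_nonneg
        (fun k _ => abs_nonneg (b.coord k (π (toR w))))).mp hS00 k (Finset.mem_univ k)
      exact abs_eq_zero.mp h4
    apply b.repr.injective
    ext k
    simpa only [map_zero, Finsupp.coe_zero, Pi.zero_apply, Basis.coord_apply] using h3 k
  have hwsum : toR w = ∑ i, t i (toR w) • v i := by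
    have := hπ (toR w)
    rw [hπ0] at this
    exact (sub_eq_zero.mp this.symm)
  have htpos : ∀ i, ρ ≤ t i (toR w) := by
    intro i
    have := (abs_le.mp (htb i)).1
    linarith only [this]
  have htle : ∀ i, t i (toR w) ≤ 3 * ρ := by
    intro i
    have := (abs_le.mp (htb i)).2
    linarith only [this]
  have hcone : ∀ a, 0 ≤ toR w (h a) := by
    intro a
    rw [hwsum]
    simp only [LinearMap.sum_apply, LinearMap.smul_apply, smul_eq_mul]
    exact Finset.sum_nonneg fun i _ =>
      mul_nonneg (hρ.le.trans (htpos i)) ((hv i).1 a)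
  have hψw : ψ (toR w) = ∑ i, t i (toR w) := by
    conv_lhs => rw [hwsum]
    rw [map_sum]
    refine Finset.sum_congr rfl fun i _ => ?_
    rw [map_smul, (hv i).2, smul_eq_mul, mul_one]
  have hψpos : 0 < ψ (toR w) := by
    rw [hψw]
    have h5 : (∑ _i : Fin e, ρ) ≤ ∑ i, t i (toR w) := Finset.sum_le_sum fun i _ => htpos i
    have h6 : (∑ _i : Fin e, ρ) = e * ρ := by simp only [Finset.sum_const, Finset.card_univ, Fintype.card_fin, nsmul_eq_mul]
    have h7 : 0 < (e : ℝ) * ρ := by positivity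
    linarith only [h5, h6, h7]
  have hne : toR w ≠ 0 := by
    intro h0
    rw [h0, map_zero] at hψpos
    exact lt_irrefl _ hψpos
  have hge := hlc w hcone hne
  have hlt : ψ (toR w) < ε := by
    rw [hψw]
    have h5 : ∑ i, t i (toR w) ≤ ∑ _i : Fin e, 3 * ρ := Finset.sum_le_sum fun i _ => htle i
    have h6 : (∑ _i : Fin e, 3 * ρ) = e * (3 * ρ) := by simp only [Finset.sum_const, Finset.card_univ, Fintype.card_fin, nsmul_eq_mul]
    have h7 : (e : ℝ) * (3 * ρ) ≤ n * (3 * ρ) := mul_le_mul_of_nonneg_right heR (by positivity)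
    have h8 : (n : ℝ) * (3 * ρ) = (3 / 7) * ε := by
      show (n : ℝ) * (3 * (4 ^ n / (Kc n / (n * ε)))) = _
      unfold Kc
      have : (n : ℝ) ≠ 0 := by positivity
      field_simp
    have h9 : (3 / 7) * ε < ε := by linarith only [hψw, hψpos, h5, h6, h7, h8]
    linarith only [hψw, hψpos, h5, h6, h7, h8]
  linarith only [hge, hlt]

/-- the constant of the cone theorem -/
noncomputable def Tc : ℕ → ℝ
  | 0 => 0
  | n + 1 => Tc n + Kc (n + 1) + 1

lemma Kc_nonneg (n : ℕ) : 0 ≤ Kc n := by unfold Kc; positivity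

lemma Tc_nonneg (n : ℕ) : 0 ≤ Tc n := by
  induction n with
  | zero => simp [Tc]
  | succ n ih =>
    have := Kc_nonneg (n + 1)
    simp only [Tc]
    linarith

lemma toR_pull {Q : Type v} [AddCommGroup Q] (U : Submodule ℤ Q) (w : (Q ⧸ U) →ₗ[ℤ] ℤ) :
    toR (w ∘ₗ U.mkQ) = pull U (toR w) := by
  ext m
  simp

/-- Cone theorem: a cone free of small lattice points is cut down to zero by boundedly many
lattice functionals which are bounded below by a multiple of `ψ`. -/
theorem cone_theorem (n : ℕ) : ∀ (Q : Type v) [AddCommGroup Q] [Module.Finite ℤ Q]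
    {ι : Type*} (h : ι → Q) (ψ : (Q →ₗ[ℤ] ℝ) →ₗ[ℝ] ℝ)
    (_ : ∀ w : Q →ₗ[ℤ] ℝ, (∀ a, 0 ≤ w (h a)) → w ≠ 0 → 0 < ψ w) (ε : ℝ) (_ : 0 < ε)
    (_ : ∀ w : Q →ₗ[ℤ] ℤ, (∀ a, 0 ≤ toR w (h a)) → toR w ≠ 0 → ε ≤ ψ (toR w)),
    finrank ℝ (Q →ₗ[ℤ] ℝ) = n →
    ∃ L : List Q, L.length = 2 * n ∧
      (∀ u ∈ L, ∀ w : Q →ₗ[ℤ] ℝ, (∀ a, 0 ≤ w (h a)) → -((Tc n / ε) * ψ w) ≤ w u) ∧
      ∀ w : Q →ₗ[ℤ] ℝ, (∀ a, 0 ≤ w (h a)) → w ≠ 0 → ∃ u ∈ L, w u < 0 := by
  induction n with
  | zero =>
    intro Q _ _ ι h ψ hψ ε hε hlc hn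
    refine ⟨[], rfl, by simp only [List.not_mem_nil, IsEmpty.forall_iff, implies_true], ?_⟩
    intro w _ hw
    exfalso
    have : Subsingleton (Q →ₗ[ℤ] ℝ) := Module.finrank_zero_iff.mp hn
    exact hw (Subsingleton.elim _ _)
  | succ n ih =>
    intro Q _ _ ι h ψ hψ ε hε hlc hn
    obtain ⟨u, hu, hub⟩ := key_lemma Q h ψ hψ ε hε hlc (by omega)
    rw [hn] at hub
    let U := Submodule.span ℤ {u}
    have hn' : finrank ℝ ((Q ⧸ U) →ₗ[ℤ] ℝ) = n := by
      have := finrank_pull u hu
      change finrank ℝ ((Q ⧸ U) →ₗ[ℤ] ℝ) + 1 = _ at this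
      omega
    have hpullu : ∀ w' : (Q ⧸ U) →ₗ[ℤ] ℝ, pull U w' u = 0 := by
      intro w'
      have h0 : U.mkQ u = 0 := by
        simp [U, Submodule.mem_span_singleton_self]
      rw [pull_apply, h0, map_zero]
    have hψnn : ∀ w : Q →ₗ[ℤ] ℝ, (∀ a, 0 ≤ w (h a)) → 0 ≤ ψ w := by
      intro w hw
      by_cases hw0 : w = 0
      · subst hw0; simp
      · exact (hψ w hw hw0).le
    obtain ⟨L', hL'len, hL'b, hL'neg⟩ := ih (Q ⧸ U) (fun a => U.mkQ (h a)) (ψ ∘ₗ pull U)
      (by
        intro w hw hw0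
        refine hψ (pull U w) hw ?_
        intro h0
        exact hw0 (pull_injective U (by rw [h0, map_zero])))
      ε hε
      (by
        intro w hw hw0
        have h1 := hlc (w ∘ₗ U.mkQ) (by intro a; rw [toR_pull]; exact hw a)
          (by
            rw [toR_pull]
            intro h0
            exact hw0 (pull_injective U (by rw [h0, map_zero])))
        rw [toR_pull] at h1
        exact h1)
      hn'
    -- lifting
    have hlift : ∀ u' : Q ⧸ U, ∃ û : Q, U.mkQ û = u' ∧ (u' ∈ L' →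
        ∀ w : Q →ₗ[ℤ] ℝ, (∀ a, 0 ≤ w (h a)) → -((Tc (n + 1) / ε) * ψ w) ≤ w û) := by
      intro u'
      obtain ⟨v, rfl⟩ := Submodule.mkQ_surjective U u'
      by_cases hv : U.mkQ v ∈ L'
      · obtain ⟨t, ht⟩ := one_constraint (fun a => evalL (h a)) ψ hψ (evalL u)
          (evalL v + (Tc n / ε) • ψ)
          (by
            intro w hw hwu
            obtain ⟨w', rfl⟩ := exists_pull u w (by simpa only [evalL_apply] using hwu)
            have h1 := hL'b _ hv w' (by intro a; exact hw a)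
            have h2 : (Tc n / ε) * ψ (pull U w') + w' (U.mkQ v) ≥ 0 := by
              have h3 : (ψ ∘ₗ pull U) w' = ψ (pull U w') := rfl
              rw [h3] at h1
              linarith only [h1]
            show 0 ≤ (pull U w') v + (Tc n / ε) * ψ (pull U w')
            rw [pull_apply]
            linarith only [h2])
          (1 / ε) (by positivity)
        let z : ℤ := round t
        have hz : |t - z| ≤ 1 / 2 := abs_sub_round t
        refine ⟨v + z • u, ?_, fun _ => ?_⟩
        · rw [map_add, map_smul]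
          have h0 : U.mkQ u = 0 := by
            simp [U, Submodule.mem_span_singleton_self]
          rw [h0, smul_zero, add_zero]
        · intro w hw
          have h1 := ht w hw
          have h2 : (evalL v + (Tc n / ε) • ψ) w + t * (evalL u) w
              = w v + (Tc n / ε) * ψ w + t * w u := rfl
          rw [h2] at h1
          have h3 : w (v + z • u) = w v + z * w u := by
            rw [map_add, map_smul]; simp
          rw [h3]
          have h4 : (z : ℝ) * w u = t * w u - (t - z) * w u := by ring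
          have h5 : (t - z) * w u ≤ (1 / 2) * ((Kc (n + 1) / ε) * ψ w) := by
            calc (t - z) * w u ≤ |(t - z) * w u| := le_abs_self _
              _ = |t - z| * |w u| := abs_mul _ _
              _ ≤ (1 / 2) * ((Kc (n + 1) / ε) * ψ w) :=
                mul_le_mul hz (hub w hw) (abs_nonneg _) (by norm_num)
          have h6 : (Tc (n + 1) / ε) * ψ w
              = (Tc n / ε) * ψ w + (Kc (n + 1) / ε) * ψ w + (1 / ε) * ψ w := by
            simp only [Tc]; ring
          have h7 : 0 ≤ (Kc (n + 1) / ε) * ψ w :=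
            mul_nonneg (div_nonneg (Kc_nonneg _) hε.le) (hψnn w hw)
          rw [h6, h4]
          linarith only [h1, h5, h7]
      · exact ⟨v, rfl, fun h0 => absurd h0 hv⟩
    choose F hF1 hF2 using hlift
    refine ⟨u :: (-u) :: L'.map F, ?_, ?_, ?_⟩
    · simp only [List.length_cons, List.length_map, hL'len]
      ring
    · intro x hx w hw
      have hK : |w u| ≤ (Tc (n + 1) / ε) * ψ w := by
        have h6 : (Tc (n + 1) / ε) * ψ w
            = (Kc (n + 1) / ε) * ψ w + ((Tc n + 1) / ε) * ψ w := by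
          simp only [Tc]; ring
        have h7 : 0 ≤ ((Tc n + 1) / ε) * ψ w :=
          mul_nonneg (div_nonneg (by have := Tc_nonneg n; linarith only [this]) hε.le) (hψnn w hw)
        have := hub w hw
        linarith only [h6, h7, this]
      simp only [List.mem_cons, List.mem_map] at hx
      rcases hx with rfl | rfl | ⟨y, hy, rfl⟩
      · exact (abs_le.mp hK).1
      · rw [map_neg]
        have := (abs_le.mp hK).2
        linarith only [this]
      · exact hF2 y hy w hw
    · intro w hw hw0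
      rcases lt_trichotomy (w u) 0 with h1 | h1 | h1
      · exact ⟨u, by simp, h1⟩
      · obtain ⟨w', rfl⟩ := exists_pull u w h1
        have hw'0 : w' ≠ 0 := by
          rintro rfl
          exact hw0 (map_zero _)
        obtain ⟨y, hy, hy2⟩ := hL'neg w' (by intro a; exact hw a) hw'0
        refine ⟨F y, ?_, ?_⟩
        · simp only [List.mem_cons, List.mem_map]
          exact Or.inr (Or.inr ⟨y, hy, rfl⟩)
        · rw [pull_apply]
          have : (Submodule.span ℤ {u}).mkQ (F y) = y := hF1 y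
          rw [this]
          exact hy2
      · refine ⟨-u, by simp, ?_⟩
        rw [map_neg]
        linarith only [h1]

end Vale.Agent.P283
end
end

section

section

open Module Set

namespace Vale.Agent.P283

variable {I : Type} [Fintype I] [DecidableEq I]

/-- the pairing of a real vector with an integral vector -/
def dot (x : I → ℝ) (u : I → ℤ) : ℝ := ∑ i, x i * (u i : ℝ)

/-- the pairing as a linear functional of the real vector -/
def dotL (u : I → ℤ) : (I → ℝ) →ₗ[ℝ] ℝ where
  toFun := fun x => dot x u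
  map_add' := by
    intro x y
    simp only [dot, Pi.add_apply, add_mul, Finset.sum_add_distrib]
  map_smul' := by
    intro c x
    simp only [dot, Pi.smul_apply, smul_eq_mul, RingHom.id_apply, Finset.mul_sum, mul_assoc]

omit [DecidableEq I] in
@[simp] lemma dotL_apply (u : I → ℤ) (x : I → ℝ) : dotL u x = dot x u := rfl

omit [DecidableEq I] in
lemma dot_add_right (x : I → ℝ) (u v : I → ℤ) : dot x (u + v) = dot x u + dot x v := by
  simp only [dot, Pi.add_apply, Int.cast_add, mul_add, Finset.sum_add_distrib]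

omit [DecidableEq I] in
lemma dot_smul_right (x : I → ℝ) (c : ℤ) (u : I → ℤ) : dot x (c • u) = c * dot x u := by
  simp only [dot, Pi.smul_apply, smul_eq_mul, Int.cast_mul, Finset.mul_sum]
  exact Finset.sum_congr rfl fun i _ => by ring

omit [DecidableEq I] in
lemma dot_neg_right (x : I → ℝ) (u : I → ℤ) : dot x (-u) = - dot x u := by
  simp only [dot, Pi.neg_apply, Int.cast_neg, mul_neg, Finset.sum_neg_distrib]

omit [DecidableEq I] in
lemma dot_zero_left (u : I → ℤ) : dot (0 : I → ℝ) u = 0 := by simp only [dot, Pi.zero_apply, zero_mul, Finset.sum_const_zero]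

/-- real vectors orthogonal to a set of integral vectors -/
def perp (U : Set (I → ℤ)) : Submodule ℝ (I → ℝ) where
  carrier := {x | ∀ u ∈ U, dot x u = 0}
  add_mem' := by
    intro x y hx hy u hu
    have : dot (x + y) u = dot x u + dot y u := (dotL u).map_add x y
    rw [this, hx u hu, hy u hu, add_zero]
  zero_mem' := fun u _ => dot_zero_left u
  smul_mem' := by
    intro c x hx u hu
    have : dot (c • x) u = c * dot x u := (dotL u).map_smul c x
    rw [this, hx u hu, mul_zero]

section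

variable (M : Submodule ℤ (I → ℤ)) (r : ℕ) (hr : 0 < r) (hM : ∀ u : I → ℤ, (r : ℤ) • u ∈ M)
  (U : Set (I → ℤ))

/-- the submodule of `M` spanned by `U` -/
def spanIn : Submodule ℤ M := Submodule.span ℤ {m : M | (m : I → ℤ) ∈ U}

/-- from vectors to points of the quotient lattice -/
noncomputable def toPt : perp U →ₗ[ℝ] ((M ⧸ spanIn M U) →ₗ[ℤ] ℝ) where
  toFun := fun x => Submodule.liftQ _
    ({ toFun := fun m : M => dot (x : I → ℝ) (m : I → ℤ)
       map_add' := by intro a b; exact dot_add_right _ _ _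
       map_smul' := by
        intro c a
        have h1 := dot_smul_right (x : I → ℝ) c (a : I → ℤ)
        simp only [eq_intCast, zsmul_eq_mul]
        exact h1 } : M →ₗ[ℤ] ℝ)
    (by
      unfold spanIn
      rw [Submodule.span_le]
      intro m hm
      exact x.2 _ hm)
  map_add' := by
    intro x y
    ext m
    exact (dotL (m : I → ℤ)).map_add (x : I → ℝ) (y : I → ℝ)
  map_smul' := by
    intro c x
    ext m
    exact (dotL (m : I → ℤ)).map_smul c (x : I → ℝ)

omit [DecidableEq I] in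
lemma toPt_mk (x : perp U) (m : M) :
    toPt M U x ((spanIn M U).mkQ m) = dot (x : I → ℝ) (m : I → ℤ) := rfl

include hr hM in
lemma toPt_bijective (hU : U ⊆ M) : Function.Bijective (toPt M U) := by
  constructor
  · rw [← LinearMap.ker_eq_bot, LinearMap.ker_eq_bot']
    intro x hx
    ext i
    have h1 : toPt M U x ((spanIn M U).mkQ ⟨_, hM (Pi.single i 1)⟩) = 0 := by
      rw [hx]; rfl
    rw [toPt_mk] at h1
    have h2 : dot (x : I → ℝ) ((r : ℤ) • Pi.single i 1) = r * (x : I → ℝ) i := by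
      rw [dot_smul_right]
      simp only [Int.cast_natCast, dot, Pi.single_apply, Int.cast_ite, Int.cast_one, Int.cast_zero, mul_ite, mul_one, mul_zero, Finset.sum_ite_eq', Finset.mem_univ, ↓reduceIte]
    have h3 : (r : ℝ) * (x : I → ℝ) i = 0 := by rw [← h2]; exact h1
    have hr' : (r : ℝ) ≠ 0 := by positivity
    simpa only [ZeroMemClass.coe_zero, Pi.zero_apply, mul_eq_zero, hr', false_or] using h3
  · intro w
    let x : I → ℝ := fun i => w ((spanIn M U).mkQ ⟨_, hM (Pi.single i 1)⟩) / r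
    have hr' : (r : ℝ) ≠ 0 := by positivity
    have key : ∀ m : M, dot x (m : I → ℤ) = w ((spanIn M U).mkQ m) := by
      intro m
      have h1 : ((r : ℤ) • m : M) = ∑ i, ((m : I → ℤ) i) • (⟨_, hM (Pi.single i 1)⟩ : M) := by
        ext j
        simp only [Submodule.coe_smul, Pi.smul_apply, smul_eq_mul, Submodule.coe_sum,
          Finset.sum_apply]
        simp only [Pi.single_apply, mul_ite, mul_one, mul_zero, mul_comm, ite_mul, zero_mul, Finset.sum_ite_eq, Finset.mem_univ, ↓reduceIte]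
      have h2 : (r : ℝ) * w ((spanIn M U).mkQ m)
          = ∑ i, ((m : I → ℤ) i : ℝ) * w ((spanIn M U).mkQ ⟨_, hM (Pi.single i 1)⟩) := by
        have h3 := congrArg (fun y => w ((spanIn M U).mkQ y)) h1
        simp only [map_smul, map_sum] at h3
        simpa only [Submodule.mkQ_apply, zsmul_eq_mul, Int.cast_natCast] using h3
      have h4 : (r : ℝ) * dot x (m : I → ℤ)
          = ∑ i, ((m : I → ℤ) i : ℝ) * w ((spanIn M U).mkQ ⟨_, hM (Pi.single i 1)⟩) := by
        simp only [dot, x, Finset.mul_sum]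
        refine Finset.sum_congr rfl fun i _ => ?_
        field_simp
      have h5 : (r : ℝ) * dot x (m : I → ℤ) = r * w ((spanIn M U).mkQ m) := by rw [h4, h2]
      exact mul_left_cancel₀ hr' h5
    have hx : x ∈ perp U := by
      intro u hu
      have h1 := key ⟨u, hU hu⟩
      have h2 : (spanIn M U).mkQ (⟨u, hU hu⟩ : M) = 0 := by
        rw [Submodule.mkQ_apply, Submodule.Quotient.mk_eq_zero]
        exact Submodule.subset_span hu
      rw [h1, h2, map_zero]
    refine ⟨⟨x, hx⟩, ?_⟩
    ext m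
    exact key m

include hr hM in
/-- Coordinate version of the key lemma and of the cone theorem. -/
theorem coord_cone (hU : U ⊆ M) {κ : Type*} (h : κ → I → ℤ) (hh : ∀ a, h a ∈ M)
    (ψ : (I → ℝ) →ₗ[ℝ] ℝ)
    (hψ : ∀ x ∈ perp U, (∀ a, 0 ≤ dot x (h a)) → x ≠ 0 → 0 < ψ x) (ε : ℝ) (hε : 0 < ε)
    (hlc : ∀ x ∈ perp U, (∀ a, 0 ≤ dot x (h a)) → (∀ u ∈ M, ∃ z : ℤ, dot x u = z) → x ≠ 0 →
      ε ≤ ψ x) (n : ℕ) (hn : finrank ℝ (perp U) = n) :
    (0 < n → ∃ u ∈ M, (∃ x ∈ perp U, dot x u ≠ 0) ∧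
      ∀ x ∈ perp U, (∀ a, 0 ≤ dot x (h a)) → |dot x u| ≤ (Kc n / ε) * ψ x) ∧
    ∃ L : List (I → ℤ), L.length = 2 * n ∧ (∀ u ∈ L, u ∈ M) ∧
      (∀ u ∈ L, ∀ x ∈ perp U, (∀ a, 0 ≤ dot x (h a)) → -((Tc n / ε) * ψ x) ≤ dot x u) ∧
      ∀ x ∈ perp U, (∀ a, 0 ≤ dot x (h a)) → x ≠ 0 → ∃ u ∈ L, dot x u < 0 := by
  let e : perp U ≃ₗ[ℝ] ((M ⧸ spanIn M U) →ₗ[ℤ] ℝ) :=
    LinearEquiv.ofBijective (toPt M U) (toPt_bijective M r hr hM U hU)
  have he : ∀ (x : perp U) (m : M), e x ((spanIn M U).mkQ m) = dot (x : I → ℝ) (m : I → ℤ) :=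
    fun x m => toPt_mk M U x m
  have hes : ∀ (w : (M ⧸ spanIn M U) →ₗ[ℤ] ℝ) (m : M),
      w ((spanIn M U).mkQ m) = dot ((e.symm w : perp U) : I → ℝ) (m : I → ℤ) := by
    intro w m
    rw [← he, LinearEquiv.apply_symm_apply]
  have hfin : finrank ℝ ((M ⧸ spanIn M U) →ₗ[ℤ] ℝ) = n := by
    rw [← hn]; exact e.symm.finrank_eq
  let h' : κ → (M ⧸ spanIn M U) := fun a => (spanIn M U).mkQ ⟨h a, hh a⟩
  let ψ' : ((M ⧸ spanIn M U) →ₗ[ℤ] ℝ) →ₗ[ℝ] ℝ := ψ ∘ₗ (perp U).subtype ∘ₗ e.symm.toLinearMap
  have hψ' : ∀ w, ψ' w = ψ ((e.symm w : perp U) : I → ℝ) := fun w => rfl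
  have hcone : ∀ w : (M ⧸ spanIn M U) →ₗ[ℤ] ℝ, (∀ a, 0 ≤ w (h' a)) →
      ∀ a, 0 ≤ dot ((e.symm w : perp U) : I → ℝ) (h a) := by
    intro w hw a
    have := hw a
    rw [hes w ⟨h a, hh a⟩] at this
    exact this
  have hcone' : ∀ x : perp U, (∀ a, 0 ≤ dot (x : I → ℝ) (h a)) → ∀ a, 0 ≤ e x (h' a) := by
    intro x hx a
    have := hx a
    rw [← he x ⟨h a, hh a⟩] at this
    exact this
  have hpos : ∀ w : (M ⧸ spanIn M U) →ₗ[ℤ] ℝ, (∀ a, 0 ≤ w (h' a)) → w ≠ 0 → 0 < ψ' w := by
    intro w hw hw0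
    rw [hψ']
    refine hψ _ (e.symm w).2 (hcone w hw) ?_
    intro h0
    apply hw0
    have : e.symm w = 0 := Subtype.ext h0
    simpa using this
  have hlc' : ∀ w : (M ⧸ spanIn M U) →ₗ[ℤ] ℤ, (∀ a, 0 ≤ toR w (h' a)) → toR w ≠ 0 →
      ε ≤ ψ' (toR w) := by
    intro w hw hw0
    rw [hψ']
    refine hlc _ (e.symm (toR w)).2 (hcone _ hw) ?_ ?_
    · intro u hu
      refine ⟨w ((spanIn M U).mkQ ⟨u, hu⟩), ?_⟩
      have := hes (toR w) ⟨u, hu⟩
      rw [toR_apply] at this
      exact this.symm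
    · intro h0
      apply hw0
      have : e.symm (toR w) = 0 := Subtype.ext h0
      simpa using this
  have : Module.Finite ℤ M := inferInstance
  constructor
  · intro hnpos
    obtain ⟨u', ⟨w, hw⟩, hub⟩ := key_lemma (M ⧸ spanIn M U) h' ψ' hpos ε hε hlc'
      (by rw [hfin]; exact hnpos)
    rw [hfin] at hub
    obtain ⟨u, rfl⟩ := Submodule.mkQ_surjective _ u'
    refine ⟨u, u.2, ⟨_, (e.symm w).2, ?_⟩, ?_⟩
    · rw [← hes]; exact hw
    · intro x hx hxc
      have h1 := hub (e ⟨x, hx⟩) (hcone' ⟨x, hx⟩ hxc)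
      rw [he, hψ', LinearEquiv.symm_apply_apply] at h1
      exact h1
  · obtain ⟨L, hLlen, hLb, hLneg⟩ := cone_theorem n (M ⧸ spanIn M U) h' ψ' hpos ε hε hlc' hfin
    have hsur := Submodule.mkQ_surjective (spanIn M U)
    choose F hF using hsur
    refine ⟨L.map (fun y => (F y : I → ℤ)), ?_, ?_, ?_, ?_⟩
    · rw [List.length_map, hLlen]
    · intro u hu
      obtain ⟨y, -, rfl⟩ := List.mem_map.mp hu
      exact (F y).2
    · intro u hu x hx hxc
      obtain ⟨y, hy, rfl⟩ := List.mem_map.mp hu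
      have h1 := hLb y hy (e ⟨x, hx⟩) (hcone' ⟨x, hx⟩ hxc)
      rw [hψ', LinearEquiv.symm_apply_apply] at h1
      have h2 : e ⟨x, hx⟩ y = dot x (F y : I → ℤ) := by
        have h3 := he ⟨x, hx⟩ (F y)
        rw [hF] at h3
        exact h3
      rw [h2] at h1
      exact h1
    · intro x hx hxc hx0
      obtain ⟨y, hy, hneg⟩ := hLneg (e ⟨x, hx⟩) (hcone' ⟨x, hx⟩ hxc)
        (by
          intro h0
          apply hx0
          have : (⟨x, hx⟩ : perp U) = 0 := by simpa using h0
          exact congrArg Subtype.val this)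
      refine ⟨(F y : I → ℤ), List.mem_map.mpr ⟨y, hy, rfl⟩, ?_⟩
      have h2 : e ⟨x, hx⟩ y = dot x (F y : I → ℤ) := by
        have h3 := he ⟨x, hx⟩ (F y)
        rw [hF] at h3
        exact h3
      rw [h2] at hneg
      exact hneg

end

end Vale.Agent.P283
end
end

section

section

open Module Set

namespace Vale.Agent.P283

/-- a theorem of the alternative for finitely many functionals on a convex cone -/
lemma convex_alternative {κ : Type} [Fintype κ] [Nonempty κ] [DecidableEq κ] {V : Type}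
    [AddCommGroup V] [Module ℝ V]
    (C : Set V) (h0 : (0 : V) ∈ C) (hadd : ∀ x ∈ C, ∀ y ∈ C, x + y ∈ C)
    (hsmul : ∀ c : ℝ, 0 ≤ c → ∀ x ∈ C, c • x ∈ C)
    (F : κ → V →ₗ[ℝ] ℝ) (hF : ∀ x ∈ C, ∃ a, 0 ≤ F a x) :
    ∃ l : κ → ℝ, (∀ a, 0 ≤ l a) ∧ ∑ a, l a = 1 ∧ ∀ x ∈ C, 0 ≤ ∑ a, l a * F a x := by
  let O : Set (κ → ℝ) := {y | ∀ a, y a < 0}
  let Z : Set (κ → ℝ) := {z | ∃ x ∈ C, z = fun a => F a x}
  have hO1 : Convex ℝ O := by
    intro x hx y hy a b ha hb hab c
    simp only [Pi.add_apply, Pi.smul_apply, smul_eq_mul]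
    have h1 := hx c
    have h2 := hy c
    rcases eq_or_lt_of_le ha with h | h
    · subst h
      have : b = 1 := by linarith only [hab]
      subst this
      simpa using h2
    · have h3 : a * x c < 0 := mul_neg_of_pos_of_neg h h1
      have h4 : b * y c ≤ 0 := mul_nonpos_of_nonneg_of_nonpos hb h2.le
      linarith
  have hO2 : IsOpen O := by
    have : O = ⋂ a, {y : κ → ℝ | y a < 0} := by
      ext y; simp [O]
    rw [this]
    exact isOpen_iInter_of_finite fun a => isOpen_lt (continuous_apply a) continuous_const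
  have hZ : Convex ℝ Z := by
    rintro _ ⟨x, hx, rfl⟩ _ ⟨y, hy, rfl⟩ a b ha hb hab
    refine ⟨a • x + b • y, hadd _ (hsmul a ha x hx) _ (hsmul b hb y hy), ?_⟩
    ext c
    simp only [Pi.add_apply, Pi.smul_apply, smul_eq_mul, map_add, map_smul]
  have hdisj : Disjoint O Z := by
    rw [Set.disjoint_left]
    rintro y hy ⟨x, hx, rfl⟩
    obtain ⟨a, ha⟩ := hF x hx
    have := hy a
    simp only at this
    linarith
  obtain ⟨g, u, hg1, hg2⟩ := geometric_hahn_banach_open hO1 hO2 hZ hdisj
  have hu0 : u ≤ 0 := by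
    have h1 := hg2 0 ⟨0, h0, by ext a; simp only [Pi.zero_apply, map_zero]⟩
    simpa using h1
  have hneg : ∀ y ∈ O, g y < 0 := fun y hy => lt_of_lt_of_le (hg1 y hy) hu0
  have hu0' : 0 ≤ u := by
    by_contra hcon
    push Not at hcon
    let y : κ → ℝ := fun _ => -1
    have hy : y ∈ O := fun a => by simp only [Left.neg_neg_iff, zero_lt_one, y]
    have h1 := hneg y hy
    -- scale
    have h2 : (u / (2 * g y)) • y ∈ O := by
      intro a
      have : 0 < u / (2 * g y) := div_pos_of_neg_of_neg hcon (by linarith)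
      simp only [Pi.smul_apply, smul_eq_mul, y]
      linarith
    have h3 := hg1 _ h2
    rw [map_smul, smul_eq_mul] at h3
    have h4 : u / (2 * g y) * g y = u / 2 := by
      have := h1.ne
      (clear * - this; field_simp)
    linarith
  have hZnn : ∀ z ∈ Z, 0 ≤ g z := fun z hz => hu0'.trans (hg2 z hz)
  let l : κ → ℝ := fun a => g (Pi.single a 1)
  have hgl : ∀ y : κ → ℝ, g y = ∑ a, l a * y a := by
    intro y
    have h1 : y = ∑ a, y a • (Pi.single a 1 : κ → ℝ) := by
      ext b
      simp [Finset.sum_apply, Pi.single_apply]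
    conv_lhs => rw [h1]
    rw [map_sum]
    refine Finset.sum_congr rfl fun a _ => ?_
    rw [map_smul, smul_eq_mul, mul_comm]
  have hsum : 0 < ∑ a, l a := by
    have h1 := hneg (fun _ => -1) (fun a => by norm_num)
    rw [hgl] at h1
    simp only [mul_neg, mul_one, Finset.sum_neg_distrib] at h1
    linarith
  have hl : ∀ a, 0 ≤ l a := by
    intro a
    by_contra hcon
    push Not at hcon
    let δ : ℝ := -l a / (2 * ∑ b, l b)
    have hδ : 0 < δ := div_pos (by linarith) (by linarith)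
    have h1 := hneg (fun b => -(if b = a then 1 else 0) - δ) (fun b => by
      show -(if b = a then (1 : ℝ) else 0) - δ < 0
      split_ifs <;> linarith)
    rw [hgl] at h1
    have h2 : ∑ b, l b * (-(if b = a then 1 else 0) - δ) = -l a - δ * ∑ b, l b := by
      simp only [mul_sub, Finset.sum_sub_distrib, mul_neg, Finset.sum_neg_distrib]
      rw [← Finset.sum_mul]
      simp [mul_comm]
    rw [h2] at h1
    have h3 : δ * ∑ b, l b = -l a / 2 := by
      simp only [δ]
      have := hsum.ne'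
      (clear * - this; field_simp)
    linarith only [hcon, h1, h3]
  refine ⟨fun a => l a / ∑ b, l b, fun a => div_nonneg (hl a) hsum.le, ?_, ?_⟩
  · rw [← Finset.sum_div, div_self hsum.ne']
  · intro x hx
    have h1 := hZnn _ ⟨x, hx, rfl⟩
    rw [hgl] at h1
    have h2 : ∑ a, l a / (∑ b, l b) * F a x = (∑ a, l a * F a x) / ∑ b, l b := by
      rw [Finset.sum_div]
      exact Finset.sum_congr rfl fun a _ => by ring
    rw [h2]
    exact div_nonneg h1 hsum.le

variable {q k : ℕ}

/-- value of the monomial `z^μ` -/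
def mdot (μ : Fin k → ℕ) (x : Fin q ⊕ Fin k → ℝ) : ℝ := ∑ j, (μ j : ℝ) * x (Sum.inr j)

lemma caratheodory_nat (S : Finset (Fin k → ℕ)) (l : (Fin k → ℕ) → ℝ) (hl : ∀ μ ∈ S, 0 ≤ l μ)
    (hl1 : ∑ μ ∈ S, l μ = 1) :
    ∃ (T : Finset (Fin k → ℕ)) (l' : (Fin k → ℕ) → ℝ), T ⊆ S ∧ T.card ≤ k + 1 ∧
      (∀ μ ∈ T, 0 ≤ l' μ) ∧ ∑ μ ∈ T, l' μ = 1 ∧
      ∀ j, ∑ μ ∈ T, l' μ * (μ j : ℝ) = ∑ μ ∈ S, l μ * (μ j : ℝ) := by
  classical
  let cast : (Fin k → ℕ) → (Fin k → ℝ) := fun μ j => (μ j : ℝ)
  have hcast : Function.Injective cast := by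
    intro a b hab
    ext j
    have := congrFun hab j
    simpa [cast] using this
  let y : Fin k → ℝ := ∑ μ ∈ S, l μ • cast μ
  have hy : y ∈ convexHull ℝ ((S.image cast : Finset (Fin k → ℝ)) : Set (Fin k → ℝ)) := by
    apply (convex_convexHull ℝ _).sum_mem hl hl1
    intro μ hμ
    apply subset_convexHull
    simp only [Finset.coe_image]
    exact ⟨μ, hμ, rfl⟩
  rw [convexHull_eq_union] at hy
  simp only [Set.mem_iUnion] at hy
  obtain ⟨t, htS, hti, hyt⟩ := hy
  rw [Finset.mem_convexHull'] at hyt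
  obtain ⟨w, hw0, hw1, hwy⟩ := hyt
  have hcard : t.card ≤ k + 1 := by
    have h1 := hti.card_le_finrank_succ
    rw [Fintype.card_coe] at h1
    refine h1.trans ?_
    have h2 : finrank ℝ (vectorSpan ℝ (Set.range ((↑) : t → (Fin k → ℝ)))) ≤ k := by
      refine (Submodule.finrank_le _).trans ?_
      simp only [finrank_fintype_fun_eq_card, Fintype.card_fin, Std.le_refl]
    omega
  let T : Finset (Fin k → ℕ) := S.filter (fun μ => cast μ ∈ t)
  have hTt : T.image cast = t := by
    ext z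
    simp only [T, Finset.mem_image, Finset.mem_filter]
    constructor
    · rintro ⟨μ, ⟨_, h1⟩, rfl⟩; exact h1
    · intro hz
      have : z ∈ ((S.image cast : Finset (Fin k → ℝ)) : Set (Fin k → ℝ)) := htS hz
      simp only [Finset.coe_image, Set.mem_image, Finset.mem_coe] at this
      obtain ⟨μ, hμ, rfl⟩ := this
      exact ⟨μ, ⟨hμ, hz⟩, rfl⟩
  refine ⟨T, fun μ => w (cast μ), Finset.filter_subset _ _, ?_, ?_, ?_, ?_⟩
  · rw [← Finset.card_image_of_injective T hcast, hTt]; exact hcard
  · intro μ hμ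
    exact hw0 _ (Finset.mem_filter.mp hμ).2
  · rw [← hw1, ← hTt, Finset.sum_image (fun a _ b _ h => hcast h)]
  · intro j
    have h1 : ∑ μ ∈ T, w (cast μ) * (μ j : ℝ) = (∑ z ∈ t, w z • z) j := by
      rw [← hTt, Finset.sum_image (fun a _ b _ h => hcast h)]
      simp only [Finset.sum_apply, Pi.smul_apply, smul_eq_mul, cast]
    rw [h1, hwy]
    simp only [Finset.sum_apply, Pi.smul_apply, smul_eq_mul, y, cast]

/-- Rounding lemma. -/
lemma rounding (S : Finset (Fin k → ℕ)) (M : Submodule ℤ (Fin q ⊕ Fin k → ℤ))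
    (hSM : ∀ μ ∈ S, ∀ μ' ∈ S, (Sum.elim (fun _ => 0) (fun j => (μ j : ℤ) - μ' j)) ∈ M)
    (C : Set (Fin q ⊕ Fin k → ℝ)) (h0 : (0 : Fin q ⊕ Fin k → ℝ) ∈ C)
    (hadd : ∀ x ∈ C, ∀ y ∈ C, x + y ∈ C)
    (hsmul : ∀ c : ℝ, 0 ≤ c → ∀ x ∈ C, c • x ∈ C)
    (hnn : ∀ x ∈ C, ∀ j, 0 ≤ x (Sum.inr j))
    (f : (Fin q ⊕ Fin k → ℝ) →ₗ[ℝ] ℝ) (n : ℕ)
    (hf : ∀ x ∈ C, ∃ μ ∈ S, (n : ℝ) * mdot μ x ≤ f x)
    (μs : Fin k → ℕ) (hμs : μs ∈ S) (B : (Fin q ⊕ Fin k → ℝ) → ℝ)
    (hB : ∀ x ∈ C, mdot μs x ≤ B x) :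
    ∃ ν : Fin k → ℕ,
      (∀ μ ∈ S, (Sum.elim (fun _ => 0) (fun j => (n : ℤ) * (μ j : ℤ) - ν j)) ∈ M) ∧
      (∀ (x : Fin q ⊕ Fin k → ℝ) (γ : ℝ), (∀ μ ∈ S, γ ≤ mdot μ x) → n * γ ≤ mdot ν x) ∧
      (∀ x ∈ C, mdot ν x ≤ f x + (k + 1) * B x) := by
  classical
  have hne : Nonempty S := ⟨⟨μs, hμs⟩⟩
  let mL : (Fin k → ℕ) → (Fin q ⊕ Fin k → ℝ) →ₗ[ℝ] ℝ := fun μ =>
    { toFun := fun x => mdot μ x
      map_add' := by
        intro x y
        simp only [mdot, Pi.add_apply, mul_add, Finset.sum_add_distrib]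
      map_smul' := by
        intro c x
        simp only [mdot, Pi.smul_apply, smul_eq_mul, RingHom.id_apply, Finset.mul_sum]
        exact Finset.sum_congr rfl fun i _ => by ring }
  obtain ⟨l, hl0, hl1, hl⟩ := convex_alternative C h0 hadd hsmul
    (fun a : S => f - (n : ℝ) • mL a.1)
    (by
      intro x hx
      obtain ⟨μ, hμ, hle⟩ := hf x hx
      refine ⟨⟨μ, hμ⟩, ?_⟩
      show 0 ≤ f x - (n : ℝ) * mdot μ x
      linarith)
  let l₂ : (Fin k → ℕ) → ℝ := fun μ => if h : μ ∈ S then l ⟨μ, h⟩ else 0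
  have hl₂ : ∀ a : S, l₂ a.1 = l a := fun a => by simp [l₂, a.2]
  obtain ⟨T, l', hTS, hTcard, hl'0, hl'1, hl'⟩ := caratheodory_nat S l₂
    (by intro μ hμ; have := hl₂ ⟨μ, hμ⟩; simp only at this; rw [this]; exact hl0 _)
    (by
      rw [← Finset.sum_coe_sort S]
      rw [← hl1]
      exact Finset.sum_congr rfl fun a _ => hl₂ a)
  have hmain : ∀ x ∈ C, (n : ℝ) * ∑ μ ∈ T, l' μ * mdot μ x ≤ f x := by
    intro x hx
    have h1 := hl x hx
    have h2 : ∑ a : S, l a * ((f - (n : ℝ) • mL a.1) x)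
        = f x - n * ∑ a : S, l a * mdot a.1 x := by
      have h3 : ∀ a : S, l a * ((f - (n : ℝ) • mL a.1) x)
          = l a * f x - n * (l a * mdot a.1 x) := by
        intro a
        show l a * (f x - (n : ℝ) * mdot a.1 x) = _
        ring
      rw [Finset.sum_congr rfl fun a _ => h3 a, Finset.sum_sub_distrib, ← Finset.sum_mul, hl1,
        ← Finset.mul_sum, one_mul]
    rw [h2] at h1
    have h4 : ∑ a : S, l a * mdot a.1 x = ∑ μ ∈ T, l' μ * mdot μ x := by
      have h5 : ∑ a : S, l a * mdot a.1 x = ∑ μ ∈ S, l₂ μ * mdot μ x := by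
        rw [← Finset.sum_coe_sort S]
        exact Finset.sum_congr rfl fun a _ => by rw [hl₂]
      rw [h5]
      simp only [mdot, Finset.mul_sum]
      rw [Finset.sum_comm, Finset.sum_comm (s := T)]
      refine Finset.sum_congr rfl fun j _ => ?_
      have h6 := hl' j
      have h7 : ∀ (R : Finset (Fin k → ℕ)) (g : (Fin k → ℕ) → ℝ),
          ∑ μ ∈ R, g μ * ((μ j : ℝ) * x (Sum.inr j)) = (∑ μ ∈ R, g μ * (μ j : ℝ)) * x (Sum.inr j) := by
        intro R g
        rw [Finset.sum_mul]
        exact Finset.sum_congr rfl fun μ _ => by ring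
      rw [h7, h7, h6]
    rw [h4] at h1
    linarith only [h1]
  -- rounding
  let a : (Fin k → ℕ) → ℕ := fun μ => ⌊(n : ℝ) * l' μ⌋₊
  have ha1 : ∀ μ ∈ T, (a μ : ℝ) ≤ n * l' μ := fun μ hμ =>
    Nat.floor_le (mul_nonneg (Nat.cast_nonneg n) (hl'0 μ hμ))
  have ha2 : ∀ μ ∈ T, (n : ℝ) * l' μ - 1 ≤ a μ := fun μ _ => by
    have := Nat.lt_floor_add_one ((n : ℝ) * l' μ)
    simp only [a]
    linarith only [this]
  have hsumle : ∑ μ ∈ T, a μ ≤ n := by
    have h1 : (∑ μ ∈ T, (a μ : ℝ)) ≤ ∑ μ ∈ T, n * l' μ := Finset.sum_le_sum ha1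
    rw [← Finset.mul_sum, hl'1, mul_one] at h1
    exact_mod_cast h1
  obtain ⟨ρ, hρ⟩ := Nat.exists_eq_add_of_le hsumle
  have hρle : (ρ : ℝ) ≤ k + 1 := by
    have h1 : (∑ μ ∈ T, ((n : ℝ) * l' μ - 1)) ≤ ∑ μ ∈ T, (a μ : ℝ) := Finset.sum_le_sum ha2
    rw [Finset.sum_sub_distrib, ← Finset.mul_sum, hl'1, mul_one] at h1
    simp only [Finset.sum_const, nsmul_eq_mul, mul_one] at h1
    have h2 : (n : ℝ) = (∑ μ ∈ T, (a μ : ℝ)) + ρ := by
      have := congrArg (fun m : ℕ => (m : ℝ)) hρ
      push_cast at this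
      exact this
    have h3 : (T.card : ℝ) ≤ k + 1 := by exact_mod_cast hTcard
    linarith only [h1, h2, h3]
  let ν : Fin k → ℕ := fun j => ∑ μ ∈ T, a μ * μ j + ρ * μs j
  have hνdot : ∀ x : Fin q ⊕ Fin k → ℝ,
      mdot ν x = ∑ μ ∈ T, (a μ : ℝ) * mdot μ x + ρ * mdot μs x := by
    intro x
    simp only [mdot, Nat.cast_add, Nat.cast_sum, Nat.cast_mul, add_mul, Finset.sum_mul, Finset.sum_add_distrib, Finset.mul_sum, ν]
    rw [Finset.sum_comm]
    congr 1
    · exact Finset.sum_congr rfl fun μ _ => Finset.sum_congr rfl fun j _ => by ring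
    · exact Finset.sum_congr rfl fun j _ => by ring
  refine ⟨ν, ?_, ?_, ?_⟩
  · intro μ' hμ'
    have h1 : (Sum.elim (fun _ => 0) (fun j => (n : ℤ) * (μ' j : ℤ) - ν j) : Fin q ⊕ Fin k → ℤ)
        = ∑ μ ∈ T, (a μ : ℤ) • (Sum.elim (fun _ => 0) (fun j => (μ' j : ℤ) - μ j))
          + (ρ : ℤ) • (Sum.elim (fun _ => 0) (fun j => (μ' j : ℤ) - μs j)) := by
      ext i
      rcases i with i | j
      · simp only [Sum.elim_inl, zsmul_eq_mul, Int.cast_natCast, Pi.add_apply, Finset.sum_apply, Pi.mul_apply, Pi.natCast_apply, mul_zero, Finset.sum_const_zero, add_zero]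
      · simp only [Sum.elim_inr, Pi.add_apply, Finset.sum_apply, Pi.smul_apply, smul_eq_mul, ν]
        push_cast
        have h2 : (n : ℤ) = ∑ μ ∈ T, (a μ : ℤ) + ρ := by
          have := congrArg (fun m : ℕ => (m : ℤ)) hρ
          push_cast at this
          exact this
        rw [h2]
        simp only [mul_sub, Finset.sum_sub_distrib, add_mul, Finset.sum_mul]
        ring
    rw [h1]
    refine M.add_mem (M.sum_mem fun μ hμ => M.smul_mem _ (hSM μ' hμ' μ (hTS hμ))) ?_
    exact M.smul_mem _ (hSM μ' hμ' μs hμs)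
  · intro x γ hγ
    rw [hνdot]
    have h2 : (n : ℝ) = (∑ μ ∈ T, (a μ : ℝ)) + ρ := by
      have := congrArg (fun m : ℕ => (m : ℝ)) hρ
      push_cast at this
      exact this
    rw [h2, add_mul, Finset.sum_mul]
    refine add_le_add (Finset.sum_le_sum fun μ hμ => ?_) ?_
    · exact mul_le_mul_of_nonneg_left (hγ μ (hTS hμ)) (Nat.cast_nonneg _)
    · exact mul_le_mul_of_nonneg_left (hγ μs hμs) (Nat.cast_nonneg _)
  · intro x hx
    rw [hνdot]
    have hmnn : ∀ μ : Fin k → ℕ, 0 ≤ mdot μ x := fun μ =>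
      Finset.sum_nonneg fun j _ => mul_nonneg (Nat.cast_nonneg _) (hnn x hx j)
    have h1 : ∑ μ ∈ T, (a μ : ℝ) * mdot μ x ≤ n * ∑ μ ∈ T, l' μ * mdot μ x := by
      rw [Finset.mul_sum]
      refine Finset.sum_le_sum fun μ hμ => ?_
      rw [← mul_assoc]
      exact mul_le_mul_of_nonneg_right (ha1 μ hμ) (hmnn μ)
    have h2 := hmain x hx
    have h3 : (ρ : ℝ) * mdot μs x ≤ (k + 1) * B x := by
      have h4 : (ρ : ℝ) * mdot μs x ≤ (k + 1) * mdot μs x :=
        mul_le_mul_of_nonneg_right hρle (hmnn μs)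
      have h5 : ((k : ℝ) + 1) * mdot μs x ≤ (k + 1) * B x :=
        mul_le_mul_of_nonneg_left (hB x hx) (by (clear * -; positivity))
      linarith only [h4, h5]
    linarith only [h1, h2, h3]

end Vale.Agent.P283
end
end

section

section

/-!
Basic facts on additive valuations with values in `WithTop ℤ`.
-/

namespace Vale.Agent.P283

section Basic

variable {K : Type*} [Field K] (v : AddValuation K (WithTop ℤ))

/-- The value of `v` as an integer (junk value `0` at `0`). -/
noncomputable def ov (f : K) : ℤ := (v f).untopD 0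

theorem coe_ov {f : K} (hf : f ≠ 0) : ((ov v f : ℤ) : WithTop ℤ) = v f := by
  have h : v f ≠ ⊤ := (AddValuation.ne_top_iff v).2 hf
  unfold ov
  obtain ⟨n, hn⟩ := WithTop.ne_top_iff_exists.1 h
  rw [← hn]; rfl

theorem ov_eq_of {f : K} {n : ℤ} (h : v f = (n : WithTop ℤ)) : ov v f = n := by
  unfold ov; rw [h]; rfl

theorem ne_zero_of_eq {f : K} {n : ℤ} (h : v f = (n : WithTop ℤ)) : f ≠ 0 := by
  intro h0
  rw [h0, AddValuation.map_zero] at h
  exact WithTop.top_ne_coe h

theorem ov_mul {f g : K} (hf : f ≠ 0) (hg : g ≠ 0) : ov v (f * g) = ov v f + ov v g := by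
  have h1 : ((ov v (f * g) : ℤ) : WithTop ℤ) = ((ov v f + ov v g : ℤ) : WithTop ℤ) := by
    rw [coe_ov v (mul_ne_zero hf hg), AddValuation.map_mul, WithTop.coe_add, coe_ov v hf,
      coe_ov v hg]
  exact_mod_cast h1

theorem ov_one : ov v (1 : K) = 0 := by
  apply ov_eq_of; rw [AddValuation.map_one]; rfl

theorem ov_inv {f : K} : ov v f⁻¹ = - ov v f := by
  by_cases hf : f = 0
  · subst hf; simp [ov]
  · have := ov_mul v hf (inv_ne_zero hf)
    rw [mul_inv_cancel₀ hf, ov_one] at this
    linarith only [this]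

theorem ov_div {f g : K} (hf : f ≠ 0) (hg : g ≠ 0) : ov v (f / g) = ov v f - ov v g := by
  rw [div_eq_mul_inv, ov_mul v hf (inv_ne_zero hg), ov_inv]; ring

theorem ov_pow {f : K} (hf : f ≠ 0) (n : ℕ) : ov v (f ^ n) = n * ov v f := by
  induction n with
  | zero => simp [ov_one]
  | succ n ih => rw [pow_succ, ov_mul v (pow_ne_zero n hf) hf, ih]; push_cast; ring

theorem ov_zpow {f : K} (hf : f ≠ 0) (n : ℤ) : ov v (f ^ n) = n * ov v f := by
  obtain ⟨m, rfl | rfl⟩ := n.eq_nat_or_neg
  · rw [zpow_natCast, ov_pow v hf]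
  · rw [zpow_neg, zpow_natCast, ov_inv, ov_pow v hf]; push_cast; ring

theorem le_iff {f : K} (hf : f ≠ 0) {n : ℤ} : (n : WithTop ℤ) ≤ v f ↔ n ≤ ov v f := by
  rw [← coe_ov v hf]; exact WithTop.coe_le_coe

theorem lt_iff {f : K} (hf : f ≠ 0) {n : ℤ} : (n : WithTop ℤ) < v f ↔ n < ov v f := by
  rw [← coe_ov v hf]; exact WithTop.coe_lt_coe

theorem le_le_iff {f g : K} (hf : f ≠ 0) (hg : g ≠ 0) : v f ≤ v g ↔ ov v f ≤ ov v g := by
  rw [← coe_ov v hf, ← coe_ov v hg]; exact WithTop.coe_le_coe

theorem eq_iff {f : K} (hf : f ≠ 0) {n : ℤ} : v f = (n : WithTop ℤ) ↔ ov v f = n := by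
  rw [← coe_ov v hf]; exact WithTop.coe_inj

theorem nonneg_iff {f : K} (hf : f ≠ 0) : 0 ≤ v f ↔ 0 ≤ ov v f := by
  have := le_iff v hf (n := 0)
  simpa only [WithTop.coe_zero] using this

theorem pos_iff {f : K} (hf : f ≠ 0) : 0 < v f ↔ 0 < ov v f := by
  have := lt_iff v hf (n := 0)
  simpa only [WithTop.coe_zero] using this

theorem eq_zero_iff {f : K} (hf : f ≠ 0) : v f = 0 ↔ ov v f = 0 := by
  have := eq_iff v hf (n := 0)
  simpa using this

theorem ne_zero_of_val_zero {f : K} (h : v f = 0) : f ≠ 0 := by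
  apply ne_zero_of_eq v (n := 0); simpa only [WithTop.coe_zero] using h

theorem nonneg_mul {f g : K} (hf : 0 ≤ v f) (hg : 0 ≤ v g) : 0 ≤ v (f * g) := by
  rw [AddValuation.map_mul]
  exact add_nonneg hf hg

theorem nonneg_pow {f : K} (hf : 0 ≤ v f) (n : ℕ) : 0 ≤ v (f ^ n) := by
  induction n with
  | zero => simp
  | succ n ih => rw [pow_succ]; exact nonneg_mul v ih hf

theorem nonneg_add {f g : K} (hf : 0 ≤ v f) (hg : 0 ≤ v g) : 0 ≤ v (f + g) :=
  AddValuation.map_le_add v hf hg

/-- The valuation ring of `v`. -/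
def vRing : ValuationSubring K where
  carrier := {x | 0 ≤ v x}
  mul_mem' := fun {a b} ha hb => nonneg_mul v ha hb
  one_mem' := by simp
  add_mem' := fun {a b} ha hb => nonneg_add v ha hb
  zero_mem' := by simp
  neg_mem' := fun {a} ha => by
    show 0 ≤ v (-a)
    rw [AddValuation.map_neg]; exact ha
  mem_or_inv_mem' := by
    intro x
    by_cases hx : x = 0
    · left; show 0 ≤ v x; rw [hx]; simp
    · by_cases h : 0 ≤ ov v x
      · left; exact (nonneg_iff v hx).2 h
      · right
        show 0 ≤ v x⁻¹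
        rw [nonneg_iff v (inv_ne_zero hx), ov_inv]
        linarith

@[simp] theorem mem_vRing {x : K} : x ∈ vRing v ↔ 0 ≤ v x := Iff.rfl

end Basic

end Vale.Agent.P283
end
end

section

section

/-!
Kähler differentials of a function field of characteristic zero and wedge products of exact forms.
-/

set_option linter.style.haveILetI false

namespace Vale.Agent.P283

open scoped KaehlerDifferential
open MvPolynomial TensorProduct

section Alg

variable {k K ι : Type} [Field k] [Field K] [Algebra k K]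

/-- `K` as an algebra over the polynomial ring, via a family of elements. -/
@[reducible] noncomputable def algP (b : ι → K) : Algebra (MvPolynomial ι k) K :=
  (aeval b : MvPolynomial ι k →ₐ[k] K).toAlgebra

theorem isAlgebraic_algP (b : ι → K) (hb : IsTranscendenceBasis k b) :
    letI := algP (k := k) b
    Algebra.IsAlgebraic (MvPolynomial ι k) K := by
  letI := algP (k := k) b
  haveI := hb.isAlgebraic
  refine Algebra.IsAlgebraic.of_ringHom_of_comp_eq
    (S := Algebra.adjoin k (Set.range b)) (B := K)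
    (f := (hb.1.aevalEquiv : MvPolynomial ι k ≃ₐ[k] _).toRingEquiv.toRingHom)
    (g := RingHom.id K) ?_ ?_ ?_
  · exact (hb.1.aevalEquiv).surjective
  · exact Function.injective_id
  · ext x
    · simp only [RingEquiv.toRingHom_eq_coe, AlgEquiv.toRingEquiv_toRingHom, RingHom.coe_comp, RingHom.coe_coe, Function.comp_apply, Subalgebra.algebraMap_apply, AlgebraicIndependent.aevalEquiv_apply_coe, algHom_C, RingHom.algebraMap_toAlgebra, AlgHom.toRingHom_eq_coe, RingHom.coe_id, CompTriple.comp_eq]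
    · simp only [RingEquiv.toRingHom_eq_coe, AlgEquiv.toRingEquiv_toRingHom, RingHom.coe_comp, RingHom.coe_coe, Function.comp_apply, Subalgebra.algebraMap_apply, AlgebraicIndependent.aevalEquiv_apply_coe, aeval_X, RingHom.algebraMap_toAlgebra, AlgHom.toRingHom_eq_coe, RingHom.coe_id, id_eq]

theorem isScalarTower_algP (b : ι → K) :
    letI := algP (k := k) b
    IsScalarTower k (MvPolynomial ι k) K := by
  letI := algP (k := k) b
  exact IsScalarTower.of_algebraMap_eq' ((aeval b).comp_algebraMap).symm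

theorem faithful_algP (b : ι → K) (hb : AlgebraicIndependent k b) :
    letI := algP (k := k) b
    FaithfulSMul (MvPolynomial ι k) K := by
  letI := algP (k := k) b
  exact (faithfulSMul_iff_algebraMap_injective _ _).2 hb

theorem exists_kaehler_basis [CharZero k] (b : ι → K) (hb : IsTranscendenceBasis k b) :
    ∃ B : Module.Basis ι K (Ω[K⁄k]), ∀ i, B i = KaehlerDifferential.D k K (b i) := by
  letI : Algebra (MvPolynomial ι k) K := algP b
  haveI : IsScalarTower k (MvPolynomial ι k) K := isScalarTower_algP b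
  haveI : FaithfulSMul (MvPolynomial ι k) K := faithful_algP b hb.1
  letI : Algebra (FractionRing (MvPolynomial ι k)) K := FractionRing.liftAlgebra _ K
  haveI : IsScalarTower (MvPolynomial ι k) (FractionRing (MvPolynomial ι k)) K :=
    FractionRing.isScalarTower_liftAlgebra _ K
  haveI : Algebra.IsAlgebraic (MvPolynomial ι k) K := isAlgebraic_algP b hb
  haveI : Algebra.IsAlgebraic (FractionRing (MvPolynomial ι k)) K :=
    (IsFractionRing.comap_isAlgebraic_iff (A := MvPolynomial ι k)).1 inferInstance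
  haveI : CharZero (FractionRing (MvPolynomial ι k)) :=
    charZero_of_injective_algebraMap (algebraMap k _).injective
  haveI : Algebra.FormallyEtale (MvPolynomial ι k) (FractionRing (MvPolynomial ι k)) :=
    Algebra.FormallyEtale.of_isLocalization (nonZeroDivisors _)
  haveI : Algebra.FormallyEtale (FractionRing (MvPolynomial ι k)) K :=
    Algebra.FormallyEtale.of_isSeparable _ _
  haveI : Algebra.FormallyEtale (MvPolynomial ι k) K :=
    Algebra.FormallyEtale.comp _ (FractionRing (MvPolynomial ι k)) K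
  let e := KaehlerDifferential.tensorKaehlerEquivOfFormallyEtale k (MvPolynomial ι k) K
  refine ⟨((KaehlerDifferential.mvPolynomialBasis k ι).baseChange K).map e, ?_⟩
  intro i
  rw [Module.Basis.map_apply, Module.Basis.baseChange_apply,
    KaehlerDifferential.mvPolynomialBasis_apply]
  have h := KaehlerDifferential.tensorKaehlerEquivOfFormallyEtale_symm_D_algebraMap k
    (MvPolynomial ι k) K (X i)
  rw [LinearEquiv.symm_apply_eq] at h
  rw [← h]
  congr 1
  simp [RingHom.algebraMap_toAlgebra]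

end Alg

end Vale.Agent.P283
end
end

section

section

/-!
Birational geometry of a normal affine variety `X = Spec A` over `ℂ`, in terms of the function
field `K` of `X`: prime divisors over `X`, order of a rational `d`-form, log discrepancies,
`ε`-lc pairs and klt `n`-complements.
-/

namespace Vale.Agent.P283

open scoped KaehlerDifferential

variable {K : Type} [Field K] [Algebra ℂ K]

/-- The rational `d`-form `df₁ ∧ ⋯ ∧ df_d`. -/
noncomputable def wedgeD (d : ℕ) (f : Fin d → K) : ⋀[K]^d (Ω[K⁄ℂ]) :=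
  exteriorPower.ιMulti K d fun i => KaehlerDifferential.D ℂ K (f i)

/-- `v` is the order of vanishing along a prime divisor `E` on some smooth model of the function
field `K` of dimension `d`: a discrete valuation with value group `ℤ`, trivial on `ℂ`, whose
residue field has transcendence degree `d - 1` over `ℂ`. -/
structure IsDivisorial (d : ℕ) (v : AddValuation K (WithTop ℤ)) : Prop where
  const : ∀ c : ℂ, c ≠ 0 → v (algebraMap ℂ K c) = 0
  normalized : ∃ f : K, v f = 1
  residue : ∃ u : Fin (d - 1) → K, ∀ P : MvPolynomial (Fin (d - 1)) ℂ, P ≠ 0 →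
    v (MvPolynomial.aeval u P) = 0

/-- The rational `d`-form `ω` has order `m` along `v`: `m` is the largest integer such that
`ω = h · df₁ ∧ ⋯ ∧ df_d` with `v h = m` and with all `fᵢ` in the valuation ring of `v`. -/
def FormOrder (d : ℕ) (v : AddValuation K (WithTop ℤ)) (ω : ⋀[K]^d (Ω[K⁄ℂ])) (m : ℤ) : Prop :=
  IsGreatest {k : ℤ | ∃ (h : K) (f : Fin d → K),
    v h = (k : WithTop ℤ) ∧ (∀ i, 0 ≤ v (f i)) ∧ ω = h • wedgeD d f} m

/-! In the following `A` is a normal domain with fraction field `K` and `X = Spec A`. -/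

variable (A : Subalgebra ℂ K)

/-- `v` has a centre on `X = Spec A`. -/
def IsOver (v : AddValuation K (WithTop ℤ)) : Prop :=
  ∀ a : A, 0 ≤ v a

/-- `p` is the centre of `v` on `X = Spec A`. -/
def IsCentre (v : AddValuation K (WithTop ℤ)) (p : Ideal A) : Prop :=
  ∀ a : A, a ∈ p ↔ 0 < v a

/-- `u` is the order of vanishing along the prime divisor `q` on `X = Spec A`: `u` is a prime
divisor over `X` with centre `q`, and `q` has height one. -/
def IsPrimeDivisorOn (d : ℕ) (u : AddValuation K (WithTop ℤ)) (q : Ideal A) : Prop :=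
  IsDivisorial d u ∧ IsOver A u ∧ IsCentre A u q ∧ q.height = 1

/-- A Weil `ℚ`-divisor on `X = Spec A`: finitely many height one primes with coefficients. -/
structure QDivisor where
  coeff : Ideal A → ℚ
  finite : {q : Ideal A | coeff q ≠ 0}.Finite
  prime : ∀ q : Ideal A, coeff q ≠ 0 → q.IsPrime ∧ q.height = 1

variable {A}

/-- `r (K_X + B)` is the principal divisor of `φ` near the (generic point of the) prime `p`, where
`K_X` is the divisor of the rational form `ω`. -/
def IsLocalEquation (d : ℕ) (ω : ⋀[K]^d (Ω[K⁄ℂ])) (B : QDivisor A) (p : Ideal A) (r : ℕ)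
    (φ : K) : Prop :=
  0 < r ∧ φ ≠ 0 ∧ ∀ (u : AddValuation K (WithTop ℤ)) (q : Ideal A) (m k : ℤ),
    IsPrimeDivisorOn A d u q → q ≤ p → FormOrder d u ω m → u φ = (k : WithTop ℤ) →
      (k : ℚ) = r * (m + B.coeff q)

/-- The log discrepancy of the pair `(X, B)` along the prime divisor `v` over `X` is `a`. -/
def IsLogDiscrepancy (d : ℕ) (ω : ⋀[K]^d (Ω[K⁄ℂ])) (B : QDivisor A)
    (v : AddValuation K (WithTop ℤ)) (a : ℚ) : Prop :=
  ∃ (p : Ideal A) (r : ℕ) (φ : K) (m k : ℤ), IsCentre A v p ∧ IsLocalEquation d ω B p r φ ∧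
    FormOrder d v ω m ∧ v φ = (k : WithTop ℤ) ∧ a = 1 + m - (k : ℚ) / r

/-- The pair `(X, B)` is `ε`-lc: `K_X + B` is `ℚ`-Cartier and all log discrepancies are at least
`ε`. -/
def IsEpsLC (d : ℕ) (ω : ⋀[K]^d (Ω[K⁄ℂ])) (B : QDivisor A) (ε : ℝ) : Prop :=
  (∀ p : Ideal A, p.IsPrime → ∃ (r : ℕ) (φ : K), IsLocalEquation d ω B p r φ) ∧
  ∀ (v : AddValuation K (WithTop ℤ)) (a : ℚ), IsDivisorial d v → IsOver A v →
    IsLogDiscrepancy d ω B v a → ε ≤ a

/-- `(X, B)` has a klt `n`-complement over the closed point `z` (with `Z = X`, `f = id`): on a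
principal open neighbourhood `U = {s ≠ 0}` of `z` there is a rational function `φ` such that the
`ℚ`-divisor `Λ` with `n (K_X + Λ) = div φ` satisfies `Λ ≥ 0` and `Λ ≥ B` on `U`, and `(U, Λ)` is
klt. The coefficient of `Λ` along the prime divisor `u` is `u(φ) / n - ord_u ω`, and the log
discrepancy of `(U, Λ)` along a prime divisor `v` over `U` is `1 + ord_v ω - v(φ) / n`. -/
def HasKltComplement (d : ℕ) (ω : ⋀[K]^d (Ω[K⁄ℂ])) (B : QDivisor A) (n : ℕ) (z : Ideal A) :
    Prop :=
  ∃ s : A, s ∉ z ∧ ∃ φ : K, φ ≠ 0 ∧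
    (∀ (u : AddValuation K (WithTop ℤ)) (q : Ideal A) (m k : ℤ),
      IsPrimeDivisorOn A d u q → s ∉ q → FormOrder d u ω m → u φ = (k : WithTop ℤ) →
        0 ≤ (k : ℚ) / n - m ∧ B.coeff q ≤ (k : ℚ) / n - m) ∧
    ∀ (v : AddValuation K (WithTop ℤ)) (m k : ℤ), IsDivisorial d v → IsOver A v →
      v s = 0 → FormOrder d v ω m → v φ = (k : WithTop ℤ) → 0 < 1 + (m : ℚ) - (k : ℚ) / n

end Vale.Agent.P283
end
end

section

section

/-!
Calculus of top degree forms on a function field.
-/

set_option linter.style.haveILetI false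

namespace Vale.Agent.P283

open scoped KaehlerDifferential

section Linear

variable {K M : Type} [Field K] [AddCommGroup M] [Module K M] {d : ℕ}

theorem iMulti_eq_det (B : Module.Basis (Fin d) K M) (v : Fin d → M) :
    exteriorPower.ιMulti K d v = B.det v • exteriorPower.ιMulti K d B := by
  have h : exteriorPower.ιMulti K d (M := M)
      = (LinearMap.toSpanSingleton K _ (exteriorPower.ιMulti K d B)).compAlternatingMap B.det := by
    apply Module.Basis.ext_alternating B
    intro i hi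
    let σ : Equiv.Perm (Fin d) := Equiv.ofBijective i ((Fintype.bijective_iff_injective_and_card i).2 ⟨hi, rfl⟩)
    have h1 : (fun j => B (i j)) = B ∘ σ := rfl
    rw [h1]
    simp only [LinearMap.compAlternatingMap_apply, LinearMap.toSpanSingleton_apply]
    rw [AlternatingMap.map_perm, AlternatingMap.map_perm, Module.Basis.det_self]
    simp only [smul_assoc, one_smul]
  conv_lhs => rw [h]
  simp only [LinearMap.compAlternatingMap_apply, LinearMap.toSpanSingleton_apply]

theorem iMulti_basis_ne_zero (B : Module.Basis (Fin d) K M) :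
    exteriorPower.ιMulti K d B ≠ 0 := by
  intro h
  have h1 := exteriorPower.alternatingMapLinearEquiv_apply_ιMulti (B.det) (B : Fin d → M)
  rw [h, map_zero, Module.Basis.det_self] at h1
  exact zero_ne_one h1

theorem exists_eq_smul_basis (B : Module.Basis (Fin d) K M) (ω : ⋀[K]^d M) :
    ∃ h : K, ω = h • exteriorPower.ιMulti K d B := by
  have h1 : ω ∈ Submodule.span K (Set.range (exteriorPower.ιMulti K d (M := M))) := by
    rw [exteriorPower.ιMulti_span]; trivial
  induction h1 using Submodule.span_induction with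
  | mem x hx =>
    obtain ⟨v, rfl⟩ := hx
    exact ⟨_, iMulti_eq_det B v⟩
  | zero => exact ⟨0, by simp⟩
  | add x y _ _ hx hy =>
    obtain ⟨a, rfl⟩ := hx
    obtain ⟨b, rfl⟩ := hy
    exact ⟨a + b, by rw [add_smul]⟩
  | smul a x _ hx =>
    obtain ⟨b, rfl⟩ := hx
    exact ⟨a * b, by rw [mul_smul]⟩

end Linear

section Fields

variable {K : Type} [Field K] [Algebra ℂ K] {d : ℕ}

/-- The partial derivative attached to a basis of the differentials. -/
noncomputable def pd {ι : Type} (B : Module.Basis ι K (Ω[K⁄ℂ])) (j : ι) : Derivation ℂ K K :=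
  (B.coord j).compDer (KaehlerDifferential.D ℂ K)

theorem pd_apply {ι : Type} (B : Module.Basis ι K (Ω[K⁄ℂ])) (j : ι) (f : K) :
    pd B j f = B.repr (KaehlerDifferential.D ℂ K f) j := rfl

theorem pd_self {ι : Type} [DecidableEq ι] {b : ι → K} (B : Module.Basis ι K (Ω[K⁄ℂ]))
    (hB : ∀ i, B i = KaehlerDifferential.D ℂ K (b i)) (i j : ι) :
    pd B j (b i) = if i = j then 1 else 0 := by
  rw [pd_apply, ← hB, Module.Basis.repr_self, Finsupp.single_apply]

theorem D_eq_sum {ι : Type} [Fintype ι] (B : Module.Basis ι K (Ω[K⁄ℂ])) (f : K) :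
    KaehlerDifferential.D ℂ K f = ∑ j, pd B j f • B j := by
  simp only [pd_apply]
  exact (B.sum_repr _).symm

variable {b : Fin d → K} (B : Module.Basis (Fin d) K (Ω[K⁄ℂ]))

theorem wedgeD_basis (hB : ∀ i, B i = KaehlerDifferential.D ℂ K (b i)) :
    wedgeD d b = exteriorPower.ιMulti K d B := by
  unfold wedgeD
  congr 1
  ext i
  rw [hB]

theorem wedgeD_basis_ne_zero (hB : ∀ i, B i = KaehlerDifferential.D ℂ K (b i)) :
    wedgeD d b ≠ 0 := by
  rw [wedgeD_basis B hB]; exact iMulti_basis_ne_zero B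

theorem wedgeD_eq_det (hB : ∀ i, B i = KaehlerDifferential.D ℂ K (b i)) (f : Fin d → K) :
    wedgeD d f = (Matrix.of fun i j => pd B j (f i)).det • wedgeD d b := by
  rw [wedgeD_basis B hB]
  unfold wedgeD
  rw [iMulti_eq_det B, Module.Basis.det_apply, ← Matrix.det_transpose]
  rfl

theorem wedgeD_update (hB : ∀ i, B i = KaehlerDifferential.D ℂ K (b i)) (i : Fin d) (f : K) :
    wedgeD d (Function.update b i f) = pd B i f • wedgeD d b := by
  rw [wedgeD_eq_det B hB]
  congr 1
  have h : (Matrix.of fun i' j => pd B j (Function.update b i f i'))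
      = (1 : Matrix (Fin d) (Fin d) K).updateRow i (fun j => pd B j f) := by
    ext i' j
    by_cases h : i' = i
    · subst h
      simp
    · simp [h, pd_self B hB, Matrix.one_apply]
  rw [h]
  have h2 : (fun j => pd B j f) = ∑ j, pd B j f • (1 : Matrix (Fin d) (Fin d) K) j := by
    ext j
    simp only [Finset.sum_apply, Pi.smul_apply, Matrix.one_apply, smul_eq_mul, mul_ite, mul_one, mul_zero, Finset.sum_ite_eq', Finset.mem_univ, ↓reduceIte]
  rw [h2, Matrix.det_updateRow_sum]
  simp

theorem exists_eq_smul_wedgeD (hB : ∀ i, B i = KaehlerDifferential.D ℂ K (b i))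
    (ω : ⋀[K]^d (Ω[K⁄ℂ])) : ∃ h : K, ω = h • wedgeD d b := by
  rw [wedgeD_basis B hB]; exact exists_eq_smul_basis B ω

end Fields

end Vale.Agent.P283
end
end

section

section

/-!
Extension lemma: a derivation which does not lower a discrete valuation on a subfield `F` does
not lower it on a finite extension `K` of `F` (characteristic zero).
-/

namespace Vale.Agent.P283

open Polynomial Finset

section Horner

variable {K : Type*} [Field K] {R : Type*} [CommRing R] [Algebra R K]

theorem integral_lead (f : K) (n : ℕ) (a : ℕ → K) (ha : ∀ i, IsIntegral R (a i))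
    (h0 : ∑ i ∈ range (n + 1), a i * f ^ i = 0) : IsIntegral R (a n * f) := by
  by_cases hn : a n = 0
  · rw [hn, zero_mul]; exact isIntegral_zero
  let C := integralClosure R K
  let c : ℕ → C := fun i => ⟨a i, ha i⟩
  let p : C[X] := ∑ i ∈ range (n + 1), Polynomial.C (c i) * X ^ i
  have hcoeff : ∀ k, p.coeff k = if k ≤ n then c k else 0 := by
    intro k
    simp only [p, finsetSum_coeff, coeff_C_mul, coeff_X_pow]
    by_cases hk : k ≤ n
    · rw [Finset.sum_eq_single k]
      · simp [hk]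
      · intro b _ hb; simp [Ne.symm hb]
      · intro h; exact absurd (Finset.mem_range.2 (by omega)) h
    · rw [if_neg hk]
      apply Finset.sum_eq_zero
      intro b hb
      have : k ≠ b := by
        intro h; subst h; exact hk (by have := Finset.mem_range.1 hb; omega)
      simp [this]
  have hcn : c n ≠ 0 := by
    intro h; apply hn; exact congrArg Subtype.val h
  have hdeg : p.natDegree = n := by
    apply le_antisymm
    · rw [natDegree_le_iff_coeff_eq_zero]
      intro N hN
      rw [hcoeff, if_neg (by omega)]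
    · apply le_natDegree_of_ne_zero
      rw [hcoeff, if_pos le_rfl]; exact hcn
  have hlead : p.leadingCoeff = c n := by
    rw [leadingCoeff, hdeg, hcoeff, if_pos le_rfl]
  have haev : aeval f p = 0 := by
    simp only [p, map_sum, map_mul, aeval_C, map_pow, aeval_X]
    exact h0
  have h1 := isIntegral_leadingCoeff_smul p f haev
  rw [hlead] at h1
  have h2 : IsIntegral C (a n * f) := h1
  exact isIntegral_trans (R := R) (A := C) _ h2

theorem horner_integral (f : K) (n : ℕ) (a : ℕ → K) (ha : ∀ i, IsIntegral R (a i))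
    (h0 : ∑ i ∈ range (n + 1), a i * f ^ i = 0) :
    ∀ t j, j + t = n → IsIntegral R (∑ i ∈ range (t + 1), a (i + j) * f ^ i) ∧
      IsIntegral R ((∑ i ∈ range (t + 1), a (i + j) * f ^ i) * f) := by
  intro t
  induction t with
  | zero =>
    intro j hj
    have hj' : j = n := by omega
    subst hj'
    simp only [zero_add, Finset.sum_range_one, pow_zero, mul_one]
    exact ⟨ha _, integral_lead f _ a ha h0⟩
  | succ t ih =>
    intro j hj
    obtain ⟨_, ih2⟩ := ih (j + 1) (by omega)
    have hb : ∑ i ∈ range (t + 1 + 1), a (i + j) * f ^ i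
        = (∑ i ∈ range (t + 1), a (i + (j + 1)) * f ^ i) * f + a j := by
      rw [Finset.sum_range_succ']
      simp only [zero_add, pow_zero, mul_one, Finset.sum_mul]
      congr 1
      apply Finset.sum_congr rfl
      intro i _
      rw [show i + 1 + j = i + (j + 1) by ring, pow_succ]; ring
    have h1 : IsIntegral R (∑ i ∈ range (t + 1 + 1), a (i + j) * f ^ i) := by
      rw [hb]; exact ih2.add (ha j)
    refine ⟨h1, ?_⟩
    let b := ∑ i ∈ range (t + 1 + 1), a (i + j) * f ^ i
    have key := integral_lead (R := R) f j (fun i => if i = j then b else a i) (by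
      intro i
      by_cases hi : i = j
      · simp only [hi, if_true]; exact h1
      · simp only [hi, if_false]; exact ha i) (by
      rw [Finset.sum_range_succ]
      simp only [if_true]
      have e1 : ∑ x ∈ range j, (if x = j then b else a x) * f ^ x
          = ∑ x ∈ range j, a x * f ^ x := by
        apply Finset.sum_congr rfl
        intro x hx
        have : x ≠ j := by have := Finset.mem_range.1 hx; omega
        rw [if_neg this]
      rw [e1]
      have e2 : b * f ^ j = ∑ i ∈ range (t + 1 + 1), a (j + i) * f ^ (j + i) := by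
        simp only [b, Finset.sum_mul]
        apply Finset.sum_congr rfl
        intro i _
        rw [add_comm i j, pow_add]; ring
      rw [e2, ← Finset.sum_range_add (fun i => a i * f ^ i) j (t + 1 + 1)]
      rw [show j + (t + 1 + 1) = n + 1 by omega]
      exact h0)
    simpa using key

end Horner

section Ext

variable {F K : Type*} [Field F] [Field K] [Algebra F K]
variable (v : AddValuation K (WithTop ℤ))

/-- The valuation ring of `v` in the subfield `F`. -/
def fRing (F : Type*) {K : Type*} [Field F] [Field K] [Algebra F K]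
    (v : AddValuation K (WithTop ℤ)) : ValuationSubring F :=
  vRing (v.comap (algebraMap F K))

theorem isIntegral_of_mem {x : F} (hx : 0 ≤ v (algebraMap F K x)) :
    IsIntegral (fRing F v) (algebraMap F K x) := by
  have : algebraMap F K x = algebraMap (fRing F v) K ⟨x, hx⟩ := rfl
  rw [this]
  exact isIntegral_algebraMap

/-- Relation with coefficients in the valuation ring, one of which is a unit. -/
theorem exists_relation [Algebra.IsAlgebraic F K] (f : K) :
    ∃ p : F[X], (∀ i, 0 ≤ v (algebraMap F K (p.coeff i))) ∧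
      (∃ i, v (algebraMap F K (p.coeff i)) = 0) ∧ aeval f p = 0 := by
  have hint : IsIntegral F f := (Algebra.IsAlgebraic.isAlgebraic f).isIntegral
  set q := minpoly F f with hq
  have hq0 : q ≠ 0 := minpoly.ne_zero hint
  obtain ⟨i0, hi0, hmin⟩ := Finset.exists_min_image q.support
    (fun i => ov v (algebraMap F K (q.coeff i))) (by simpa [Finset.nonempty_iff_ne_empty] using hq0)
  have hci0 : q.coeff i0 ≠ 0 := mem_support_iff.1 hi0
  have hi0' : algebraMap F K (q.coeff i0) ≠ 0 := by simpa using hci0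
  refine ⟨Polynomial.C (q.coeff i0)⁻¹ * q, ?_, ⟨i0, ?_⟩, ?_⟩
  · intro i
    rw [coeff_C_mul, map_mul, map_inv₀]
    by_cases hi : q.coeff i = 0
    · rw [hi]; simp
    · have hi' : algebraMap F K (q.coeff i) ≠ 0 := by simpa using hi
      rw [nonneg_iff v (mul_ne_zero (inv_ne_zero hi0') hi'), ov_mul v (inv_ne_zero hi0') hi',
        ov_inv]
      have := hmin i (mem_support_iff.2 hi)
      linarith only [this]
  · rw [coeff_C_mul, inv_mul_cancel₀ hci0]; simp
  · rw [map_mul, hq, minpoly.aeval, mul_zero]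

/-- Every element of nonnegative value is a quotient of integral elements with denominator
of value zero. -/
theorem exists_integral_frac [Algebra.IsAlgebraic F K] (f : K) (hf : 0 ≤ v f) :
    ∃ s : K, v s = 0 ∧ IsIntegral (fRing F v) s ∧ IsIntegral (fRing F v) (s * f) := by
  obtain ⟨p, hp, ⟨i1, hi1⟩, hp0⟩ := exists_relation (F := F) v f
  set n := p.natDegree with hn
  let a : ℕ → K := fun i => algebraMap F K (p.coeff i)
  have ha : ∀ i, IsIntegral (fRing F v) (a i) := fun i => isIntegral_of_mem v (hp i)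
  have hsum : ∑ i ∈ range (n + 1), a i * f ^ i = 0 := by
    rw [aeval_eq_sum_range] at hp0
    simpa only [Algebra.smul_def] using hp0
  -- the largest index with a unit coefficient
  classical
  let S := (range (n + 1)).filter (fun i => v (a i) = 0)
  have hi1n : i1 ≤ n := by
    by_contra h
    have h0 : p.coeff i1 = 0 := coeff_eq_zero_of_natDegree_lt (by omega)
    rw [h0] at hi1
    simp at hi1
  have hS : S.Nonempty := ⟨i1, by simp only [mem_filter, mem_range, Order.lt_add_one_iff, hi1, and_true, S, a]; omega⟩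
  obtain ⟨j, hjS, hjmax⟩ := S.exists_max_image id hS
  have hj : j ≤ n ∧ v (a j) = 0 := by
    have := Finset.mem_filter.1 hjS
    exact ⟨by have := Finset.mem_range.1 this.1; omega, this.2⟩
  have hpos : ∀ i, j < i → 0 < v (a i) := by
    intro i hi
    have h0 : 0 ≤ v (a i) := hp i
    rcases h0.lt_or_eq with h | h
    · exact h
    · exfalso
      by_cases hin : i ≤ n
      · have : i ∈ S := by simp only [mem_filter, mem_range, Order.lt_add_one_iff, ← h, and_true, S]; omega
        have := hjmax i this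
        simp at this; omega
      · have h0 : a i = 0 := by
          simp only [a]; rw [coeff_eq_zero_of_natDegree_lt (by omega)]; simp
        rw [h0] at h; simp at h
  obtain ⟨h1, h2⟩ := horner_integral (R := fRing F v) f n a ha hsum (n - j) j (by omega)
  refine ⟨_, ?_, h1, h2⟩
  rw [Finset.sum_range_succ']
  simp only [zero_add, pow_zero, mul_one]
  rw [AddValuation.map_add_eq_of_lt_right]
  · exact hj.2
  · rw [hj.2]
    apply AddValuation.map_lt_sum' v (WithTop.coe_lt_top 0)
    intro i _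
    have h3 : 0 < v (a (i + 1 + j)) := hpos _ (by omega)
    have h4 : 0 ≤ v (f ^ (i + 1)) := nonneg_pow v hf _
    rw [AddValuation.map_mul]
    exact lt_of_lt_of_le h3 (le_add_of_nonneg_right h4)

theorem exists_int_le (x : K) : ∃ N : ℤ, (N : WithTop ℤ) ≤ v x := by
  by_cases hx : x = 0
  · exact ⟨0, by rw [hx]; simp⟩
  · exact ⟨ov v x, by rw [coe_ov v hx]⟩

variable {k : Type*} [CommRing k] [Algebra k K]

/-- A derivation is bounded below on integral elements. -/
theorem exists_bound_integral [FiniteDimensional F K] [CharZero F] (δ : Derivation k K K)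
    (hδ : ∀ a : F, v (algebraMap F K a) ≤ v (δ (algebraMap F K a))) :
    ∃ N : ℤ, ∀ c : K, IsIntegral (fRing F v) c → (N : WithTop ℤ) ≤ v (δ c) := by
  classical
  obtain ⟨s, b, hb⟩ := FiniteDimensional.exists_is_basis_integral (fRing F v) F K
  set b' := (Algebra.traceForm F K).dualBasis (traceForm_nondegenerate F K) b with hb'
  have h1 : ∀ i : s, ∃ N : ℤ, (N : WithTop ℤ) ≤ v (b' i) ∧ (N : WithTop ℤ) ≤ v (δ (b' i)) := by
    intro i
    obtain ⟨N1, hN1⟩ := exists_int_le v (b' i)
    obtain ⟨N2, hN2⟩ := exists_int_le v (δ (b' i))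
    exact ⟨min N1 N2, le_trans (WithTop.coe_le_coe.2 (min_le_left _ _)) hN1,
      le_trans (WithTop.coe_le_coe.2 (min_le_right _ _)) hN2⟩
  choose N hN using h1
  obtain ⟨M, hM⟩ := (Finset.univ.image N).bddBelow
  have hM' : ∀ i, M ≤ N i := fun i => hM (Finset.mem_coe.2
    (Finset.mem_image_of_mem _ (Finset.mem_univ i)))
  refine ⟨M, ?_⟩
  intro c hc
  have hmem : c ∈ Submodule.span (fRing F v) (Set.range b') :=
    integralClosure_le_span_dualBasis b hb hc
  clear hc
  have : (M : WithTop ℤ) ≤ v c ∧ (M : WithTop ℤ) ≤ v (δ c) := by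
    induction hmem using Submodule.span_induction with
    | mem x hx =>
      obtain ⟨i, rfl⟩ := hx
      exact ⟨le_trans (WithTop.coe_le_coe.2 (hM' i)) (hN i).1,
        le_trans (WithTop.coe_le_coe.2 (hM' i)) (hN i).2⟩
    | zero => simp
    | add x y _ _ hx hy =>
      have hx' : (M : WithTop ℤ) ≤ v x ∧ (M : WithTop ℤ) ≤ v (δ x) := hx
      have hy' : (M : WithTop ℤ) ≤ v y ∧ (M : WithTop ℤ) ≤ v (δ y) := hy
      refine ⟨AddValuation.map_le_add v hx'.1 hy'.1, ?_⟩
      rw [map_add]
      exact AddValuation.map_le_add v hx'.2 hy'.2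
    | smul l x _ hx =>
      have hl : 0 ≤ v (algebraMap F K l) := l.2
      have e : l • x = algebraMap F K (l : F) * x := by
        rw [Algebra.smul_def]; rfl
      rw [e]
      constructor
      · rw [AddValuation.map_mul]
        exact le_trans hx.1 (le_add_of_nonneg_left hl)
      · rw [Derivation.leibniz, smul_eq_mul, smul_eq_mul]
        apply AddValuation.map_le_add
        · rw [AddValuation.map_mul]
          exact le_trans hx.2 (le_add_of_nonneg_left hl)
        · rw [AddValuation.map_mul]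
          exact le_trans hx.1 (le_add_of_nonneg_right (le_trans hl (hδ _)))
  exact this.2

theorem exists_bound [FiniteDimensional F K] [CharZero F] (δ : Derivation k K K)
    (hδ : ∀ a : F, v (algebraMap F K a) ≤ v (δ (algebraMap F K a))) :
    ∃ N : ℤ, ∀ f : K, 0 ≤ v f → (N : WithTop ℤ) ≤ v (δ f) := by
  obtain ⟨N, hN⟩ := exists_bound_integral v δ hδ
  refine ⟨N, fun f hf => ?_⟩
  obtain ⟨s, hs, h1, h2⟩ := exists_integral_frac (F := F) v f hf
  have hs0 : s ≠ 0 := ne_zero_of_val_zero v hs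
  have e : s * δ f = δ (s * f) - f * δ s := by
    rw [Derivation.leibniz, smul_eq_mul, smul_eq_mul]; ring
  have h3 : (N : WithTop ℤ) ≤ v (s * δ f) := by
    rw [e]
    apply AddValuation.map_le_sub v (hN _ h2)
    rw [AddValuation.map_mul]
    exact le_trans (hN _ h1) (le_add_of_nonneg_left hf)
  rw [AddValuation.map_mul, hs, zero_add] at h3
  exact h3

/-- A polynomial with coefficients in the valuation ring which is small at `u` with unit
derivative at `u`. -/
theorem exists_separable_relation [Algebra.IsAlgebraic F K]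
    (hQ : ∀ n : ℕ, n ≠ 0 → v (n : K) = 0) (u : K) (hu : v u = 0) :
    ∃ p : F[X], (∀ i, 0 ≤ v (algebraMap F K (p.coeff i))) ∧ 0 < v (aeval u p) ∧
      v (aeval u (derivative p)) = 0 := by
  classical
  let D : ℕ → Prop := fun n => ∃ p : F[X], (∀ i, 0 ≤ v (algebraMap F K (p.coeff i))) ∧
    (∃ i, v (algebraMap F K (p.coeff i)) = 0) ∧ p.natDegree = n ∧ 0 < v (aeval u p)
  have hD : ∃ n, D n := by
    obtain ⟨p, h1, h2, h3⟩ := exists_relation (F := F) v u
    exact ⟨p.natDegree, p, h1, h2, rfl, by rw [h3]; simp only [AddValuation.map_zero, LinearOrderedAddCommGroupWithTop.top_pos]⟩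
  have haev : ∀ q : F[X], (∀ i, 0 ≤ v (algebraMap F K (q.coeff i))) → 0 ≤ v (aeval u q) := by
    intro q hq
    rw [aeval_eq_sum_range]
    apply AddValuation.map_le_sum
    intro i _
    rw [Algebra.smul_def]
    exact nonneg_mul v (hq i) (nonneg_pow v hu.ge i)
  set n := Nat.find hD with hn
  obtain ⟨p, hp1, ⟨i1, hi1⟩, hpn, hp3⟩ := Nat.find_spec hD
  rw [← hn] at hpn
  have hmin : ∀ m, m < n → ¬ D m := fun m hm => Nat.find_min hD hm
  -- leading coefficient has value zero
  have hlc : v (algebraMap F K (p.coeff n)) = 0 := by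
    by_contra hne
    have hpos : 0 < v (algebraMap F K (p.coeff n)) := lt_of_le_of_ne (hp1 n) (Ne.symm hne)
    have hi1n : i1 ≠ n := by
      intro h; rw [h] at hi1; exact hne hi1
    have hi1le : i1 ≤ n := by
      by_contra h
      have h0 : p.coeff i1 = 0 := coeff_eq_zero_of_natDegree_lt (by omega)
      rw [h0] at hi1; simp at hi1
    apply hmin (n - 1 - (n - 1 - p.eraseLead.natDegree)) (by omega)
    refine ⟨p.eraseLead, ?_, ⟨i1, ?_⟩, ?_, ?_⟩
    · intro i
      by_cases hi : i = p.natDegree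
      · rw [hi, eraseLead_coeff_natDegree]; simp
      · rw [eraseLead_coeff_of_ne _ hi]; exact hp1 i
    · rw [eraseLead_coeff_of_ne _ (by rw [hpn]; exact hi1n)]; exact hi1
    · have := eraseLead_natDegree_le p
      omega
    · have e : aeval u p.eraseLead = aeval u p - algebraMap F K (p.coeff n) * u ^ n := by
        have h4 := eraseLead_add_monomial_natDegree_leadingCoeff p
        have h5 : p.eraseLead = p - monomial p.natDegree p.leadingCoeff := by
          rw [eq_sub_iff_add_eq]; exact h4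
        rw [h5, map_sub, aeval_monomial, leadingCoeff, hpn]
      rw [e]
      have h6 : 0 < v (algebraMap F K (p.coeff n) * u ^ n) := by
        rw [AddValuation.map_mul, AddValuation.map_pow, hu]
        simpa only [nsmul_zero, add_zero] using hpos
      have := AddValuation.map_sub v (aeval u p) (algebraMap F K (p.coeff n) * u ^ n)
      exact lt_of_lt_of_le (lt_min hp3 h6) this
  have hn0 : n ≠ 0 := by
    intro h0
    have : p = Polynomial.C (p.coeff 0) := eq_C_of_natDegree_eq_zero (by omega)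
    rw [this, aeval_C] at hp3
    rw [h0] at hlc
    rw [hlc] at hp3
    exact lt_irrefl _ hp3
  refine ⟨p, hp1, hp3, ?_⟩
  have hd1 : ∀ i, 0 ≤ v (algebraMap F K ((derivative p).coeff i)) := by
    intro i
    rw [coeff_derivative]
    have : algebraMap F K (p.coeff (i + 1) * ((i : F) + 1))
        = algebraMap F K (p.coeff (i + 1)) * ((i + 1 : ℕ) : K) := by
      push_cast; simp only
    rw [this]
    apply nonneg_mul v (hp1 _)
    rw [hQ _ (Nat.succ_ne_zero i)]
  by_contra hne
  have hpos : 0 < v (aeval u (derivative p)) := lt_of_le_of_ne (haev _ hd1) (Ne.symm hne)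
  have hdeg : (derivative p).natDegree < n := by
    have := natDegree_derivative_lt (p := p) (by omega)
    omega
  apply hmin _ hdeg
  refine ⟨derivative p, hd1, ⟨n - 1, ?_⟩, rfl, hpos⟩
  rw [coeff_derivative]
  have h7 : n - 1 + 1 = n := by omega
  have : algebraMap F K (p.coeff (n - 1 + 1) * (((n - 1 : ℕ) : F) + 1))
      = algebraMap F K (p.coeff n) * ((n : ℕ) : K) := by
    rw [h7]
    have : (((n - 1 : ℕ) : F) + 1) = ((n : ℕ) : F) := by
      rw [← h7]; push_cast; simp only
    rw [this]; simp only [map_mul, map_natCast]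
  rw [this, AddValuation.map_mul, hlc, hQ n hn0, add_zero]

theorem derivation_aeval (δ : Derivation k K K) (p : F[X]) (u : K) :
    δ (aeval u p) = ∑ i ∈ range (p.natDegree + 1), u ^ i * δ (algebraMap F K (p.coeff i))
      + aeval u (derivative p) * δ u := by
  have h1 : aeval u (derivative p) = ∑ i ∈ range (p.natDegree + 1),
      algebraMap F K (p.coeff i) * (i * u ^ (i - 1)) := by
    have e : aeval u (derivative p) = (derivative (p.map (algebraMap F K))).eval u := by
      rw [derivative_map, eval_map_algebraMap]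
    rw [e, derivative_eval, Polynomial.sum_over_range' _ _ (p.natDegree + 1)]
    · apply Finset.sum_congr rfl
      intro i _
      rw [coeff_map]; ring
    · rw [natDegree_map]; omega
    · intro n; simp only [zero_mul]
  rw [aeval_eq_sum_range, map_sum, h1, Finset.sum_mul, ← Finset.sum_add_distrib]
  apply Finset.sum_congr rfl
  intro i _
  rw [Algebra.smul_def, Derivation.leibniz, Derivation.leibniz_pow]
  simp only [smul_eq_mul, nsmul_eq_mul]
  ring

/-- One improvement step. -/
theorem step [Algebra.IsAlgebraic F K]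
    (hQ : ∀ n : ℕ, n ≠ 0 → v (n : K) = 0) (ϖ : F) (e0 : ℕ) (he0 : 0 < e0)
    (hϖ : v (algebraMap F K ϖ) = ((e0 : ℤ) : WithTop ℤ)) (δ : Derivation k K K)
    (hδ : ∀ a : F, v (algebraMap F K a) ≤ v (δ (algebraMap F K a)))
    (u : K) (hu : v u = 0) (c : ℤ) (hc : v (δ u) = (c : WithTop ℤ)) (hc0 : c < 0) :
    ∃ (u' : K) (c' : ℤ), v u' = 0 ∧ v (δ u') = (c' : WithTop ℤ) ∧ c' < c := by
  obtain ⟨p, hp1, hp2, hp3⟩ := exists_separable_relation (F := F) v hQ u hu
  set h := aeval u p with hh
  have hδh : v (δ h) = (c : WithTop ℤ) := by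
    rw [hh, derivation_aeval, AddValuation.map_add_eq_of_lt_right]
    · rw [AddValuation.map_mul, hp3, zero_add, hc]
    · rw [AddValuation.map_mul, hp3, zero_add, hc]
      apply AddValuation.map_lt_sum' v (WithTop.coe_lt_top c)
      intro i _
      apply lt_of_lt_of_le (b := (0 : WithTop ℤ))
      · exact_mod_cast hc0
      · apply nonneg_mul v (nonneg_pow v hu.ge i)
        exact le_trans (hp1 i) (hδ _)
  have hh0 : h ≠ 0 := by
    intro h0
    rw [h0, map_zero, AddValuation.map_zero] at hδh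
    exact WithTop.top_ne_coe hδh
  set m := ov v h with hm
  have hmpos : 0 < m := (pos_iff v hh0).1 hp2
  have hϖ0 : algebraMap F K ϖ ≠ 0 := ne_zero_of_eq v hϖ
  have hovϖ : ov v (algebraMap F K ϖ) = e0 := ov_eq_of v hϖ
  have hδh0 : δ h ≠ 0 := ne_zero_of_eq v hδh
  have hovδ : ov v (δ h) = c := ov_eq_of v hδh
  set P : K := (algebraMap F K ϖ) ^ (-m) with hP
  have hP0 : P ≠ 0 := zpow_ne_zero _ hϖ0
  have hPF : P = algebraMap F K (ϖ ^ (-m)) := by rw [map_zpow₀]
  have hovP : ov v P = -m * e0 := by rw [hP, ov_zpow v hϖ0, hovϖ]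
  have hhe : h ^ e0 ≠ 0 := pow_ne_zero _ hh0
  have hn0 : ((e0 : ℕ) : K) ≠ 0 := ne_zero_of_val_zero v (hQ e0 he0.ne')
  refine ⟨h ^ e0 * P, c - m, ?_, ?_, by linarith only [hmpos]⟩
  · rw [eq_zero_iff v (mul_ne_zero hhe hP0), ov_mul v hhe hP0, ov_pow v hh0, hovP]
    ring
  · have e1 : δ (h ^ e0 * P) = h ^ e0 * δ P + P * (e0 * (h ^ (e0 - 1) * δ h)) := by
      rw [Derivation.leibniz, Derivation.leibniz_pow]
      simp only [smul_eq_mul, nsmul_eq_mul]
    have hA : P * (e0 * (h ^ (e0 - 1) * δ h)) ≠ 0 :=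
      mul_ne_zero hP0 (mul_ne_zero hn0 (mul_ne_zero (pow_ne_zero _ hh0) hδh0))
    have hovA : ov v (P * (e0 * (h ^ (e0 - 1) * δ h))) = c - m := by
      rw [ov_mul v hP0 (mul_ne_zero hn0 (mul_ne_zero (pow_ne_zero _ hh0) hδh0)),
        ov_mul v hn0 (mul_ne_zero (pow_ne_zero _ hh0) hδh0),
        ov_mul v (pow_ne_zero _ hh0) hδh0, ov_pow v hh0, hovP, hovδ,
        (eq_zero_iff v hn0).1 (hQ e0 he0.ne')]
      have : ((e0 - 1 : ℕ) : ℤ) = e0 - 1 := by push_cast [Nat.cast_sub he0]; simp
      rw [this, ← hm]; ring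
    have hB : 0 ≤ v (h ^ e0 * δ P) := by
      have h1 : v P ≤ v (δ P) := by rw [hPF]; exact hδ _
      rw [AddValuation.map_mul]
      calc (0 : WithTop ℤ) = v (h ^ e0) + v P := by
            rw [← AddValuation.map_mul]
            symm
            rw [eq_zero_iff v (mul_ne_zero hhe hP0), ov_mul v hhe hP0, ov_pow v hh0, hovP]
            ring
        _ ≤ _ := by (clear * - h1; gcongr)
    rw [e1, AddValuation.map_add_eq_of_lt_right]
    · rw [eq_iff v hA, hovA]
    · have : v (P * (e0 * (h ^ (e0 - 1) * δ h))) = ((c - m : ℤ) : WithTop ℤ) := by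
        rw [eq_iff v hA, hovA]
      rw [this]
      apply lt_of_lt_of_le (b := (0 : WithTop ℤ)) _ hB
      have : c - m < 0 := by linarith only [hc0, hmpos]
      exact_mod_cast this

/-- **Extension lemma.** -/
theorem derivation_extension [FiniteDimensional F K] [CharZero F]
    (hQ : ∀ n : ℕ, n ≠ 0 → v (n : K) = 0) (ϖ : F) (e0 : ℕ) (he0 : 0 < e0)
    (hϖ : v (algebraMap F K ϖ) = ((e0 : ℤ) : WithTop ℤ)) (δ : Derivation k K K)
    (hδ : ∀ a : F, v (algebraMap F K a) ≤ v (δ (algebraMap F K a))) (f : K) :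
    v f ≤ v (δ f) := by
  -- units first
  have hunit : ∀ u : K, v u = 0 → 0 ≤ v (δ u) := by
    obtain ⟨N, hN⟩ := exists_bound (F := F) v δ hδ
    by_contra hcon
    push Not at hcon
    obtain ⟨u, hu, hlt⟩ := hcon
    have key : ∀ (t : ℕ) (u : K) (c : ℤ), v u = 0 → v (δ u) = (c : WithTop ℤ) → c < 0 →
        c - N = t → False := by
      intro t
      induction t using Nat.strong_induction_on with
      | _ t ih =>
        intro u c hu hc hc0 ht
        obtain ⟨u', c', hu', hc', hlt'⟩ := step v hQ ϖ e0 he0 hϖ δ hδ u hu c hc hc0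
        have hN' : N ≤ c' := by
          have := hN u' hu'.ge
          rw [hc'] at this
          exact_mod_cast this
        exact ih (c' - N).toNat (by omega) u' c' hu' hc' (by omega) (by omega)
    have hδu0 : δ u ≠ 0 := by
      intro h0; rw [h0] at hlt; simp at hlt
    have hc : v (δ u) = ((ov v (δ u) : ℤ) : WithTop ℤ) := (coe_ov v hδu0).symm
    have hc0 : ov v (δ u) < 0 := by
      rw [hc] at hlt; exact_mod_cast hlt
    have hN' : N ≤ ov v (δ u) := by
      have := hN u hu.ge
      rw [hc] at this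
      exact_mod_cast this
    exact key (ov v (δ u) - N).toNat u _ hu hc hc0 (by omega)
  by_cases hf : f = 0
  · rw [hf]; simp
  by_cases hδf : δ f = 0
  · rw [hδf]; simp
  rw [le_le_iff v hf hδf]
  set m := ov v f with hm
  have hϖ0 : algebraMap F K ϖ ≠ 0 := ne_zero_of_eq v hϖ
  have hovϖ : ov v (algebraMap F K ϖ) = e0 := ov_eq_of v hϖ
  set P : K := (algebraMap F K ϖ) ^ (-m) with hP
  have hP0 : P ≠ 0 := zpow_ne_zero _ hϖ0
  have hPF : P = algebraMap F K (ϖ ^ (-m)) := by rw [map_zpow₀]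
  have hovP : ov v P = -m * e0 := by rw [hP, ov_zpow v hϖ0, hovϖ]
  have hfe : f ^ e0 ≠ 0 := pow_ne_zero _ hf
  have hn0 : ((e0 : ℕ) : K) ≠ 0 := ne_zero_of_val_zero v (hQ e0 he0.ne')
  have hval : v (f ^ e0 * P) = 0 := by
    rw [eq_zero_iff v (mul_ne_zero hfe hP0), ov_mul v hfe hP0, ov_pow v hf, hovP]
    ring
  have h1 := hunit _ hval
  have e1 : P * (e0 * (f ^ (e0 - 1) * δ f)) = δ (f ^ e0 * P) - f ^ e0 * δ P := by
    rw [Derivation.leibniz, Derivation.leibniz_pow]
    simp only [smul_eq_mul, nsmul_eq_mul]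
    ring
  have hB : 0 ≤ v (f ^ e0 * δ P) := by
    have h1 : v P ≤ v (δ P) := by rw [hPF]; exact hδ _
    rw [AddValuation.map_mul]
    calc (0 : WithTop ℤ) = v (f ^ e0) + v P := by rw [← AddValuation.map_mul, hval]
      _ ≤ _ := by (clear * - h1; gcongr)
  have h2 : 0 ≤ v (P * (e0 * (f ^ (e0 - 1) * δ f))) := by
    rw [e1]; exact AddValuation.map_le_sub v h1 hB
  have hA : P * (e0 * (f ^ (e0 - 1) * δ f)) ≠ 0 :=
    mul_ne_zero hP0 (mul_ne_zero hn0 (mul_ne_zero (pow_ne_zero _ hf) hδf))
  rw [nonneg_iff v hA, ov_mul v hP0 (mul_ne_zero hn0 (mul_ne_zero (pow_ne_zero _ hf) hδf)),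
        ov_mul v hn0 (mul_ne_zero (pow_ne_zero _ hf) hδf),
        ov_mul v (pow_ne_zero _ hf) hδf, ov_pow v hf, hovP,
        (eq_zero_iff v hn0).1 (hQ e0 he0.ne')] at h2
  have : ((e0 - 1 : ℕ) : ℤ) = e0 - 1 := by push_cast [Nat.cast_sub he0]; simp
  rw [this, ← hm] at h2
  linarith only [h2]

end Ext

end Vale.Agent.P283
end
end

section

section

/-!
Logarithmic derivations at a divisorial valuation.
-/

set_option linter.style.haveILetI false

namespace Vale.Agent.P283

open MvPolynomial Finset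

section Params

variable {k K : Type} [Field k] [Field K] [Algebra k K]
variable (v : AddValuation K (WithTop ℤ)) {e : ℕ} (π : K) (u : Fin e → K)

/-- The substitution `(π, u)` computed through `finSuccEquiv`. -/
theorem aeval_cons_eq (p : MvPolynomial (Fin (e + 1)) k) :
    aeval (Fin.cons π u : Fin (e + 1) → K) p
      = ∑ i ∈ range ((finSuccEquiv k e p).natDegree + 1),
          aeval u ((finSuccEquiv k e p).coeff i) * π ^ i := by
  have h : (aeval (Fin.cons π u : Fin (e + 1) → K) : MvPolynomial (Fin (e + 1)) k →ₐ[k] K)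
      = (Polynomial.aevalTower (aeval u : MvPolynomial (Fin e) k →ₐ[k] K) π).comp
        (finSuccEquiv k e : MvPolynomial (Fin (e + 1)) k →ₐ[k] _) := by
    apply MvPolynomial.algHom_ext
    intro i
    refine Fin.cases ?_ (fun j => ?_) i
    · simp [finSuccEquiv_X_zero]
    · simp [finSuccEquiv_X_succ]
  rw [h]
  simp only [AlgHom.comp_apply]
  conv_lhs => rw [show ((finSuccEquiv k e : MvPolynomial (Fin (e + 1)) k →ₐ[k] _) p)
    = finSuccEquiv k e p from rfl, Polynomial.as_sum_range (finSuccEquiv k e p)]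
  rw [map_sum]
  apply Finset.sum_congr rfl
  intro i _
  rw [← Polynomial.C_mul_X_pow_eq_monomial]
  simp

variable {v π u}

/-- value of a sum with a unique smallest term -/
theorem val_sum_of_min {ι : Type*} (s : Finset ι) (f : ι → K) (i0 : ι) (hi0 : i0 ∈ s) (n : ℤ)
    (h0 : v (f i0) = (n : WithTop ℤ)) (h : ∀ i ∈ s, i ≠ i0 → (n : WithTop ℤ) < v (f i)) :
    v (∑ i ∈ s, f i) = (n : WithTop ℤ) := by
  classical
  rw [← Finset.add_sum_erase s f hi0, AddValuation.map_add_eq_of_lt_left]
  · exact h0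
  · rw [h0]
    apply AddValuation.map_lt_sum' v (WithTop.coe_lt_top n)
    intro i hi
    exact h i (Finset.mem_of_mem_erase hi) (Finset.ne_of_mem_erase hi)

theorem val_pow_eq (hπ : v π = 1) (i : ℕ) : v (π ^ i) = ((i : ℤ) : WithTop ℤ) := by
  rw [AddValuation.map_pow, hπ]
  induction i with
  | zero => simp
  | succ i ih => rw [succ_nsmul, ih]; push_cast; rfl

theorem val_aeval_cons (hπ : v π = 1)
    (hu : ∀ P : MvPolynomial (Fin e) k, P ≠ 0 → v (aeval u P) = 0)
    (p : MvPolynomial (Fin (e + 1)) k) (hp : p ≠ 0) :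
    v (aeval (Fin.cons π u : Fin (e + 1) → K) p)
      = (((finSuccEquiv k e p).natTrailingDegree : ℤ) : WithTop ℤ) := by
  set P := finSuccEquiv k e p with hP
  have hP0 : P ≠ 0 := by
    rw [hP]; exact (EmbeddingLike.map_ne_zero_iff).2 hp
  rw [aeval_cons_eq, ← hP]
  apply val_sum_of_min _ _ P.natTrailingDegree
  · rw [Finset.mem_range]
    have := Polynomial.natTrailingDegree_le_natDegree P
    omega
  · rw [AddValuation.map_mul, hu _ (by
      have := Polynomial.trailingCoeff_nonzero_iff_nonzero.2 hP0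
      exact this), zero_add, val_pow_eq hπ]
  · intro i _ hi
    by_cases hci : P.coeff i = 0
    · rw [hci]; simp
    · rw [AddValuation.map_mul, hu _ hci, zero_add, val_pow_eq hπ]
      have := Polynomial.natTrailingDegree_le_of_ne_zero hci
      have h2 : P.natTrailingDegree < i := lt_of_le_of_ne this (Ne.symm hi)
      exact_mod_cast h2

/-- `π, u` are algebraically independent. -/
theorem algInd_cons (hπ : v π = 1)
    (hu : ∀ P : MvPolynomial (Fin e) k, P ≠ 0 → v (aeval u P) = 0) :
    AlgebraicIndependent k (Fin.cons π u : Fin (e + 1) → K) := by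
  rw [algebraicIndependent_iff]
  intro p hp
  by_contra hne
  have := val_aeval_cons hπ hu p hne
  rw [hp, AddValuation.map_zero] at this
  exact WithTop.top_ne_coe this

theorem derivation_poly (hu : ∀ P : MvPolynomial (Fin e) k, P ≠ 0 → v (aeval u P) = 0)
    (δ : Derivation k K K) (hδu : ∀ i, 0 ≤ v (δ (u i))) (P : MvPolynomial (Fin e) k) :
    0 ≤ v (aeval u P) ∧ 0 ≤ v (δ (aeval u P)) := by
  have h0 : ∀ P : MvPolynomial (Fin e) k, 0 ≤ v (aeval u P) := by
    intro P
    by_cases hP : P = 0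
    · rw [hP]; simp
    · rw [hu P hP]
  refine ⟨h0 P, ?_⟩
  induction P using MvPolynomial.induction_on with
  | C a => simp
  | add p q hp hq => rw [map_add, map_add]; exact nonneg_add v hp hq
  | mul_X p i hp =>
    rw [map_mul, Derivation.leibniz, aeval_X, smul_eq_mul, smul_eq_mul]
    apply nonneg_add v
    · exact nonneg_mul v (h0 p) (hδu i)
    · refine nonneg_mul v ?_ hp
      have := h0 (X i)
      rwa [aeval_X] at this

theorem derivation_cons (hπ : v π = 1)
    (hu : ∀ P : MvPolynomial (Fin e) k, P ≠ 0 → v (aeval u P) = 0)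
    (δ : Derivation k K K) (hδπ : 1 ≤ v (δ π)) (hδu : ∀ i, 0 ≤ v (δ (u i)))
    (p : MvPolynomial (Fin (e + 1)) k) :
    v (aeval (Fin.cons π u : Fin (e + 1) → K) p)
      ≤ v (δ (aeval (Fin.cons π u : Fin (e + 1) → K) p)) := by
  by_cases hp : p = 0
  · rw [hp]; simp
  rw [val_aeval_cons hπ hu p hp, aeval_cons_eq, map_sum]
  apply AddValuation.map_le_sum
  intro i _
  set P := finSuccEquiv k e p with hP
  by_cases hci : P.coeff i = 0
  · rw [hci]; simp
  have hle : P.natTrailingDegree ≤ i := Polynomial.natTrailingDegree_le_of_ne_zero hci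
  have hle' : (((P.natTrailingDegree : ℤ)) : WithTop ℤ) ≤ ((i : ℤ) : WithTop ℤ) := by
    exact_mod_cast hle
  refine le_trans hle' ?_
  rw [Derivation.leibniz, Derivation.leibniz_pow]
  simp only [smul_eq_mul, nsmul_eq_mul]
  obtain ⟨h1, h2⟩ := derivation_poly hu δ hδu (P.coeff i)
  apply AddValuation.map_le_add
  · rcases Nat.eq_zero_or_pos i with rfl | hi
    · simp only [CharP.cast_eq_zero, WithTop.coe_zero, Nat.cast_zero, zero_tsub, pow_zero, one_mul, zero_mul, mul_zero, AddValuation.map_zero, le_top]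
    · have h3 : ((i : ℤ) : WithTop ℤ) ≤ v (π ^ (i - 1) * δ π) := by
        rw [AddValuation.map_mul, val_pow_eq hπ]
        calc ((i : ℤ) : WithTop ℤ) = (((i - 1 : ℕ) : ℤ) : WithTop ℤ) + 1 := by
              rw [← WithTop.coe_one, ← WithTop.coe_add]
              congr 1
              omega
          _ ≤ _ := by gcongr
      have h4 : 0 ≤ v ((i : ℕ) : K) := by
        have : ((i : ℕ) : K) = aeval u (C (i : k) : MvPolynomial (Fin e) k) := by simp only [map_natCast]
        rw [this]
        by_cases hi0 : (C (i : k) : MvPolynomial (Fin e) k) = 0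
        · rw [hi0]; simp
        · rw [hu _ hi0]
      rw [AddValuation.map_mul, AddValuation.map_mul]
      calc ((i : ℤ) : WithTop ℤ) = 0 + (0 + ((i : ℤ) : WithTop ℤ)) := by simp
        _ ≤ _ := by (clear * - h1 h4 h3; gcongr)
  · rw [AddValuation.map_mul, val_pow_eq hπ]
    exact le_add_of_nonneg_right h2

/-- **Log derivations.** A derivation which preserves the parameters of a divisorial valuation
`v` logarithmically does not lower `v`. -/
theorem log_derivation [CharZero k] [Algebra.EssFiniteType k K] (hπ : v π = 1)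
    (hu : ∀ P : MvPolynomial (Fin e) k, P ≠ 0 → v (aeval u P) = 0)
    (htr : Algebra.trdeg k K ≤ (e + 1 : ℕ))
    (δ : Derivation k K K) (hδπ : 1 ≤ v (δ π)) (hδu : ∀ i, 0 ≤ v (δ (u i))) (f : K) :
    v f ≤ v (δ f) := by
  have hind := algInd_cons (k := k) hπ hu
  have hb : IsTranscendenceBasis k (Fin.cons π u : Fin (e + 1) → K) :=
    hind.isTranscendenceBasis_of_trdeg_le_of_finite (by simpa only [Cardinal.mk_fintype, Fintype.card_fin, Nat.cast_add, Nat.cast_one] using htr)
  set b : Fin (e + 1) → K := Fin.cons π u with hbdef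
  letI : Algebra (MvPolynomial (Fin (e + 1)) k) K := algP b
  haveI : IsScalarTower k (MvPolynomial (Fin (e + 1)) k) K := isScalarTower_algP b
  haveI : FaithfulSMul (MvPolynomial (Fin (e + 1)) k) K := faithful_algP b hb.1
  letI : Algebra (FractionRing (MvPolynomial (Fin (e + 1)) k)) K := FractionRing.liftAlgebra _ K
  haveI : IsScalarTower (MvPolynomial (Fin (e + 1)) k)
    (FractionRing (MvPolynomial (Fin (e + 1)) k)) K := FractionRing.isScalarTower_liftAlgebra _ K
  haveI : Algebra.IsAlgebraic (MvPolynomial (Fin (e + 1)) k) K := isAlgebraic_algP b hb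
  haveI : Algebra.IsAlgebraic (FractionRing (MvPolynomial (Fin (e + 1)) k)) K :=
    (IsFractionRing.comap_isAlgebraic_iff (A := MvPolynomial (Fin (e + 1)) k)).1 inferInstance
  haveI : CharZero (FractionRing (MvPolynomial (Fin (e + 1)) k)) :=
    charZero_of_injective_algebraMap (algebraMap k _).injective
  haveI : IsScalarTower k (FractionRing (MvPolynomial (Fin (e + 1)) k)) K := by
    apply IsScalarTower.of_algebraMap_eq
    intro c
    rw [IsScalarTower.algebraMap_apply k (MvPolynomial (Fin (e + 1)) k) K,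
      IsScalarTower.algebraMap_apply k (MvPolynomial (Fin (e + 1)) k)
        (FractionRing (MvPolynomial (Fin (e + 1)) k)),
      ← IsScalarTower.algebraMap_apply (MvPolynomial (Fin (e + 1)) k)
        (FractionRing (MvPolynomial (Fin (e + 1)) k)) K]
  haveI : Algebra.EssFiniteType (FractionRing (MvPolynomial (Fin (e + 1)) k)) K :=
    Algebra.EssFiniteType.of_comp k _ K
  haveI : Module.Finite (FractionRing (MvPolynomial (Fin (e + 1)) k)) K :=
    Algebra.finite_of_essFiniteType_of_isAlgebraic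
  have halg : ∀ p : MvPolynomial (Fin (e + 1)) k,
      algebraMap (FractionRing (MvPolynomial (Fin (e + 1)) k)) K
        (algebraMap (MvPolynomial (Fin (e + 1)) k) _ p) = aeval b p := by
    intro p
    rw [← IsScalarTower.algebraMap_apply]; rfl
  refine derivation_extension (F := FractionRing (MvPolynomial (Fin (e + 1)) k)) v ?_
    (algebraMap (MvPolynomial (Fin (e + 1)) k) _ (X 0)) 1 one_pos ?_ δ ?_ f
  · intro n hn
    have : ((n : ℕ) : K) = aeval u (C (n : k) : MvPolynomial (Fin e) k) := by simp only [map_natCast]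
    rw [this, hu]
    rw [Ne, C_eq_zero]
    exact_mod_cast hn
  · rw [halg, aeval_X, hbdef, Fin.cons_zero, hπ]; simp
  · intro a
    obtain ⟨p, q, hq, rfl⟩ := IsFractionRing.div_surjective (A := MvPolynomial (Fin (e + 1)) k) a
    rw [map_div₀, halg, halg]
    have hq0 : q ≠ 0 := nonZeroDivisors.ne_zero hq
    have hbq : aeval b q ≠ 0 := by
      intro h0
      exact hq0 (hb.1 (by rw [h0, map_zero]))
    by_cases hp0 : p = 0
    · rw [hp0]; simp
    have hbp : aeval b p ≠ 0 := by
      intro h0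
      exact hp0 (hb.1 (by rw [h0, map_zero]))
    have h1 := derivation_cons hπ hu δ hδπ hδu p
    have h2 := derivation_cons hπ hu δ hδπ hδu q
    rw [← hbdef] at h1 h2
    set x := aeval b p with hx
    set y := aeval b q with hy
    have e1 : δ (x / y) = (y * δ x - x * δ y) * (y⁻¹ * y⁻¹) := by
      rw [div_eq_mul_inv, Derivation.leibniz, Derivation.leibniz_inv]
      simp only [smul_eq_mul]
      field_simp
      ring
    rw [e1, AddValuation.map_mul, div_eq_mul_inv]
    have h3 : v (x * y) ≤ v (y * δ x - x * δ y) := by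
      apply AddValuation.map_le_sub
      · rw [AddValuation.map_mul, AddValuation.map_mul, add_comm]; (clear * - h1; gcongr)
      · rw [AddValuation.map_mul, AddValuation.map_mul]; (clear * - h2; gcongr)
    calc v (x * y⁻¹) = v (x * y) + v (y⁻¹ * y⁻¹) := by
          rw [← AddValuation.map_mul]; congr 1; field_simp
      _ ≤ _ := by (clear * - h3; gcongr)

end Params

end Vale.Agent.P283
end
end

section

section

/-!
Structure of the lattice of regular top forms at a divisorial valuation.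
-/

set_option linter.style.haveILetI false

namespace Vale.Agent.P283

open scoped KaehlerDifferential
open MvPolynomial Finset

section Residue

variable {K : Type} [Field K] [Algebra ℂ K]
variable {v : AddValuation K (WithTop ℤ)} {e : ℕ} {π : K} {u : Fin e → K}

theorem coe_one_le_iff {x : WithTop ℤ} : 1 ≤ x ↔ 0 < x := by
  induction x with
  | top => simp only [le_top, LinearOrderedAddCommGroupWithTop.top_pos]
  | coe n =>
    rw [← WithTop.coe_one, ← WithTop.coe_zero, WithTop.coe_le_coe, WithTop.coe_lt_coe]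
    omega

theorem eval₂_nonneg (hu : ∀ P : MvPolynomial (Fin e) ℂ, P ≠ 0 → v (aeval u P) = 0) (f : K)
    (hf : 0 ≤ v f) (Q : Polynomial (MvPolynomial (Fin e) ℂ)) :
    0 ≤ v (Q.eval₂ (aeval u : MvPolynomial (Fin e) ℂ →ₐ[ℂ] K).toRingHom f) := by
  rw [Polynomial.eval₂_eq_sum_range]
  apply AddValuation.map_le_sum
  intro i _
  apply nonneg_mul v _ (nonneg_pow v hf i)
  by_cases h : Q.coeff i = 0
  · rw [h]; simp
  · exact (hu _ h).ge

theorem derivation_eval₂ (θ : Derivation ℂ K K) (φ : MvPolynomial (Fin e) ℂ →+* K)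
    (hφ : ∀ c, θ (φ c) = 0) (f : K) (Q : Polynomial (MvPolynomial (Fin e) ℂ)) :
    θ (Q.eval₂ φ f) = (Polynomial.derivative Q).eval₂ φ f * θ f := by
  induction Q using Polynomial.induction_on' with
  | add p q hp hq => simp only [Polynomial.eval₂_add, map_add, hp, hq, Polynomial.derivative_add, add_mul]
  | monomial n a =>
    rw [Polynomial.eval₂_monomial, Derivation.leibniz, hφ, Derivation.leibniz_pow,
      Polynomial.derivative_monomial, Polynomial.eval₂_monomial]
    simp only [smul_eq_mul, nsmul_eq_mul, map_mul, map_natCast]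
    ring

/-- Every element of the valuation ring is algebraic modulo the maximal ideal over `ℂ(u)`. -/
theorem exists_residue_relation (hπ : v π = 1)
    (hu : ∀ P : MvPolynomial (Fin e) ℂ, P ≠ 0 → v (aeval u P) = 0)
    (htr : Algebra.trdeg ℂ K ≤ (e + 1 : ℕ)) (f : K) (hf : 0 ≤ v f) :
    ∃ Q : Polynomial (MvPolynomial (Fin e) ℂ), Q ≠ 0 ∧
      0 < v (Q.eval₂ (aeval u : MvPolynomial (Fin e) ℂ →ₐ[ℂ] K).toRingHom f) := by
  by_contra hcon
  push Not at hcon
  have h1 : ∀ P : MvPolynomial (Fin (e + 1)) ℂ, P ≠ 0 →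
      v (aeval (Fin.cons f u : Fin (e + 1) → K) P) = 0 := by
    intro P hP
    have h2 : aeval (Fin.cons f u : Fin (e + 1) → K) P
        = (finSuccEquiv ℂ e P).eval₂ (aeval u : MvPolynomial (Fin e) ℂ →ₐ[ℂ] K).toRingHom f := by
      rw [aeval_cons_eq, Polynomial.eval₂_eq_sum_range]
      rfl
    rw [h2]
    apply le_antisymm
    · exact hcon _ ((EmbeddingLike.map_ne_zero_iff).2 hP)
    · exact eval₂_nonneg hu f hf _
  have h3 := algInd_cons (k := ℂ) hπ h1
  have h4 := h3.lift_cardinalMk_le_trdeg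
  simp only [Cardinal.mk_fin, Cardinal.lift_id] at h4
  have h5 := h4.trans htr
  have h6 : e + 1 + 1 ≤ e + 1 := by exact_mod_cast h5
  omega

theorem val_derivation_pos [Algebra.EssFiniteType ℂ K] (hπ : v π = 1)
    (hu : ∀ P : MvPolynomial (Fin e) ℂ, P ≠ 0 → v (aeval u P) = 0)
    (htr : Algebra.trdeg ℂ K ≤ (e + 1 : ℕ)) (θ : Derivation ℂ K K)
    (hθπ : 1 ≤ v (θ π)) (hθu : ∀ i, θ (u i) = 0) (f : K) (hf : 0 ≤ v f) : 1 ≤ v (θ f) := by
  classical
  have hex : ∃ n : ℕ, ∃ Q : Polynomial (MvPolynomial (Fin e) ℂ), Q.natDegree = n ∧ Q ≠ 0 ∧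
      0 < v (Q.eval₂ (aeval u : MvPolynomial (Fin e) ℂ →ₐ[ℂ] K).toRingHom f) := by
    obtain ⟨Q, h1, h2⟩ := exists_residue_relation hπ hu htr f hf
    exact ⟨_, Q, rfl, h1, h2⟩
  obtain ⟨Q, hQn, hQ0, hQv⟩ := Nat.find_spec hex
  set n := Nat.find hex with hn
  have hmin : ∀ m < n, ¬ ∃ Q : Polynomial (MvPolynomial (Fin e) ℂ), Q.natDegree = m ∧ Q ≠ 0 ∧
      0 < v (Q.eval₂ (aeval u : MvPolynomial (Fin e) ℂ →ₐ[ℂ] K).toRingHom f) :=
    fun m hm => Nat.find_min hex hm
  have hn0 : n ≠ 0 := by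
    intro h0
    rw [h0] at hQn
    rw [Polynomial.eq_C_of_natDegree_eq_zero hQn, Polynomial.eval₂_C] at hQv
    have h1 : Q.coeff 0 ≠ 0 := by
      intro h
      apply hQ0
      rw [Polynomial.eq_C_of_natDegree_eq_zero hQn, h, map_zero]
    have h2 := hu _ h1
    have h3 : v ((aeval u : MvPolynomial (Fin e) ℂ →ₐ[ℂ] K).toRingHom (Q.coeff 0)) = 0 := h2
    rw [h3] at hQv
    exact lt_irrefl _ hQv
  have hd0 : Polynomial.derivative Q ≠ 0 := by
    intro h
    have := Polynomial.derivative_eq_zero.1 h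
    omega
  have hdn : (Polynomial.derivative Q).natDegree < n := by
    rw [← hQn]
    apply Polynomial.natDegree_derivative_lt
    omega
  have hdv : v ((Polynomial.derivative Q).eval₂
      (aeval u : MvPolynomial (Fin e) ℂ →ₐ[ℂ] K).toRingHom f) = 0 := by
    apply le_antisymm
    · by_contra hc
      rw [not_le] at hc
      exact hmin _ hdn ⟨_, rfl, hd0, hc⟩
    · exact eval₂_nonneg hu f hf _
  have hφ : ∀ c, θ ((aeval u : MvPolynomial (Fin e) ℂ →ₐ[ℂ] K).toRingHom c) = 0 := by
    intro c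
    change θ (aeval u c) = 0
    induction c using MvPolynomial.induction_on with
    | C a => simp
    | add p q hp hq => rw [map_add, map_add, hp, hq, add_zero]
    | mul_X p i hp =>
      rw [map_mul, Derivation.leibniz, aeval_X, hp, hθu]; simp
  have h1 := derivation_eval₂ θ _ hφ f Q
  have h2 := log_derivation hπ hu htr θ hθπ (fun i => by rw [hθu]; simp)
    (Q.eval₂ (aeval u : MvPolynomial (Fin e) ℂ →ₐ[ℂ] K).toRingHom f)
  rw [h1, AddValuation.map_mul, hdv, zero_add] at h2
  exact coe_one_le_iff.2 (lt_of_lt_of_le hQv h2)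

end Residue

section Order

variable {K : Type} [Field K] [Algebra ℂ K]
variable {v : AddValuation K (WithTop ℤ)} {e : ℕ} {π : K} {u : Fin e → K}

theorem isTranscendenceBasis_cons [Algebra.EssFiniteType ℂ K] (hπ : v π = 1)
    (hu : ∀ P : MvPolynomial (Fin e) ℂ, P ≠ 0 → v (aeval u P) = 0)
    (htr : Algebra.trdeg ℂ K ≤ (e + 1 : ℕ)) :
    IsTranscendenceBasis ℂ (Fin.cons π u : Fin (e + 1) → K) :=
  (algInd_cons (k := ℂ) hπ hu).isTranscendenceBasis_of_trdeg_le_of_finite (by simpa only [Cardinal.mk_fintype, Fintype.card_fin, Nat.cast_add, Nat.cast_one] using htr)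

/-- The partial derivatives with respect to the parameters of `v` preserve the valuation ring. -/
theorem pd_nonneg [Algebra.EssFiniteType ℂ K] (hπ : v π = 1)
    (hu : ∀ P : MvPolynomial (Fin e) ℂ, P ≠ 0 → v (aeval u P) = 0)
    (htr : Algebra.trdeg ℂ K ≤ (e + 1 : ℕ))
    (B : Module.Basis (Fin (e + 1)) K (Ω[K⁄ℂ]))
    (hB : ∀ i, B i = KaehlerDifferential.D ℂ K ((Fin.cons π u : Fin (e + 1) → K) i))
    (j : Fin (e + 1)) (f : K) (hf : 0 ≤ v f) : 0 ≤ v (pd B j f) := by
  refine Fin.cases ?_ (fun i => ?_) j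
  · have h1 : 1 ≤ v ((π • pd B 0) f) := by
      apply val_derivation_pos hπ hu htr _ _ _ f hf
      · have := pd_self B hB 0 0
        simp only [Fin.cons_zero, if_true] at this
        simp only [Derivation.coe_smul, Pi.smul_apply, this, smul_eq_mul, mul_one, hπ, Std.le_refl]
      · intro i
        have := pd_self B hB i.succ 0
        simp only [Fin.cons_succ, Fin.succ_ne_zero, if_false] at this
        simp [this]
    simp only [Derivation.smul_apply, smul_eq_mul, AddValuation.map_mul, hπ] at h1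
    have h2 : (1 : WithTop ℤ) + 0 ≤ 1 + v ((pd B 0) f) := by simpa only [add_zero] using h1
    exact (WithTop.add_le_add_iff_left (by simp)).1 h2
  · have h1 := log_derivation hπ hu htr (pd B i.succ) ?_ ?_ f
    · exact hf.trans h1
    · have := pd_self B hB 0 i.succ
      simp only [Fin.cons_zero] at this
      rw [if_neg (Fin.succ_ne_zero i).symm] at this
      simp [this]
    · intro i'
      have := pd_self B hB i'.succ i.succ
      simp only [Fin.cons_succ] at this
      rw [this]
      split_ifs <;> simp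

omit [Algebra ℂ K] in
theorem det_nonneg {n : ℕ} (M : Matrix (Fin n) (Fin n) K) (hM : ∀ i j, 0 ≤ v (M i j)) :
    0 ≤ v M.det := by
  rw [Matrix.det_apply]
  apply AddValuation.map_le_sum
  intro σ _
  have h1 : 0 ≤ v (∏ i, M (σ i) i) := by
    have : ∀ s : Finset (Fin n), 0 ≤ v (∏ i ∈ s, M (σ i) i) := by
      intro s
      induction s using Finset.induction_on with
      | empty => simp
      | insert a s ha ih =>
        rw [Finset.prod_insert ha]
        exact nonneg_mul v (hM _ _) ih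
    exact this _
  rcases Int.units_eq_one_or (Equiv.Perm.sign σ) with h | h
  · rw [h]; simpa only [one_smul, ge_iff_le] using h1
  · rw [h]
    simpa only [Units.neg_smul, one_smul, AddValuation.map_neg, ge_iff_le] using h1

theorem formOrder_iff [Algebra.EssFiniteType ℂ K] (hπ : v π = 1)
    (hu : ∀ P : MvPolynomial (Fin e) ℂ, P ≠ 0 → v (aeval u P) = 0)
    (htr : Algebra.trdeg ℂ K ≤ (e + 1 : ℕ)) (h : K) (m : ℤ) :
    FormOrder (e + 1) v (h • wedgeD (e + 1) (Fin.cons π u : Fin (e + 1) → K)) m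
      ↔ v h = (m : WithTop ℤ) := by
  obtain ⟨B, hB⟩ := exists_kaehler_basis _ (isTranscendenceBasis_cons hπ hu htr)
  have hne := wedgeD_basis_ne_zero B hB
  have key : ∀ (h' : K) (f : Fin (e + 1) → K), (∀ i, 0 ≤ v (f i)) →
      h • wedgeD (e + 1) (Fin.cons π u : Fin (e + 1) → K) = h' • wedgeD (e + 1) f →
      v h' ≤ v h := by
    intro h' f hf heq
    rw [wedgeD_eq_det B hB f, smul_smul] at heq
    have h1 : h = h' * (Matrix.of fun i j => pd B j (f i)).det :=
      smul_left_injective K hne heq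
    rw [h1, AddValuation.map_mul]
    apply le_add_of_nonneg_right
    apply det_nonneg
    intro i j
    exact pd_nonneg hπ hu htr B hB j (f i) (hf i)
  have hnn : ∀ i, 0 ≤ v ((Fin.cons π u : Fin (e + 1) → K) i) := by
    intro i
    refine Fin.cases ?_ (fun i => ?_) i
    · rw [Fin.cons_zero, hπ]; exact zero_le_one
    · rw [Fin.cons_succ]
      have := hu (X i) (X_ne_zero i)
      rw [aeval_X] at this
      exact this.ge
  constructor
  · rintro ⟨⟨h', f, h1, h2, h3⟩, hmax⟩
    have h4 := key h' f h2 h3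
    rw [h1] at h4
    by_cases hh : h = 0
    · exfalso
      rw [hh, zero_smul] at h3
      have h5 : (m + 1) ∈ {k : ℤ | ∃ (h' : K) (f : Fin (e + 1) → K),
          v h' = (k : WithTop ℤ) ∧ (∀ i, 0 ≤ v (f i)) ∧
          h • wedgeD (e + 1) (Fin.cons π u : Fin (e + 1) → K) = h' • wedgeD (e + 1) f} := by
        refine ⟨π ^ (m + 1), fun _ => 0, ?_, ?_, ?_⟩
        · have hπ0 : π ≠ 0 := ne_zero_of_eq v (n := 1) (by simpa using hπ)
          rw [eq_iff v (zpow_ne_zero _ hπ0), ov_zpow v hπ0, ov_eq_of v (n := 1) (by simpa using hπ)]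
          ring
        · intro i; simp
        · rw [hh, zero_smul]
          have h6 : wedgeD (K := K) (e + 1) (fun _ => 0) = 0 := by
            unfold wedgeD
            apply AlternatingMap.map_coord_zero _ (0 : Fin (e + 1))
            simp
          rw [h6, smul_zero]
      have := hmax h5
      omega
    · have h5 : (ov v h) ∈ {k : ℤ | ∃ (h' : K) (f : Fin (e + 1) → K),
          v h' = (k : WithTop ℤ) ∧ (∀ i, 0 ≤ v (f i)) ∧
          h • wedgeD (e + 1) (Fin.cons π u : Fin (e + 1) → K) = h' • wedgeD (e + 1) f} :=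
        ⟨h, _, (coe_ov v hh).symm, hnn, rfl⟩
      have h6 := hmax h5
      rw [eq_iff v hh]
      rw [le_iff v hh] at h4
      omega
  · intro h1
    refine ⟨⟨h, _, h1, hnn, rfl⟩, ?_⟩
    rintro k ⟨h', f, h2, h3, h4⟩
    have h5 := key h' f h3 h4
    rw [h1, h2] at h5
    exact_mod_cast h5

end Order

end Vale.Agent.P283
end
end

section

section

/-!
Orders of rational forms along divisorial valuations; logarithmic forms.
-/

set_option linter.style.haveILetI false

namespace Vale.Agent.P283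

open scoped KaehlerDifferential
open MvPolynomial Finset

section Order

variable {K : Type} [Field K] [Algebra ℂ K] {d : ℕ}
variable {v : AddValuation K (WithTop ℤ)}

theorem formOrder_unique {ω : ⋀[K]^d (Ω[K⁄ℂ])} {m m' : ℤ} (h : FormOrder d v ω m)
    (h' : FormOrder d v ω m') : m = m' := IsGreatest.unique h h'

theorem exists_params {e : ℕ} (hv : IsDivisorial (e + 1) v) : ∃ (π : K) (u : Fin e → K),
    v π = 1 ∧ ∀ P : MvPolynomial (Fin e) ℂ, P ≠ 0 → v (aeval u P) = 0 := by
  obtain ⟨π, hπ⟩ := hv.normalized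
  obtain ⟨u, hu⟩ := hv.residue
  exact ⟨π, u, hπ, hu⟩

variable [Algebra.EssFiniteType ℂ K] (hd : 0 < d) (htr : Algebra.trdeg ℂ K ≤ (d : ℕ))
include hd htr

/-- Normal form of a rational form at a divisorial valuation. -/
theorem exists_normal_form (hv : IsDivisorial d v) : ∃ η : ⋀[K]^d (Ω[K⁄ℂ]), η ≠ 0 ∧
    (∀ ω : ⋀[K]^d (Ω[K⁄ℂ]), ∃ h : K, ω = h • η) ∧
    ∀ (h : K) (m : ℤ), FormOrder d v (h • η) m ↔ v h = (m : WithTop ℤ) := by
  obtain ⟨e, rfl⟩ : ∃ e, d = e + 1 := ⟨d - 1, by omega⟩
  obtain ⟨π, u, hπ, hu⟩ := exists_params hv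
  obtain ⟨B, hB⟩ := exists_kaehler_basis _ (isTranscendenceBasis_cons hπ hu htr)
  exact ⟨wedgeD (e + 1) (Fin.cons π u : Fin (e + 1) → K), wedgeD_basis_ne_zero B hB,
    exists_eq_smul_wedgeD B hB, fun h m => formOrder_iff hπ hu htr h m⟩

theorem formOrder_exists (hv : IsDivisorial d v) {ω : ⋀[K]^d (Ω[K⁄ℂ])} (hω : ω ≠ 0) :
    ∃ m, FormOrder d v ω m := by
  obtain ⟨η, hη0, hη1, hη2⟩ := exists_normal_form hd htr hv
  obtain ⟨h, rfl⟩ := hη1 ω
  have hh : h ≠ 0 := by
    rintro rfl
    exact hω (zero_smul _ _)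
  exact ⟨ov v h, (hη2 h _).2 (coe_ov v hh).symm⟩

theorem formOrder_smul (hv : IsDivisorial d v) {ω : ⋀[K]^d (Ω[K⁄ℂ])} {m : ℤ}
    (h : FormOrder d v ω m) {f : K} {k : ℤ} (hf : v f = (k : WithTop ℤ)) :
    FormOrder d v (f • ω) (m + k) := by
  obtain ⟨η, hη0, hη1, hη2⟩ := exists_normal_form hd htr hv
  obtain ⟨g, rfl⟩ := hη1 ω
  have h1 := (hη2 g m).1 h
  rw [smul_smul, hη2, AddValuation.map_mul, h1, hf, add_comm, ← WithTop.coe_add]

theorem formOrder_smul' (hv : IsDivisorial d v) {ω : ⋀[K]^d (Ω[K⁄ℂ])} {m : ℤ}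
    (h : FormOrder d v ω m) {f : K} (hf : f ≠ 0) :
    FormOrder d v (f • ω) (m + ov v f) :=
  formOrder_smul hd htr hv h (coe_ov v hf).symm

omit hd htr [Algebra.EssFiniteType ℂ K] in
/-- The logarithmic form `dlog f₁ ∧ ⋯ ∧ dlog f_d`. -/
noncomputable def dlogForm (f : Fin d → K) : ⋀[K]^d (Ω[K⁄ℂ]) := (∏ i, f i)⁻¹ • wedgeD d f

omit [Algebra ℂ K] [Algebra.EssFiniteType ℂ K] hd htr in
theorem ov_prod {ι : Type} (s : Finset ι) (f : ι → K) (hf : ∀ i ∈ s, f i ≠ 0) :
    ov v (∏ i ∈ s, f i) = ∑ i ∈ s, ov v (f i) := by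
  classical
  induction s using Finset.induction_on with
  | empty => simp [ov_one]
  | insert a s ha ih =>
    rw [Finset.prod_insert ha, Finset.sum_insert ha, ov_mul v, ih]
    · intro i hi; exact hf i (Finset.mem_insert_of_mem hi)
    · exact hf a (Finset.mem_insert_self _ _)
    · exact Finset.prod_ne_zero_iff.2 fun i hi => hf i (Finset.mem_insert_of_mem hi)

/-- Logarithmic forms have order at least `-1`. -/
theorem dlog_order (hv : IsDivisorial d v) (f : Fin d → K) (hf : ∀ i, f i ≠ 0) {m : ℤ}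
    (h : FormOrder d v (dlogForm f) m) : -1 ≤ m := by
  obtain ⟨e, rfl⟩ : ∃ e, d = e + 1 := ⟨d - 1, by omega⟩
  obtain ⟨π, u, hπ, hu⟩ := exists_params hv
  obtain ⟨B, hB⟩ := exists_kaehler_basis _ (isTranscendenceBasis_cons hπ hu htr)
  have hπ0 : π ≠ 0 := ne_zero_of_eq v (n := 1) (by simpa using hπ)
  unfold dlogForm at h
  rw [wedgeD_eq_det B hB f, smul_smul, formOrder_iff hπ hu htr] at h
  -- logarithmic derivations
  let c : Fin (e + 1) → K := Fin.cons π fun _ => 1
  have hc : ∀ j g, v g ≤ v (c j * pd B j g) := by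
    intro j g
    have := log_derivation hπ hu htr (c j • pd B j) ?_ ?_ g
    · simpa only [AddValuation.map_mul, ge_iff_le, Derivation.coe_smul, Pi.smul_apply, smul_eq_mul] using this
    · refine Fin.cases ?_ (fun i => ?_) j
      · have := pd_self B hB 0 0
        simp only [Fin.cons_zero, if_true] at this
        simp only [Fin.cons_zero, Derivation.coe_smul, Pi.smul_apply, this, smul_eq_mul, mul_one, hπ, Std.le_refl, c]
      · have := pd_self B hB 0 i.succ
        simp only [Fin.cons_zero] at this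
        rw [if_neg (Fin.succ_ne_zero i).symm] at this
        simp only [Derivation.coe_smul, Pi.smul_apply, this, smul_eq_mul, mul_zero, AddValuation.map_zero, le_top]
    · intro i
      have h1 := pd_self B hB i.succ j
      simp only [Fin.cons_succ] at h1
      have h2 : 0 ≤ v (c j) := by
        refine Fin.cases ?_ (fun i => ?_) j
        · simp only [Fin.cons_zero, hπ, zero_le_one, c]
        · simp [c]
      simp only [Derivation.smul_apply, smul_eq_mul]
      apply nonneg_mul v h2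
      rw [h1]
      split_ifs <;> simp
  let N : Matrix (Fin (e + 1)) (Fin (e + 1)) K := Matrix.of fun i j => (f i)⁻¹ * (c j * pd B j (f i))
  have hN : ∀ i j, 0 ≤ v (N i j) := by
    intro i j
    simp only [N, Matrix.of_apply, AddValuation.map_mul]
    have h1 := hc j (f i)
    rw [AddValuation.map_mul] at h1
    have h2 : v (f i)⁻¹ + v (f i) = 0 := by
      rw [← AddValuation.map_mul, inv_mul_cancel₀ (hf i), AddValuation.map_one]
    calc (0 : WithTop ℤ) = v (f i)⁻¹ + v (f i) := h2.symm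
      _ ≤ _ := by (clear * - h1; gcongr)
  have hdet : (∏ i, f i)⁻¹ * (Matrix.of fun i j => pd B j (f i)).det = π⁻¹ * N.det := by
    have h1 : N = Matrix.diagonal (fun i => (f i)⁻¹) * (Matrix.of fun i j => pd B j (f i))
        * Matrix.diagonal c := by
      ext i j
      simp only [Matrix.of_apply, Matrix.mul_diagonal, Matrix.diagonal_mul, N]
      ring
    rw [h1, Matrix.det_mul, Matrix.det_mul, Matrix.det_diagonal, Matrix.det_diagonal,
      Fin.prod_univ_succ c]
    simp only [c, Fin.cons_zero, Fin.cons_succ, Finset.prod_const_one, mul_one,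
      Finset.prod_inv_distrib]
    field_simp
  rw [hdet, AddValuation.map_mul] at h
  have h2 := det_nonneg N hN
  have h3 : v π⁻¹ = ((-1 : ℤ) : WithTop ℤ) := by
    rw [eq_iff v (inv_ne_zero hπ0), ov_inv, ov_eq_of v (n := 1) (by simpa using hπ)]
  rw [h3] at h
  have h4 : ((-1 : ℤ) : WithTop ℤ) ≤ (m : WithTop ℤ) := by
    rw [← h]
    exact le_add_of_nonneg_right h2
  exact_mod_cast h4

/-- The logarithmic derivations attached to coordinates `t` lower the valuation by at most the
log order of `dlog t₁ ∧ ⋯ ∧ dlog t_d`. -/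
theorem dlog_derivation (hv : IsDivisorial d v) {t : Fin d → K} (ht : ∀ i, t i ≠ 0)
    (B : Module.Basis (Fin d) K (Ω[K⁄ℂ])) (hB : ∀ i, B i = KaehlerDifferential.D ℂ K (t i))
    {m : ℤ} (hm : FormOrder d v (dlogForm t) m) (i : Fin d) (f : K) :
    v f ≤ v (t i * pd B i f) + ((m + 1 : ℤ) : WithTop ℤ) := by
  by_cases hf : f = 0
  · subst hf; simp
  by_cases hθ : t i * pd B i f = 0
  · rw [hθ]; simp
  have h1 : dlogForm (Function.update t i f) = (f⁻¹ * (t i * pd B i f)) • dlogForm t := by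
    unfold dlogForm
    rw [wedgeD_update B hB, smul_smul, smul_smul]
    congr 1
    have h2 : (∏ j, Function.update t i f j) = f * ∏ j ∈ Finset.univ.erase i, t j := by
      rw [← Finset.mul_prod_erase Finset.univ _ (Finset.mem_univ i), Function.update_self]
      congr 1
      apply Finset.prod_congr rfl
      intro j hj
      rw [Function.update_of_ne (Finset.ne_of_mem_erase hj)]
    have h3 : ∏ j, t j = t i * ∏ j ∈ Finset.univ.erase i, t j :=
      (Finset.mul_prod_erase Finset.univ _ (Finset.mem_univ i)).symm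
    rw [h2, h3]
    have h4 : (∏ j ∈ Finset.univ.erase i, t j) ≠ 0 := Finset.prod_ne_zero_iff.2 fun j _ => ht j
    have := ht i
    field_simp
  have h5 : f⁻¹ * (t i * pd B i f) ≠ 0 := mul_ne_zero (inv_ne_zero hf) hθ
  have h6 := formOrder_smul' hd htr hv hm h5
  rw [← h1] at h6
  have h7 := dlog_order hd htr hv _ (fun j => by
    by_cases hj : j = i
    · subst hj; simpa using hf
    · rw [Function.update_of_ne hj]; exact ht j) h6
  rw [ov_mul v (inv_ne_zero hf) hθ, ov_inv] at h7
  rw [← coe_ov v hf, ← coe_ov v hθ, ← WithTop.coe_add, WithTop.coe_le_coe]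
  linarith only [h7]

/-- If `φ` is an eigenvector of one of the logarithmic derivations, then `1 + φ` vanishes along
`v` to order at most the log order of `dlog t₁ ∧ ⋯ ∧ dlog t_d`. -/
theorem one_add_le (hv : IsDivisorial d v) {t : Fin d → K} (ht : ∀ i, t i ≠ 0)
    (B : Module.Basis (Fin d) K (Ω[K⁄ℂ])) (hB : ∀ i, B i = KaehlerDifferential.D ℂ K (t i))
    {m : ℤ} (hm : FormOrder d v (dlogForm t) m) (i : Fin d) (φ : K) (c : ℂ) (hc : c ≠ 0)
    (hφ : t i * pd B i φ = algebraMap ℂ K c * φ) (hv0 : v φ = 0) :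
    v (1 + φ) ≤ ((m + 1 : ℤ) : WithTop ℤ) := by
  have h1 := dlog_derivation hd htr hv ht B hB hm i (1 + φ)
  have h0 : pd B i (1 + φ) = pd B i φ := by
    rw [map_add, Derivation.map_one_eq_zero, zero_add]
  rw [h0, hφ, AddValuation.map_mul, hv.const c hc, hv0] at h1
  simpa only [WithTop.coe_add, WithTop.coe_one, ge_iff_le, add_zero, zero_add] using h1

end Order

end Vale.Agent.P283
end
end

section

section

/-!
Pullback of rational forms to an extension field.
-/

namespace Vale.Agent.P283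

open scoped KaehlerDifferential

/-- `ω'` is the pullback to `L` of the rational form `ω` on `K`. -/
def IsPullback {K L : Type} [Field K] [Field L] [Algebra ℂ K] [Algebra ℂ L] [Algebra K L] {d : ℕ}
    (ω : ⋀[K]^d (Ω[K⁄ℂ])) (ω' : ⋀[L]^d (Ω[L⁄ℂ])) : Prop :=
  ∃ (h : K) (f : Fin d → K), ω = h • wedgeD d f ∧
    ω' = algebraMap K L h • wedgeD d fun i => algebraMap K L (f i)

end Vale.Agent.P283
end
end

section

section

/-!
Behaviour of the order of rational forms under finite extensions of function fields.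
-/

set_option linter.style.haveILetI false

namespace Vale.Agent.P283

open scoped KaehlerDifferential
open MvPolynomial Finset

section Linear

variable {K M : Type} [Field K] [AddCommGroup M] [Module K M] {d : ℕ}

theorem iMulti_sum (B : Module.Basis (Fin d) K M) (P : Matrix (Fin d) (Fin d) K)
    (v : Fin d → M) :
    exteriorPower.ιMulti K d (fun i => ∑ j, P i j • v j) = P.det • exteriorPower.ιMulti K d v := by
  rw [iMulti_eq_det B, iMulti_eq_det B v, smul_smul]
  congr 1
  rw [Module.Basis.det_apply, Module.Basis.det_apply, ← Matrix.det_transpose P, mul_comm,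
    ← Matrix.det_mul]
  congr 1
  ext i j
  simp only [Module.Basis.toMatrix_apply, map_sum, map_smul, Finsupp.coe_finsetSum, Finsupp.coe_smul, Finset.sum_apply, Pi.smul_apply, smul_eq_mul, Matrix.mul_apply, Matrix.transpose_apply, mul_comm]

end Linear

section Ext

variable {K L : Type} [Field K] [Field L] [Algebra ℂ K] [Algebra ℂ L] [Algebra K L]
  [IsScalarTower ℂ K L] {d : ℕ}

theorem D_algebraMap (B : Module.Basis (Fin d) K (Ω[K⁄ℂ])) {b : Fin d → K}
    (hB : ∀ i, B i = KaehlerDifferential.D ℂ K (b i)) (f : K) :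
    KaehlerDifferential.D ℂ L (algebraMap K L f)
      = ∑ j, algebraMap K L (pd B j f) • KaehlerDifferential.D ℂ L (algebraMap K L (b j)) := by
  have h1 := congrArg (KaehlerDifferential.map ℂ ℂ K L) (D_eq_sum B f)
  rw [KaehlerDifferential.map_D, map_sum] at h1
  rw [h1]
  apply Finset.sum_congr rfl
  intro j _
  rw [map_smul, hB, KaehlerDifferential.map_D, algebraMap_smul]

theorem wedgeD_algebraMap (B : Module.Basis (Fin d) K (Ω[K⁄ℂ])) {b : Fin d → K}
    (hB : ∀ i, B i = KaehlerDifferential.D ℂ K (b i)) (BL : Module.Basis (Fin d) L (Ω[L⁄ℂ]))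
    (f : Fin d → K) :
    wedgeD d (fun i => algebraMap K L (f i))
      = algebraMap K L (Matrix.of fun i j => pd B j (f i)).det
        • wedgeD d (fun i => algebraMap K L (b i)) := by
  unfold wedgeD
  have h1 : (fun i => KaehlerDifferential.D ℂ L (algebraMap K L (f i)))
      = fun i => ∑ j, (Matrix.of fun i j => algebraMap K L (pd B j (f i))) i j •
        KaehlerDifferential.D ℂ L (algebraMap K L (b j)) := by
    ext i
    rw [D_algebraMap B hB]
    rfl
  rw [h1, iMulti_sum BL, RingHom.map_det]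
  rfl

/-- Order of the pullback of a form under a finite extension. -/
theorem formOrder_transfer [Algebra.EssFiniteType ℂ K] [Algebra.EssFiniteType ℂ L]
    (hd : 0 < d) (htrK : Algebra.trdeg ℂ K ≤ (d : ℕ)) (htrL : Algebra.trdeg ℂ L ≤ (d : ℕ))
    {v : AddValuation K (WithTop ℤ)} {w : AddValuation L (WithTop ℤ)}
    (hv : IsDivisorial d v) (hw : ∃ f, w f = 1) {e : ℕ} (he : 0 < e)
    (hvw : ∀ f : K, w (algebraMap K L f) = e • v f)
    {ω : ⋀[K]^d (Ω[K⁄ℂ])} {ω' : ⋀[L]^d (Ω[L⁄ℂ])} (hω : IsPullback ω ω') {m : ℤ}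
    (hm : FormOrder d v ω m) : FormOrder d w ω' (e * (1 + m) - 1) := by
  obtain ⟨n, rfl⟩ : ∃ n, d = n + 1 := ⟨d - 1, by omega⟩
  obtain ⟨π, u, hπ, hu⟩ := exists_params hv
  obtain ⟨ρ, hρ⟩ := hw
  obtain ⟨B, hB⟩ := exists_kaehler_basis _ (isTranscendenceBasis_cons hπ hu htrK)
  have hu' : ∀ P : MvPolynomial (Fin n) ℂ, P ≠ 0 →
      w (aeval (fun i => algebraMap K L (u i)) P) = 0 := by
    intro P hP
    have h1 : aeval (fun i => algebraMap K L (u i)) P = algebraMap K L (aeval u P) := by
      rw [← MvPolynomial.aeval_algebraMap_apply]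
      rfl
    rw [h1, hvw, hu P hP]
    simp
  obtain ⟨BL, hBL⟩ := exists_kaehler_basis _ (isTranscendenceBasis_cons hρ hu' htrL)
  obtain ⟨h, f, rfl, rfl⟩ := hω
  rw [wedgeD_eq_det B hB, smul_smul, formOrder_iff hπ hu htrK] at hm
  rw [wedgeD_algebraMap B hB BL, smul_smul, ← map_mul]
  set g := h * (Matrix.of fun i j => pd B j (f i)).det with hg
  have h1 : (fun i => algebraMap K L ((Fin.cons π u : Fin (n + 1) → K) i))
      = Function.update (Fin.cons ρ (fun i => algebraMap K L (u i)) : Fin (n + 1) → L) 0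
        (algebraMap K L π) := by
    ext i
    refine Fin.cases ?_ (fun i => ?_) i
    · simp
    · simp
  rw [h1, wedgeD_update BL hBL, smul_smul, formOrder_iff hρ hu' htrL, AddValuation.map_mul, hvw,
    hm]
  -- the derivative of `π` with respect to `ρ`
  have hρ0 : ρ ≠ 0 := ne_zero_of_eq w (n := 1) (by simpa using hρ)
  have hπ0 : π ≠ 0 := ne_zero_of_eq v (n := 1) (by simpa using hπ)
  have hπ0' : algebraMap K L π ≠ 0 := by simpa using hπ0
  have hovρ : ov w ρ = 1 := ov_eq_of w (n := 1) (by simpa using hρ)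
  have hovπ : ov w (algebraMap K L π) = e := by
    apply ov_eq_of
    rw [hvw, hπ]
    simp only [nsmul_one, WithTop.coe_natCast]
  set c := algebraMap K L π / ρ ^ e with hc
  have hc0 : c ≠ 0 := div_ne_zero hπ0' (pow_ne_zero _ hρ0)
  have hcv : w c = 0 := by
    rw [eq_zero_iff w hc0, hc, ov_div w hπ0' (pow_ne_zero _ hρ0), ov_pow w hρ0, hovπ, hovρ]
    ring
  have hcπ : algebraMap K L π = c * ρ ^ e := by
    rw [hc]; field_simp
  have hdc : 0 ≤ w (pd BL 0 c) := pd_nonneg hρ hu' htrL BL hBL 0 c hcv.ge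
  have hdρ : pd BL 0 ρ = 1 := by
    have := pd_self BL hBL 0 0
    simpa using this
  have h2 : pd BL 0 (algebraMap K L π) = (e : L) * (c * ρ ^ (e - 1)) + ρ ^ e * pd BL 0 c := by
    rw [hcπ, Derivation.leibniz, Derivation.leibniz_pow, hdρ]
    simp only [smul_eq_mul, nsmul_eq_mul]
    ring
  have he1 : w ((e : ℕ) : L) = 0 := by
    have : ((e : ℕ) : L) = algebraMap K L (algebraMap ℂ K (e : ℂ)) := by simp only [map_natCast]
    rw [this, hvw, hv.const _ (by exact_mod_cast he.ne')]
    simp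
  have h3 : w ((e : L) * (c * ρ ^ (e - 1))) = (((e : ℤ) - 1 : ℤ) : WithTop ℤ) := by
    rw [AddValuation.map_mul, AddValuation.map_mul, he1, hcv, zero_add, zero_add,
      eq_iff w (pow_ne_zero _ hρ0), ov_pow w hρ0, hovρ]
    push_cast [Nat.cast_sub (show 1 ≤ e from he)]
    ring
  have h4 : (((e : ℤ) - 1 : ℤ) : WithTop ℤ) < w (ρ ^ e * pd BL 0 c) := by
    rw [AddValuation.map_mul]
    have h5 : w (ρ ^ e) = ((e : ℤ) : WithTop ℤ) := by
      rw [eq_iff w (pow_ne_zero _ hρ0), ov_pow w hρ0, hovρ]; ring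
    rw [h5]
    calc (((e : ℤ) - 1 : ℤ) : WithTop ℤ) < ((e : ℤ) : WithTop ℤ) := by
          rw [WithTop.coe_lt_coe]; omega
      _ ≤ _ := le_add_of_nonneg_right hdc
  have h5 : w (pd BL 0 (algebraMap K L π)) = (((e : ℤ) - 1 : ℤ) : WithTop ℤ) := by
    rw [h2, AddValuation.map_add_eq_of_lt_left, h3]
    rw [h3]; exact h4
  rw [h5]
  have h6 : e • (m : WithTop ℤ) = ((e * m : ℤ) : WithTop ℤ) := by
    rw [← WithTop.coe_nsmul]; simp
  rw [h6, ← WithTop.coe_add]
  congr 1
  ring

end Ext

end Vale.Agent.P283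
end
end

section

section

/-!
Coordinates on a rational function field.
-/

set_option linter.style.haveILetI false

namespace Vale.Agent.P283

open scoped KaehlerDifferential
open MvPolynomial Finset

/-- `L = ℂ(t)` is the field of rational functions in the algebraically independent `tᵢ`. -/
structure IsCoords {σ L : Type} [Field L] [Algebra ℂ L] (t : σ → L) : Prop where
  ind : AlgebraicIndependent ℂ t
  gen : ∀ f : L, ∃ p r : MvPolynomial σ ℂ, r ≠ 0 ∧ f = aeval t p / aeval t r

namespace IsCoords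

variable {σ L : Type} [Field L] [Algebra ℂ L] {t : σ → L} (ht : IsCoords t)
include ht

theorem aeval_ne_zero {p : MvPolynomial σ ℂ} (hp : p ≠ 0) : aeval t p ≠ 0 := by
  intro h
  exact hp (ht.ind (by rw [h, map_zero]))

theorem ne_zero (i : σ) : t i ≠ 0 := by
  have := ht.aeval_ne_zero (X_ne_zero (R := ℂ) i)
  simpa using this

theorem isFractionRing :
    letI := algP (k := ℂ) t
    IsFractionRing (MvPolynomial σ ℂ) L := by
  letI := algP (k := ℂ) t
  haveI := faithful_algP t ht.ind
  apply IsFractionRing.of_field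
  intro f
  obtain ⟨p, r, -, h⟩ := ht.gen f
  exact ⟨p, r, h⟩

theorem essFiniteType [Finite σ] : Algebra.EssFiniteType ℂ L := by
  letI := algP (k := ℂ) t
  haveI := isScalarTower_algP (k := ℂ) t
  haveI := ht.isFractionRing
  haveI : Algebra.EssFiniteType (MvPolynomial σ ℂ) L :=
    Algebra.EssFiniteType.of_isLocalization L (nonZeroDivisors (MvPolynomial σ ℂ))
  exact Algebra.EssFiniteType.comp ℂ (MvPolynomial σ ℂ) L

theorem isTranscendenceBasis : IsTranscendenceBasis ℂ t := by
  apply ht.ind.isTranscendenceBasis_iff_isAlgebraic.2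
  constructor
  intro f
  obtain ⟨p, r, -, rfl⟩ := ht.gen f
  have h1 : ∀ p : MvPolynomial σ ℂ, IsAlgebraic (Algebra.adjoin ℂ (Set.range t)) (aeval t p) := by
    intro p
    have h2 : aeval t p ∈ Algebra.adjoin ℂ (Set.range t) := by
      rw [Algebra.adjoin_range_eq_range_aeval]
      exact ⟨p, rfl⟩
    exact isAlgebraic_algebraMap (⟨aeval t p, h2⟩ : Algebra.adjoin ℂ (Set.range t))
  rw [div_eq_mul_inv]
  exact (h1 p).mul (h1 r).inv

theorem trdeg_eq [Fintype σ] : Algebra.trdeg ℂ L = (Fintype.card σ : ℕ) := by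
  have := ht.isTranscendenceBasis.cardinalMk_eq_trdeg
  rw [← this]; simp only [Cardinal.mk_fintype]

end IsCoords

end Vale.Agent.P283
end
end

section

section

/-!
Data for the engine theorem.
-/

namespace Vale.Agent.P283

open scoped KaehlerDifferential
open MvPolynomial

/-- Data for the engine. -/
structure EngineData (q k J : ℕ) {K L : Type} [Field K] [Field L] [Algebra ℂ K] [Algebra ℂ L]
    [Algebra K L] (t : Fin q ⊕ Fin k → L) (g : MvPolynomial (Fin k) ℂ) (x0 : L)
    (G G0 : Subgroup (L ≃ₐ[ℂ] L)) (A : Subalgebra ℂ K) : Prop where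
  coords : IsCoords t
  g_ne : g ≠ 0
  x0_eq : x0 * ∏ l, t (Sum.inl l) = aeval (fun j => t (Sum.inr j)) g
  fin : Finite G
  fix : ∀ f : L, (∀ τ ∈ G, τ f = f) ↔ f ∈ Set.range (algebraMap K L)
  le : G0 ≤ G
  index : G0.relIndex G ≤ J
  diag : ∀ τ ∈ G0, ∀ i, ∃ c : ℂ, τ (t i) = c • t i
  diag0 : ∀ τ ∈ G0, ∃ c : ℂ, τ x0 = c • x0
  frac : ∀ f : K, ∃ a ∈ A, ∃ b ∈ A, b ≠ 0 ∧ f = a / b
  sub : ∀ a ∈ A, algebraMap K L a ∈ Algebra.adjoin ℂ (insert x0 (Set.range t))
  int0 : IsIntegral A x0
  int : ∀ i, IsIntegral A (t i)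

/-- The logarithmic form of the coordinates. -/
noncomputable def logForm {q k : ℕ} {L : Type} [Field L] [Algebra ℂ L] (t : Fin q ⊕ Fin k → L) :
    ⋀[L]^(q + k) (Ω[L⁄ℂ]) :=
  dlogForm (t ∘ (finSumFinEquiv (m := q) (n := k)).symm)

end Vale.Agent.P283
end
end

section

section

/-!
Quotients `X = Y / G` of the hypersurfaces `Y = {x₀ x₁ ⋯ x_q = g(z₁, …, z_k)}` by finite groups.
-/

namespace Vale.Agent.P283

open scoped KaehlerDifferential
open MvPolynomial

/-- The field of rational functions `ℂ(x₁, …, x_q, z₁, …, z_k)`; it is the function field of `Y`. -/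
abbrev RatField (q k : ℕ) : Type := FractionRing (MvPolynomial (Fin q ⊕ Fin k) ℂ)

variable {q k : ℕ}

/-- The functions `x₁, …, x_q`. -/
noncomputable def coordX (l : Fin q) : RatField q k :=
  algebraMap (MvPolynomial (Fin q ⊕ Fin k) ℂ) (RatField q k) (X (Sum.inl l))

/-- The functions `z₁, …, z_k`. -/
noncomputable def coordZ (j : Fin k) : RatField q k :=
  algebraMap (MvPolynomial (Fin q ⊕ Fin k) ℂ) (RatField q k) (X (Sum.inr j))

/-- The functions `x₀, x₁, …, x_q` on `Y`, where `x₀ = g(z) / (x₁ ⋯ x_q)`. -/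
noncomputable def coordsX (g : MvPolynomial (Fin k) ℂ) : Option (Fin q) → RatField q k
  | none => aeval (coordZ (q := q)) g / ∏ l, coordX l
  | some l => coordX l

/-- The coordinate ring `ℂ[x₀, …, x_q, z₁, …, z_k]` of the hypersurface
`Y = {x₀ x₁ ⋯ x_q = g(z₁, …, z_k)}`. -/
noncomputable def ringY (g : MvPolynomial (Fin k) ℂ) : Subalgebra ℂ (RatField q k) :=
  Algebra.adjoin ℂ (Set.range (coordsX g) ∪ Set.range coordZ)

/-- The form `(x₁ ⋯ x_q)⁻¹ dx₁ ∧ ⋯ ∧ dx_q ∧ dz₁ ∧ ⋯ ∧ dz_k`, a generator of the canonical sheaf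
of `Y`. -/
noncomputable def omegaY (q k : ℕ) : ⋀[RatField q k]^(q + k) (Ω[RatField q k⁄ℂ]) :=
  (∏ l, (coordX l : RatField q k))⁻¹ • wedgeD (q + k) (Fin.append coordX coordZ)

/-- The function field of `X = Y / G`. -/
noncomputable abbrev fieldX (G : Subgroup (RatField q k ≃ₐ[ℂ] RatField q k)) :
    IntermediateField ℂ (RatField q k) := IntermediateField.fixedField G

/-- The coordinate ring of `X = Y / G`: the `G`-invariant functions on `Y`. -/
noncomputable def ringX (g : MvPolynomial (Fin k) ℂ)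
    (G : Subgroup (RatField q k ≃ₐ[ℂ] RatField q k)) : Subalgebra ℂ (fieldX G) :=
  (ringY g).comap (fieldX G).val

end Vale.Agent.P283
end
end

section

section

/-!
Standard coordinates on the function field of `Y` and calculus with them.
-/

namespace Vale.Agent.P283

open scoped KaehlerDifferential
open MvPolynomial Finset

section Std

variable {q k : ℕ}

/-- the standard coordinates -/
noncomputable def stdT (q k : ℕ) : Fin q ⊕ Fin k → RatField q k := Sum.elim coordX coordZ

end Std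

section Calc

variable {L : Type} [Field L] [Algebra ℂ L] {q k : ℕ}

/-- wedge product indexed by `Fin q ⊕ Fin k` -/
noncomputable def wedgeS (f : Fin q ⊕ Fin k → L) : ⋀[L]^(q + k) (Ω[L⁄ℂ]) :=
  wedgeD (q + k) (f ∘ (finSumFinEquiv (m := q) (n := k)).symm)

theorem wedgeS_sum {b : Fin q ⊕ Fin k → L} (B : Module.Basis (Fin q ⊕ Fin k) L (Ω[L⁄ℂ]))
    (f : Fin q ⊕ Fin k → L) (P : Matrix (Fin q ⊕ Fin k) (Fin q ⊕ Fin k) L)
    (hP : ∀ i, KaehlerDifferential.D ℂ L (f i) = ∑ j, P i j • KaehlerDifferential.D ℂ L (b j)) :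
    wedgeS f = P.det • wedgeS b := by
  classical
  let e := (finSumFinEquiv (m := q) (n := k))
  have h1 := iMulti_sum (B.reindex e) (Matrix.reindex e e P)
    (fun j => KaehlerDifferential.D ℂ L (b (e.symm j)))
  unfold wedgeS wedgeD
  rw [Matrix.det_reindex_self] at h1
  rw [← show exteriorPower.ιMulti L (q + k) (fun i => ∑ j, (Matrix.reindex e e P) i j •
      KaehlerDifferential.D ℂ L (b (e.symm j)))
    = exteriorPower.ιMulti L (q + k) (fun i => KaehlerDifferential.D ℂ L
      ((f ∘ (finSumFinEquiv (m := q) (n := k)).symm) i)) from ?_] at *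
  · exact h1
  · congr 1
    funext i
    rw [Function.comp_apply, hP, ← Equiv.sum_comp e.symm]
    rfl

theorem wedgeS_det {b : Fin q ⊕ Fin k → L} (B : Module.Basis (Fin q ⊕ Fin k) L (Ω[L⁄ℂ]))
    (hB : ∀ i, B i = KaehlerDifferential.D ℂ L (b i)) (f : Fin q ⊕ Fin k → L) :
    wedgeS f = (Matrix.of fun i j => pd B j (f i)).det • wedgeS b := by
  refine wedgeS_sum B f _ fun i => ?_
  rw [D_eq_sum B]
  exact Finset.sum_congr rfl fun j _ => by rw [hB]; rfl

theorem wedgeS_ne_zero {b : Fin q ⊕ Fin k → L} (B : Module.Basis (Fin q ⊕ Fin k) L (Ω[L⁄ℂ]))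
    (hB : ∀ i, B i = KaehlerDifferential.D ℂ L (b i)) : wedgeS b ≠ 0 := by
  unfold wedgeS
  refine wedgeD_basis_ne_zero (B.reindex finSumFinEquiv) ?_
  intro i
  rw [Module.Basis.reindex_apply, hB]
  rfl

/-- a derivation is determined by its values on a basis -/
theorem derivation_eq_sum {ι : Type} [Fintype ι] {b : ι → L} (B : Module.Basis ι L (Ω[L⁄ℂ]))
    (hB : ∀ i, B i = KaehlerDifferential.D ℂ L (b i)) (δ : Derivation ℂ L L) (f : L) :
    δ f = ∑ j, pd B j f * δ (b j) := by
  have h1 : ∀ g, δ g = δ.liftKaehlerDifferential (KaehlerDifferential.D ℂ L g) := by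
    intro g
    exact (Derivation.liftKaehlerDifferential_comp_D δ g).symm
  rw [h1, D_eq_sum B, map_sum]
  refine Finset.sum_congr rfl fun j _ => ?_
  rw [map_smul, hB, ← h1, smul_eq_mul]

/-- conjugate of a derivation by an automorphism -/
def conjDer (τ : L ≃ₐ[ℂ] L) (δ : Derivation ℂ L L) : Derivation ℂ L L where
  toFun := fun f => τ.symm (δ (τ f))
  map_add' := by intro a b; simp
  map_smul' := by intro c a; simp
  map_one_eq_zero' := by
    show τ.symm (δ (τ 1)) = 0
    simp
  leibniz' := by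
    intro a b
    show τ.symm (δ (τ (a * b))) = a • τ.symm (δ (τ b)) + b • τ.symm (δ (τ a))
    rw [map_mul, Derivation.leibniz]
    simp

/-- chain rule for an automorphism -/
theorem chain_rule {ι : Type} [Fintype ι] {b : ι → L} (B : Module.Basis ι L (Ω[L⁄ℂ]))
    (hB : ∀ i, B i = KaehlerDifferential.D ℂ L (b i)) (τ : L ≃ₐ[ℂ] L) (m : ι) (f : L) :
    pd B m (τ f) = ∑ j, τ (pd B j f) * pd B m (τ (b j)) := by
  have h1 := derivation_eq_sum B hB (conjDer τ (pd B m)) f
  have h2 : ∀ g, conjDer τ (pd B m) g = τ.symm (pd B m (τ g)) := fun g => rfl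
  simp only [h2] at h1
  have h3 := congrArg τ h1
  rw [AlgEquiv.apply_symm_apply, map_sum] at h3
  rw [h3]
  refine Finset.sum_congr rfl fun j _ => ?_
  rw [map_mul, AlgEquiv.apply_symm_apply]

end Calc

end Vale.Agent.P283
end
end

section

section

open Module Set

namespace Vale.Agent.P283

variable {q k : ℕ}

/-- `x` lies in the cone of (value vectors of) monomial valuations centred on `x_0⋯x_q = g(z)` -/
def InCone (S : Finset (Fin k → ℕ)) (x : Fin q ⊕ Fin k → ℝ) : Prop :=
  (∀ i, 0 ≤ x i) ∧ ∀ μ ∈ S, ∑ l, x (Sum.inl l) ≤ mdot μ x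

/-- the `z`-part of the cone inside `perp U` -/
def InSig (U : Set (Fin q ⊕ Fin k → ℤ)) (x : Fin q ⊕ Fin k → ℝ) : Prop :=
  (∀ l, x (Sum.inl l) = 0) ∧ (∀ j, 0 ≤ x (Sum.inr j)) ∧ x ∈ perp U

/-- exponent vector of `x_0` with the monomial `μ` of `g` -/
def extv (μ : Fin k → ℕ) : Fin q ⊕ Fin k → ℤ := Sum.elim (fun _ => -1) (fun j => (μ j : ℤ))

/-- the log discrepancy function -/
def psiL (c : Fin k → ℝ) : (Fin q ⊕ Fin k → ℝ) →ₗ[ℝ] ℝ where
  toFun := fun x => ∑ j, c j * x (Sum.inr j)
  map_add' := by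
    intro x y
    simp only [Pi.add_apply, mul_add, Finset.sum_add_distrib]
  map_smul' := by
    intro a x
    simp only [Pi.smul_apply, smul_eq_mul, RingHom.id_apply, Finset.mul_sum]
    exact Finset.sum_congr rfl fun i _ => by ring

@[simp] lemma psiL_apply (c : Fin k → ℝ) (x : Fin q ⊕ Fin k → ℝ) :
    psiL c x = ∑ j, c j * x (Sum.inr j) := rfl

/-- the constants of the section theorem -/
noncomputable def Fc (D k : ℕ) : ℕ → ℝ
  | 0 => 0
  | n + 1 => Fc D k n + Tc (n + 1) + (k + 1) * (2 * (D : ℝ) ^ 2 * Kc (n + 1)) + 2 * Kc (n + 1) + 1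

lemma Fc_nonneg (D k n : ℕ) : 0 ≤ Fc D k n := by
  induction n with
  | zero => simp only [Fc, Std.le_refl]
  | succ n ih =>
    have h1 := Tc_nonneg (n + 1)
    have h2 := Kc_nonneg (n + 1)
    simp only [Fc]
    positivity

lemma mdot_nonneg (μ : Fin k → ℕ) (x : Fin q ⊕ Fin k → ℝ) (h : ∀ j, 0 ≤ x (Sum.inr j)) :
    0 ≤ mdot μ x := Finset.sum_nonneg fun j _ => mul_nonneg (Nat.cast_nonneg _) (h j)

lemma mdot_add (μ : Fin k → ℕ) (x y : Fin q ⊕ Fin k → ℝ) :
    mdot μ (x + y) = mdot μ x + mdot μ y := by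
  simp only [mdot, Pi.add_apply, mul_add, Finset.sum_add_distrib]

lemma mdot_smul (μ : Fin k → ℕ) (a : ℝ) (x : Fin q ⊕ Fin k → ℝ) :
    mdot μ (a • x) = a * mdot μ x := by
  simp only [mdot, Pi.smul_apply, smul_eq_mul, Finset.mul_sum]
  exact Finset.sum_congr rfl fun i _ => by ring

lemma mdot_sum {α : Type*} (s : Finset α) (μ : Fin k → ℕ) (f : α → Fin q ⊕ Fin k → ℝ) :
    mdot μ (∑ i ∈ s, f i) = ∑ i ∈ s, mdot μ (f i) := by
  classical
  induction s using Finset.induction_on with
  | empty => simp only [mdot, Finset.sum_apply, Finset.sum_empty, mul_zero, Finset.sum_const_zero]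
  | insert a s ha ih => rw [Finset.sum_insert ha, Finset.sum_insert ha, mdot_add, ih]

lemma mdot_single_inl (μ : Fin k → ℕ) (l : Fin q) (a : ℝ) :
    mdot μ (Pi.single (Sum.inl l) a : Fin q ⊕ Fin k → ℝ) = 0 := by
  simp only [mdot, ne_eq, reduceCtorEq, not_false_eq_true, Pi.single_eq_of_ne, mul_zero, Finset.sum_const_zero]

lemma dot_extv (μ : Fin k → ℕ) (x : Fin q ⊕ Fin k → ℝ) :
    dot x (extv μ) = mdot μ x - ∑ l, x (Sum.inl l) := by
  simp only [dot, extv, mdot, Fintype.sum_sum_type, Sum.elim_inl, Sum.elim_inr]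
  push_cast
  simp only [mul_neg, mul_one, Finset.sum_neg_distrib]
  have : ∀ j, x (Sum.inr j) * (μ j : ℝ) = (μ j : ℝ) * x (Sum.inr j) := fun j => mul_comm _ _
  simp only [this]
  ring

lemma InSig.inCone {U : Set (Fin q ⊕ Fin k → ℤ)} {x : Fin q ⊕ Fin k → ℝ} (h : InSig U x)
    (S : Finset (Fin k → ℕ)) : InCone S x := by
  refine ⟨?_, ?_⟩
  · rintro (l | j)
    · rw [h.1 l]
    · exact h.2.1 j
  · intro μ _
    have : ∑ l, x (Sum.inl l) = 0 := Finset.sum_eq_zero fun l _ => h.1 l
    rw [this]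
    exact mdot_nonneg μ x h.2.1

lemma finrank_perp_insert (U : Set (Fin q ⊕ Fin k → ℤ)) (u : Fin q ⊕ Fin k → ℤ)
    (hu : ∃ x ∈ perp U, dot x u ≠ 0) :
    finrank ℝ (perp (insert u U)) + 1 = finrank ℝ (perp U) := by
  let f : perp U →ₗ[ℝ] ℝ := (dotL u).comp (perp U).subtype
  have h1 := LinearMap.finrank_range_add_finrank_ker f
  have h2 : LinearMap.range f = ⊤ := by
    rw [LinearMap.range_eq_top]
    obtain ⟨x, hx, hxu⟩ := hu
    intro c
    refine ⟨(c / dot x u) • ⟨x, hx⟩, ?_⟩
    rw [map_smul]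
    show (c / dot x u) * dot x u = c
    field_simp
  have h3 : (LinearMap.ker f).map (perp U).subtype = perp (insert u U) := by
    ext x
    simp only [Submodule.mem_map, LinearMap.mem_ker, Submodule.subtype_apply]
    constructor
    · rintro ⟨y, hy, rfl⟩
      rintro w (rfl | hw)
      · exact hy
      · exact y.2 w hw
    · intro hx
      refine ⟨⟨x, fun w hw => hx w (Or.inr hw)⟩, ?_, rfl⟩
      exact hx u (Or.inl rfl)
  have h4 : finrank ℝ (perp (insert u U)) = finrank ℝ (LinearMap.ker f) := by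
    rw [← h3]
    exact Submodule.finrank_map_subtype_eq _ _
  rw [h4, ← h1, h2]
  simp only [finrank_top, finrank_self]
  omega

section Main

variable (M : Submodule ℤ (Fin q ⊕ Fin k → ℤ)) (r : ℕ) (hr : 0 < r)
  (hM : ∀ u : Fin q ⊕ Fin k → ℤ, (r : ℤ) • u ∈ M) (S : Finset (Fin k → ℕ)) (hSne : S.Nonempty)
  (hSM : ∀ μ ∈ S, ∀ μ' ∈ S, (Sum.elim (fun _ => 0) (fun j => (μ j : ℤ) - μ' j)) ∈ M)
  (c : Fin k → ℝ) (hc : ∀ j, 0 < c j) (ε : ℝ) (hε : 0 < ε)
  (hlc : ∀ x : Fin q ⊕ Fin k → ℝ, InCone S x → (∀ u ∈ M, ∃ z : ℤ, dot x u = z) → x ≠ 0 →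
    ε ≤ psiL c x)

/-- the functionals cutting out the cone -/
def hfam : (Fin q ⊕ Fin k) ⊕ S → Fin q ⊕ Fin k → ℤ
  | Sum.inl i => (r : ℤ) • Pi.single i 1
  | Sum.inr μ => (r : ℤ) • extv μ.1

include hr in
lemma inCone_iff (x : Fin q ⊕ Fin k → ℝ) : InCone S x ↔ ∀ a, 0 ≤ dot x (hfam r S a) := by
  have hr' : (0 : ℝ) < r := by exact_mod_cast hr
  have h1 : ∀ i, dot x ((r : ℤ) • Pi.single i 1) = r * x i := by
    intro i
    rw [dot_smul_right]
    simp only [Int.cast_natCast, dot, Pi.single_apply, Int.cast_ite, Int.cast_one, Int.cast_zero, mul_ite, mul_one, mul_zero, Finset.sum_ite_eq', Finset.mem_univ, ↓reduceIte]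
  have h2 : ∀ μ : Fin k → ℕ, dot x ((r : ℤ) • extv μ) = r * (mdot μ x - ∑ l, x (Sum.inl l)) := by
    intro μ
    rw [dot_smul_right, dot_extv]
    simp only [Int.cast_natCast]
  constructor
  · rintro ⟨ha, hb⟩ (i | μ)
    · show 0 ≤ dot x ((r : ℤ) • Pi.single i 1)
      rw [h1]; exact mul_nonneg hr'.le (ha i)
    · show 0 ≤ dot x ((r : ℤ) • extv μ.1)
      rw [h2]
      exact mul_nonneg hr'.le (sub_nonneg.mpr (hb μ.1 μ.2))
  · intro h
    refine ⟨fun i => ?_, fun μ hμ => ?_⟩
    · have := h (Sum.inl i)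
      change 0 ≤ dot x ((r : ℤ) • Pi.single i 1) at this
      rw [h1] at this
      exact (mul_nonneg_iff_of_pos_left hr').mp this
    · have := h (Sum.inr ⟨μ, hμ⟩)
      change 0 ≤ dot x ((r : ℤ) • extv μ) at this
      rw [h2] at this
      have := (mul_nonneg_iff_of_pos_left hr').mp this
      linarith only [this]

include hSne hc in
lemma psi_pos (x : Fin q ⊕ Fin k → ℝ) (hx : InCone S x) (hx0 : x ≠ 0) : 0 < psiL c x := by
  have h1 : 0 ≤ psiL c x := by
    rw [psiL_apply]
    exact Finset.sum_nonneg fun j _ => mul_nonneg (hc j).le (hx.1 _)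
  rcases eq_or_lt_of_le h1 with h | h
  · exfalso
    apply hx0
    rw [psiL_apply] at h
    have h2 : ∀ j, x (Sum.inr j) = 0 := by
      intro j
      have h3 := (Finset.sum_eq_zero_iff_of_nonneg
        (fun j _ => mul_nonneg (hc j).le (hx.1 (Sum.inr j)))).mp h.symm j (Finset.mem_univ j)
      rcases mul_eq_zero.mp h3 with h4 | h4
      · exact absurd h4 (hc j).ne'
      · exact h4
    obtain ⟨μ, hμ⟩ := hSne
    have h4 : mdot μ x = 0 := by simp only [mdot, h2, mul_zero, Finset.sum_const_zero]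
    have h5 := hx.2 μ hμ
    rw [h4] at h5
    have h6 : ∀ l, x (Sum.inl l) = 0 := by
      intro l
      have h7 : ∑ l, x (Sum.inl l) = 0 :=
        le_antisymm h5 (Finset.sum_nonneg fun l _ => hx.1 _)
      exact (Finset.sum_eq_zero_iff_of_nonneg (fun l _ => hx.1 (Sum.inl l))).mp h7 l
        (Finset.mem_univ l)
    ext i
    rcases i with l | j
    · exact h6 l
    · exact h2 j
  · exact h

/-- the section data conditions -/
def GoodSec (U : Set (Fin q ⊕ Fin k → ℤ)) (B : ℝ) (s : ℕ × (Fin q ⊕ Fin k → ℤ)) : Prop :=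
  (∀ l, 0 ≤ s.2 (Sum.inl l)) ∧ (s.1 = 0 ∨ ∃ l, s.2 (Sum.inl l) = 0) ∧
    (∀ μ ∈ S, s.2 + (s.1 : ℤ) • extv μ ∈ M) ∧
    ∀ v, InSig U v → -(B * psiL c v) ≤ dot v s.2

/-- the section takes a negative value at `x` -/
def NegSec (s : ℕ × (Fin q ⊕ Fin k → ℤ)) (x : Fin q ⊕ Fin k → ℝ) : Prop :=
  ∀ γ : ℝ, (∀ μ ∈ S, γ ≤ mdot μ x) → (s.1 : ℝ) * (γ - ∑ l, x (Sum.inl l)) + dot x s.2 < 0

lemma inSig_dual (U : Set (Fin q ⊕ Fin k → ℤ)) (x : Fin q ⊕ Fin k → ℝ)
    (h : ∀ a : {ℓ : (Fin q ⊕ Fin k → ℝ) →ₗ[ℝ] ℝ // ∀ v, InSig U v → 0 ≤ ℓ v}, 0 ≤ a.1 x) :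
    InSig U x := by
  refine ⟨?_, ?_, ?_⟩
  · intro l
    have h1 := h ⟨LinearMap.proj (Sum.inl l), fun v hv => by
      simp only [LinearMap.proj_apply]; rw [hv.1 l]⟩
    have h2 := h ⟨-LinearMap.proj (Sum.inl l), fun v hv => by
      simp only [LinearMap.neg_apply, LinearMap.proj_apply]; rw [hv.1 l, neg_zero]⟩
    simp only [LinearMap.neg_apply, LinearMap.proj_apply] at h1 h2
    linarith
  · intro j
    have h1 := h ⟨LinearMap.proj (Sum.inr j), fun v hv => by
      simp only [LinearMap.proj_apply]; exact hv.2.1 j⟩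
    simpa only [ge_iff_le, LinearMap.coe_proj, Function.eval] using h1
  · intro u hu
    have h1 := h ⟨dotL u, fun v hv => by
      rw [dotL_apply, hv.2.2 u hu]⟩
    have h2 := h ⟨-dotL u, fun v hv => by
      rw [LinearMap.neg_apply, dotL_apply, hv.2.2 u hu, neg_zero]⟩
    simp only [LinearMap.neg_apply, dotL_apply] at h1 h2
    linarith

include hr hM hSne hSM hc hε hlc in
theorem staged (n : ℕ) : ∀ U : Set (Fin q ⊕ Fin k → ℤ), U ⊆ M → (∀ u ∈ U, ∀ l, u (Sum.inl l) = 0) →
    finrank ℝ (perp U) = n → ∃ L : List (ℕ × (Fin q ⊕ Fin k → ℤ)), L.length = 2 * n ∧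
      (∀ s ∈ L, GoodSec M S c U (Fc (q + k) k n / ε) s) ∧
      ∀ x ∈ perp U, InCone S x → x ≠ 0 → ∃ s ∈ L, NegSec S s x := by
  induction n with
  | zero =>
    intro U _ _ hn
    refine ⟨[], rfl, by simp, ?_⟩
    intro x hx _ hx0
    exfalso
    have h1 : Subsingleton (perp U) := Module.finrank_zero_iff.mp hn
    have h2 : (⟨x, hx⟩ : perp U) = 0 := Subsingleton.elim _ _
    exact hx0 (congrArg Subtype.val h2)
  | succ n ih =>
    intro U hU hUz hn
    have hpsi := psi_pos (q := q) S hSne c hc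
    have hpsinn : ∀ x : Fin q ⊕ Fin k → ℝ, InCone S x → 0 ≤ psiL c x := by
      intro x hx
      by_cases hx0 : x = 0
      · subst hx0; simp only [psiL_apply, Pi.zero_apply, mul_zero, Finset.sum_const_zero, Std.le_refl]
      · exact (hpsi x hx hx0).le
    have hpsisig : ∀ x : Fin q ⊕ Fin k → ℝ,
        (∀ a : {ℓ : (Fin q ⊕ Fin k → ℝ) →ₗ[ℝ] ℝ // ∀ v, InSig U v → 0 ≤ ℓ v}, 0 ≤ a.1 x) →
        x ≠ 0 → 0 < psiL c x := fun x hx hx0 => hpsi x ((inSig_dual U x hx).inCone S) hx0
    obtain ⟨hkey, L₀, hL₀len, hL₀M, hL₀b, hL₀neg⟩ := coord_cone M r hr hM U hU (hfam r S)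
      (by
        rintro (i | μ)
        · exact hM _
        · exact hM _)
      (psiL c)
      (fun x _ hx hx0 => hpsi x ((inCone_iff r hr S x).mpr hx) hx0) ε hε
      (fun x _ hx hxM hx0 => hlc x ((inCone_iff r hr S x).mpr hx) hxM hx0) (n + 1) hn
    obtain ⟨u, huM, hune, hub'⟩ := hkey (Nat.succ_pos n)
    have hub : ∀ x ∈ perp U, InCone S x → |dot x u| ≤ (Kc (n + 1) / ε) * psiL c x :=
      fun x hx hxc => hub' x hx ((inCone_iff r hr S x).mp hxc)
    have hKnn : 0 ≤ Kc (n + 1) / ε := div_nonneg (Kc_nonneg _) hε.le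
    by_cases hcase : ∀ l, u (Sum.inl l) = 0
    · -- Case A: a direction in the `z` variables
      obtain ⟨L', hL'len, hL'good, hL'neg⟩ := ih (insert u U)
        (by
          rintro w (rfl | hw)
          · exact huM
          · exact hU hw)
        (by
          rintro w (rfl | hw)
          · exact hcase
          · exact hUz w hw)
        (by
          have := finrank_perp_insert U u hune
          omega)
      have hlift : ∀ s : ℕ × (Fin q ⊕ Fin k → ℤ), ∃ z : ℤ, s ∈ L' →
          GoodSec M S c U (Fc (q + k) k (n + 1) / ε) (s.1, s.2 + z • u) := by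
        intro s
        by_cases hs : s ∈ L'
        · obtain ⟨hs1, hs2, hs3, hs4⟩ := hL'good s hs
          obtain ⟨t, ht⟩ := one_constraint
            (fun a : {ℓ : (Fin q ⊕ Fin k → ℝ) →ₗ[ℝ] ℝ // ∀ v, InSig U v → 0 ≤ ℓ v} => a.1)
            (psiL c) hpsisig (dotL u) (dotL s.2 + (Fc (q + k) k n / ε) • psiL c)
            (by
              intro x hx hxu
              have hx' := inSig_dual U x hx
              have h1 : InSig (insert u U) x := by
                refine ⟨hx'.1, hx'.2.1, ?_⟩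
                rintro w (rfl | hw)
                · simpa using hxu
                · exact hx'.2.2 w hw
              have h2 := hs4 x h1
              show 0 ≤ dot x s.2 + (Fc (q + k) k n / ε) * psiL c x
              linarith only [h2])
            (1 / ε) (by positivity)
          let z : ℤ := round t
          have hz : |t - z| ≤ 1 / 2 := abs_sub_round t
          refine ⟨z, fun _ => ⟨?_, ?_, ?_, ?_⟩⟩
          · intro l
            simp only [Pi.add_apply, Pi.smul_apply, hcase l, smul_zero, add_zero]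
            exact hs1 l
          · rcases hs2 with h | ⟨l, hl⟩
            · exact Or.inl h
            · refine Or.inr ⟨l, ?_⟩
              simp only [Pi.add_apply, Pi.smul_apply, hcase l, smul_zero, add_zero]
              exact hl
          · intro μ hμ
            have h1 : s.2 + z • u + (s.1 : ℤ) • extv μ = (s.2 + (s.1 : ℤ) • extv μ) + z • u := by
              abel
            show s.2 + z • u + (s.1 : ℤ) • extv μ ∈ M
            rw [h1]
            exact M.add_mem (hs3 μ hμ) (M.smul_mem _ huM)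
          · intro v hv
            have h1 := ht v (fun a => a.2 v hv)
            have h2 : (dotL s.2 + (Fc (q + k) k n / ε) • psiL c :
                (Fin q ⊕ Fin k → ℝ) →ₗ[ℝ] ℝ) v + t * (dotL u) v
                = dot v s.2 + (Fc (q + k) k n / ε) * psiL c v + t * dot v u := rfl
            rw [h2] at h1
            show -((Fc (q + k) k (n + 1) / ε) * psiL c v) ≤ dot v (s.2 + z • u)
            rw [dot_add_right, dot_smul_right]
            have h3 : (z : ℝ) * dot v u = t * dot v u - (t - z) * dot v u := by ring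
            have h4 : (t - z) * dot v u ≤ (1 / 2) * ((Kc (n + 1) / ε) * psiL c v) := by
              calc (t - z) * dot v u ≤ |(t - z) * dot v u| := le_abs_self _
                _ = |t - z| * |dot v u| := abs_mul _ _
                _ ≤ (1 / 2) * ((Kc (n + 1) / ε) * psiL c v) :=
                  mul_le_mul hz (hub v hv.2.2 (hv.inCone S)) (abs_nonneg _) (by norm_num)
            have h5 : (Fc (q + k) k (n + 1) / ε) * psiL c v
                = (Fc (q + k) k n / ε) * psiL c v + (Kc (n + 1) / ε) * psiL c v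
                  + (1 / ε) * psiL c v
                  + ((Tc (n + 1) + (k + 1) * (2 * ((q + k : ℕ) : ℝ) ^ 2 * Kc (n + 1))
                    + Kc (n + 1)) / ε) * psiL c v := by
              simp only [Fc]; ring
            have h6 : 0 ≤ psiL c v := hpsinn v (hv.inCone S)
            have h7 : 0 ≤ (Kc (n + 1) / ε) * psiL c v := mul_nonneg hKnn h6
            have h8 : 0 ≤ ((Tc (n + 1) + (k + 1) * (2 * ((q + k : ℕ) : ℝ) ^ 2 * Kc (n + 1))
                    + Kc (n + 1)) / ε) * psiL c v := by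
              have := Tc_nonneg (n + 1)
              have := Kc_nonneg (n + 1)
              positivity
            rw [h5, h3]
            linarith only [h1, h4, h7, h8]
        · exact ⟨0, fun h => absurd h hs⟩
      choose F hF using hlift
      refine ⟨(0, u) :: (0, -u) :: L'.map (fun s => (s.1, s.2 + F s • u)), ?_, ?_, ?_⟩
      · simp only [List.length_cons, List.length_map, hL'len]
        ring
      · have hbase : ∀ w : Fin q ⊕ Fin k → ℤ, (w = u ∨ w = -u) →
            GoodSec M S c U (Fc (q + k) k (n + 1) / ε) (0, w) := by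
          intro w hw
          have hwz : ∀ l, w (Sum.inl l) = 0 := by
            intro l
            rcases hw with rfl | rfl
            · exact hcase l
            · simp [hcase l]
          have hwM : w ∈ M := by
            rcases hw with rfl | rfl
            · exact huM
            · exact M.neg_mem huM
          refine ⟨fun l => (hwz l).ge, Or.inl rfl, ?_, ?_⟩
          · intro μ _
            simpa using hwM
          · intro v hv
            have h1 : |dot v w| ≤ (Kc (n + 1) / ε) * psiL c v := by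
              rcases hw with rfl | rfl
              · exact hub v hv.2.2 (hv.inCone S)
              · rw [dot_neg_right, abs_neg]
                exact hub v hv.2.2 (hv.inCone S)
            have h5 : (Fc (q + k) k (n + 1) / ε) * psiL c v
                = (Kc (n + 1) / ε) * psiL c v
                  + ((Fc (q + k) k n + Tc (n + 1)
                    + (k + 1) * (2 * ((q + k : ℕ) : ℝ) ^ 2 * Kc (n + 1))
                    + Kc (n + 1) + 1) / ε) * psiL c v := by
              simp only [Fc]; ring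
            have h6 : 0 ≤ psiL c v := hpsinn v (hv.inCone S)
            have h8 : 0 ≤ ((Fc (q + k) k n + Tc (n + 1)
                    + (k + 1) * (2 * ((q + k : ℕ) : ℝ) ^ 2 * Kc (n + 1))
                    + Kc (n + 1) + 1) / ε) * psiL c v := by
              have := Tc_nonneg (n + 1)
              have := Kc_nonneg (n + 1)
              have := Fc_nonneg (q + k) k n
              positivity
            have h9 := (abs_le.mp h1).1
            show -((Fc (q + k) k (n + 1) / ε) * psiL c v) ≤ dot v w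
            rw [h5]
            linarith only [h8, h9]
        intro s hs
        simp only [List.mem_cons, List.mem_map] at hs
        rcases hs with rfl | rfl | ⟨s', hs', rfl⟩
        · exact hbase u (Or.inl rfl)
        · exact hbase (-u) (Or.inr rfl)
        · exact hF s' hs'
      · intro x hx hxc hx0
        rcases lt_trichotomy (dot x u) 0 with h1 | h1 | h1
        · refine ⟨(0, u), by simp only [zsmul_eq_mul, List.mem_cons, Prod.mk.injEq, true_and, List.mem_map, Prod.exists, ↓existsAndEq, true_or], ?_⟩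
          intro γ _
          simpa only [CharP.cast_eq_zero, zero_mul, zero_add] using h1
        · have hx' : x ∈ perp (insert u U) := by
            rintro w (rfl | hw)
            · exact h1
            · exact hx w hw
          obtain ⟨s, hs, hsneg⟩ := hL'neg x hx' hxc hx0
          refine ⟨(s.1, s.2 + F s • u), ?_, ?_⟩
          · simp only [List.mem_cons, List.mem_map]
            exact Or.inr (Or.inr ⟨s, hs, rfl⟩)
          · intro γ hγ
            have h2 := hsneg γ hγ
            show (s.1 : ℝ) * (γ - ∑ l, x (Sum.inl l)) + dot x (s.2 + F s • u) < 0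
            rw [dot_add_right, dot_smul_right, h1, mul_zero, add_zero]
            exact h2
        · refine ⟨(0, -u), by simp only [zsmul_eq_mul, List.mem_cons, Prod.mk.injEq, true_and, List.mem_map, Prod.exists, ↓existsAndEq, true_or, or_true], ?_⟩
          intro γ _
          simp only [Nat.cast_zero, zero_mul, zero_add]
          rw [dot_neg_right]
          linarith only [h1]
    · -- Case B: a direction involving the `x` variables
      push Not at hcase
      obtain ⟨l₀, hl₀⟩ := hcase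
      -- moving a point of the `z`-cone up to the boundary
      have hmove : ∀ x, InSig U x → ∀ γ : ℝ, 0 ≤ γ → (∀ μ ∈ S, γ ≤ mdot μ x) → ∀ l : Fin q,
          (x + Pi.single (Sum.inl l) γ ∈ perp U) ∧ InCone S (x + Pi.single (Sum.inl l) γ) ∧
          psiL c (x + Pi.single (Sum.inl l) γ) = psiL c x ∧
          ∀ w : Fin q ⊕ Fin k → ℤ, dot (x + Pi.single (Sum.inl l) γ) w
            = dot x w + γ * w (Sum.inl l) := by
        intro x hx γ hγ0 hγ l
        have hdot : ∀ w : Fin q ⊕ Fin k → ℤ, dot (x + Pi.single (Sum.inl l) γ) w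
            = dot x w + γ * w (Sum.inl l) := by
          intro w
          have h1 := (dotL w).map_add x (Pi.single (Sum.inl l) γ)
          simp only [dotL_apply] at h1
          rw [h1]
          congr 1
          simp only [dot, Pi.single_apply, ite_mul, zero_mul, Finset.sum_ite_eq', Finset.mem_univ, ↓reduceIte]
        refine ⟨?_, ⟨?_, ?_⟩, ?_, hdot⟩
        · intro w hw
          rw [hdot, hx.2.2 w hw, hUz w hw l]
          simp
        · intro i
          simp only [Pi.add_apply]
          refine add_nonneg ((hx.inCone S).1 i) ?_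
          by_cases hi : i = Sum.inl l
          · subst hi; simpa only [Pi.single_eq_same] using hγ0
          · simp [hi]
        · intro μ hμ
          rw [mdot_add, mdot_single_inl, add_zero]
          have h1 : ∑ l', (x + Pi.single (Sum.inl l) γ : Fin q ⊕ Fin k → ℝ) (Sum.inl l') = γ := by
            simp only [Pi.add_apply, hx.1, zero_add, Pi.single_apply, Sum.inl.injEq]
            simp only [Finset.sum_ite_eq', Finset.mem_univ, ↓reduceIte]
          rw [h1]
          exact hγ μ hμ
        · simp only [psiL_apply, Pi.add_apply, ne_eq, reduceCtorEq, not_false_eq_true, Pi.single_eq_of_ne, add_zero]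
      have hmin : ∀ x : Fin q ⊕ Fin k → ℝ, ∃ μ ∈ S, ∀ μ' ∈ S, mdot μ x ≤ mdot μ' x := fun x =>
        Finset.exists_min_image S (fun μ => mdot μ x) hSne
      -- `g` is bounded on the current face
      have hg : ∀ x, InSig U x → ∀ μ ∈ S, (∀ μ' ∈ S, mdot μ x ≤ mdot μ' x) →
          mdot μ x ≤ 2 * (Kc (n + 1) / ε) * psiL c x := by
        intro x hx μ hμ hμmin
        obtain ⟨h1, h2, h3, h4⟩ := hmove x hx (mdot μ x) (mdot_nonneg μ x hx.2.1) hμmin l₀
        have h5 := hub _ h1 h2
        rw [h3, h4] at h5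
        have h6 := hub x hx.2.2 (hx.inCone S)
        have h7 : |mdot μ x * (u (Sum.inl l₀) : ℝ)| ≤ 2 * ((Kc (n + 1) / ε) * psiL c x) := by
          have h8 : mdot μ x * (u (Sum.inl l₀) : ℝ)
              = (dot x u + mdot μ x * (u (Sum.inl l₀) : ℝ)) - dot x u := by ring
          rw [h8]
          refine (abs_sub _ _).trans ?_
          linarith only [h5, h6]
        have h8 : (1 : ℝ) ≤ |(u (Sum.inl l₀) : ℝ)| := by
          have : (1 : ℤ) ≤ |u (Sum.inl l₀)| := Int.one_le_abs hl₀
          exact_mod_cast this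
        rw [abs_mul, abs_of_nonneg (mdot_nonneg μ x hx.2.1)] at h7
        have h9 : mdot μ x ≤ mdot μ x * |(u (Sum.inl l₀) : ℝ)| :=
          le_mul_of_one_le_right (mdot_nonneg μ x hx.2.1) h8
        linarith only [h7, h9]
      -- Auerbach vectors
      obtain ⟨e, v, he, hv, -, hvx⟩ := auerbach
        (fun a : {ℓ : (Fin q ⊕ Fin k → ℝ) →ₗ[ℝ] ℝ // ∀ v, InSig U v → 0 ≤ ℓ v} => a.1)
        (psiL c) hpsisig
      have hvsig : ∀ i, InSig U (v i) := fun i => inSig_dual U (v i) (hv i).1
      have heD : (e : ℝ) ≤ ((q + k : ℕ) : ℝ) := by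
        have h1 : finrank ℝ (Fin q ⊕ Fin k → ℝ) = q + k := by
          rw [finrank_fintype_fun_eq_card]; simp only [Fintype.card_sum, Fintype.card_fin, Nat.add_left_cancel_iff]
        rw [h1] at he
        exact_mod_cast he
      have hadd : ∀ x ∈ {x | InSig U x}, ∀ y ∈ {x | InSig U x}, x + y ∈ {x | InSig U x} := by
        intro x hx y hy
        refine ⟨fun l => ?_, fun j => ?_, (perp U).add_mem hx.2.2 hy.2.2⟩
        · simp [hx.1 l, hy.1 l]
        · exact add_nonneg (hx.2.1 j) (hy.2.1 j)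
      have hsmul : ∀ a : ℝ, 0 ≤ a → ∀ x ∈ {x | InSig U x}, a • x ∈ {x | InSig U x} := by
        intro a ha x hx
        refine ⟨fun l => ?_, fun j => ?_, (perp U).smul_mem a hx.2.2⟩
        · simp [hx.1 l]
        · exact mul_nonneg ha (hx.2.1 j)
      have hzero : (0 : Fin q ⊕ Fin k → ℝ) ∈ {x | InSig U x} :=
        ⟨fun l => rfl, fun j => le_refl _, (perp U).zero_mem⟩
      have hsum : InSig U (∑ i, v i) := by
        have : ∀ s : Finset (Fin e), (∑ i ∈ s, v i) ∈ {x | InSig U x} := by
          intro s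
          induction s using Finset.induction_on with
          | empty => simpa using hzero
          | insert a s ha ih => rw [Finset.sum_insert ha]; exact hadd _ (hvsig a) _ ih
        exact this _
      obtain ⟨μs, hμs, hμsmin⟩ := hmin (∑ i, v i)
      let Bc : ℝ := 2 * ((q + k : ℕ) : ℝ) ^ 2 * Kc (n + 1) / ε
      have hBc : 0 ≤ Bc := by
        have := Kc_nonneg (n + 1)
        (clear * - this hε; positivity)
      have hB : ∀ x ∈ {x | InSig U x}, mdot μs x ≤ Bc * psiL c x := by
        intro x hx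
        obtain ⟨t, ht, hxt⟩ := hvx x (fun a => a.2 x hx)
        have h1 := hg _ hsum μs hμs hμsmin
        have h2 : psiL c (∑ i, v i) = e := by
          rw [map_sum, Finset.sum_congr rfl fun i _ => (hv i).2]
          simp only [Finset.sum_const, Finset.card_univ, Fintype.card_fin, nsmul_eq_mul, mul_one]
        rw [h2] at h1
        have h3 : ∀ i, mdot μs (v i) ≤ 2 * (Kc (n + 1) / ε) * e := by
          intro i
          refine le_trans ?_ h1
          rw [mdot_sum]
          exact Finset.single_le_sum (f := fun i => mdot μs (v i))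
            (fun i _ => mdot_nonneg μs (v i) (hvsig i).2.1) (Finset.mem_univ i)
        have hψx : 0 ≤ psiL c x := hpsinn x (hx.inCone S)
        calc mdot μs x = mdot μs (∑ i, t i • v i) := by rw [← hxt]
          _ = ∑ i, t i * mdot μs (v i) := by
              rw [mdot_sum]; exact Finset.sum_congr rfl fun i _ => mdot_smul _ _ _
          _ ≤ ∑ _i : Fin e, psiL c x * (2 * (Kc (n + 1) / ε) * e) := by
              refine Finset.sum_le_sum fun i _ => ?_
              have h4 : 0 ≤ mdot μs (v i) := mdot_nonneg μs (v i) (hvsig i).2.1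
              calc t i * mdot μs (v i) ≤ |t i| * mdot μs (v i) :=
                    mul_le_mul_of_nonneg_right (le_abs_self _) h4
                _ ≤ psiL c x * mdot μs (v i) := mul_le_mul_of_nonneg_right (ht i) h4
                _ ≤ _ := mul_le_mul_of_nonneg_left (h3 i) hψx
          _ = (2 * (Kc (n + 1) / ε) * psiL c x) * ((e : ℝ) ^ 2) := by
              simp only [psiL_apply, Finset.sum_const, Finset.card_univ, Fintype.card_fin, nsmul_eq_mul]; ring
          _ ≤ (2 * (Kc (n + 1) / ε) * psiL c x) * (((q + k : ℕ) : ℝ) ^ 2) := by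
              refine mul_le_mul_of_nonneg_left ?_ (by (clear * - hKnn hψx; positivity))
              exact pow_le_pow_left₀ (Nat.cast_nonneg e) heD 2
          _ = Bc * psiL c x := by simp only [Bc]; ring
      -- realizing a functional by a section
      have hreal : ∀ w : Fin q ⊕ Fin k → ℤ, ∃ s : ℕ × (Fin q ⊕ Fin k → ℤ), w ∈ L₀ →
          GoodSec M S c U (Fc (q + k) k (n + 1) / ε) s ∧
          ∀ x ∈ perp U, InCone S x → dot x w < 0 → NegSec S s x := by
        intro w
        by_cases hw : w ∈ L₀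
        · have hwM := hL₀M w hw
          have hwb : ∀ x ∈ perp U, InCone S x → -((Tc (n + 1) / ε) * psiL c x) ≤ dot x w :=
            fun x hx hxc => hL₀b w hw x hx ((inCone_iff r hr S x).mp hxc)
          let j : ℕ := Finset.univ.sup (fun l => (-w (Sum.inl l)).toNat)
          have hj1 : ∀ l, -w (Sum.inl l) ≤ j := by
            intro l
            have h1 : (-w (Sum.inl l)).toNat ≤ j :=
              Finset.le_sup (f := fun l => (-w (Sum.inl l)).toNat) (Finset.mem_univ l)
            have h2 := Int.self_le_toNat (-w (Sum.inl l))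
            omega
          have hj2 : j = 0 ∨ ∃ l, w (Sum.inl l) = -j := by
            rcases Nat.eq_zero_or_pos j with h0 | h0
            · exact Or.inl h0
            · right
              have hne : (Finset.univ : Finset (Fin q)).Nonempty := by
                by_contra hcon
                rw [Finset.not_nonempty_iff_eq_empty] at hcon
                simp only [hcon, Finset.sup_empty, Nat.bot_eq_zero, gt_iff_lt, lt_self_iff_false, j] at h0
              obtain ⟨l, _, hl⟩ := Finset.exists_mem_eq_sup _ hne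
                (fun l => (-w (Sum.inl l)).toNat)
              refine ⟨l, ?_⟩
              have h1 : j = (-w (Sum.inl l)).toNat := hl
              omega
          obtain ⟨ν, hν1, hν2, hν3⟩ := rounding S M hSM {x | InSig U x} hzero hadd hsmul
            (fun x hx => hx.2.1) (dotL w + (Tc (n + 1) / ε) • psiL c) j
            (by
              intro x hx
              obtain ⟨μ, hμ, hμmin⟩ := hmin x
              refine ⟨μ, hμ, ?_⟩
              show (j : ℝ) * mdot μ x ≤ dot x w + (Tc (n + 1) / ε) * psiL c x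
              rcases hj2 with h0 | ⟨l, hl⟩
              · rw [h0]
                have := hwb x hx.2.2 (hx.inCone S)
                simp only [Nat.cast_zero, zero_mul]
                linarith only [this]
              · obtain ⟨h1, h2, h3, h4⟩ := hmove x hx (mdot μ x) (mdot_nonneg μ x hx.2.1) hμmin l
                have h5 := hwb _ h1 h2
                rw [h3, h4, hl] at h5
                push_cast at h5
                linarith only [h5])
            μs hμs (fun x => Bc * psiL c x) hB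
          refine ⟨(j, Sum.elim (fun l => w (Sum.inl l) + j) (fun i => w (Sum.inr i) - ν i)),
            fun _ => ⟨⟨?_, ?_, ?_, ?_⟩, ?_⟩⟩
          · intro l
            simp only [Sum.elim_inl]
            have := hj1 l
            linarith only [this]
          · rcases hj2 with h0 | ⟨l, hl⟩
            · exact Or.inl h0
            · refine Or.inr ⟨l, ?_⟩
              simp only [Sum.elim_inl, hl]
              ring
          · intro μ hμ
            have h1 : (Sum.elim (fun l => w (Sum.inl l) + j) (fun i => w (Sum.inr i) - ν i)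
                + (j : ℤ) • extv μ : Fin q ⊕ Fin k → ℤ)
                = w + Sum.elim (fun _ => 0) (fun i => (j : ℤ) * (μ i : ℤ) - ν i) := by
              ext i
              rcases i with l | i
              · simp only [extv, Int.reduceNeg, zsmul_eq_mul, Int.cast_natCast, Pi.add_apply, Sum.elim_inl, Pi.mul_apply, Pi.natCast_apply, mul_neg, mul_one, add_neg_cancel_right, add_zero]
              · simp only [extv, Pi.add_apply, Pi.smul_apply, Sum.elim_inr, smul_eq_mul]
                ring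
            show (Sum.elim (fun l => w (Sum.inl l) + j) (fun i => w (Sum.inr i) - ν i)
                + (j : ℤ) • extv μ : Fin q ⊕ Fin k → ℤ) ∈ M
            rw [h1]
            exact M.add_mem hwM (hν1 μ hμ)
          · intro x hx
            have h1 : dot x (Sum.elim (fun l => w (Sum.inl l) + (j : ℤ))
                (fun i => w (Sum.inr i) - (ν i : ℤ))) = dot x w - mdot ν x := by
              simp only [dot, mdot, Fintype.sum_sum_type, Sum.elim_inl, Sum.elim_inr, hx.1,
                zero_mul, Finset.sum_const_zero, zero_add]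
              rw [← Finset.sum_sub_distrib]
              refine Finset.sum_congr rfl fun i _ => ?_
              push_cast
              ring
            show -((Fc (q + k) k (n + 1) / ε) * psiL c x) ≤ dot x _
            rw [h1]
            have h2 := hν3 x hx
            have h3 : (dotL w + (Tc (n + 1) / ε) • psiL c : (Fin q ⊕ Fin k → ℝ) →ₗ[ℝ] ℝ) x
                = dot x w + (Tc (n + 1) / ε) * psiL c x := rfl
            rw [h3] at h2
            have h5 : (Fc (q + k) k (n + 1) / ε) * psiL c x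
                = (Tc (n + 1) / ε) * psiL c x + (k + 1) * (Bc * psiL c x)
                  + ((Fc (q + k) k n + 2 * Kc (n + 1) + 1) / ε) * psiL c x := by
              simp only [Fc, Bc]; ring
            have h6 : 0 ≤ psiL c x := hpsinn x (hx.inCone S)
            have h8 : 0 ≤ ((Fc (q + k) k n + 2 * Kc (n + 1) + 1) / ε) * psiL c x := by
              have := Kc_nonneg (n + 1)
              have := Fc_nonneg (q + k) k n
              positivity
            rw [h5]
            linarith only [h2, h8]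
          · intro x _ _ hneg γ hγ
            have h1 : dot x (Sum.elim (fun l => w (Sum.inl l) + (j : ℤ))
                (fun i => w (Sum.inr i) - (ν i : ℤ)))
                = dot x w + j * (∑ l, x (Sum.inl l)) - mdot ν x := by
              simp only [dot, mdot, Fintype.sum_sum_type, Sum.elim_inl, Sum.elim_inr]
              rw [Finset.mul_sum]
              have h2 : ∀ l, x (Sum.inl l) * ((w (Sum.inl l) + (j : ℤ) : ℤ) : ℝ)
                  = x (Sum.inl l) * (w (Sum.inl l) : ℝ) + j * x (Sum.inl l) := by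
                intro l; push_cast; ring
              have h3 : ∀ i, x (Sum.inr i) * ((w (Sum.inr i) - (ν i : ℤ) : ℤ) : ℝ)
                  = x (Sum.inr i) * (w (Sum.inr i) : ℝ) - ν i * x (Sum.inr i) := by
                intro i; push_cast; ring
              simp only [h2, h3, Finset.sum_add_distrib, Finset.sum_sub_distrib]
              ring
            show (j : ℝ) * (γ - ∑ l, x (Sum.inl l)) + dot x _ < 0
            rw [h1]
            have h2 := hν2 x γ hγ
            linarith only [hneg, h2]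
        · exact ⟨(0, 0), fun h => absurd h hw⟩
      choose F hF using hreal
      refine ⟨L₀.map F, by rw [List.length_map, hL₀len], ?_, ?_⟩
      · intro s hs
        obtain ⟨w, hw, rfl⟩ := List.mem_map.mp hs
        exact (hF w hw).1
      · intro x hx hxc hx0
        obtain ⟨w, hw, hneg⟩ := hL₀neg x hx ((inCone_iff r hr S x).mp hxc) hx0
        exact ⟨F w, List.mem_map.mpr ⟨w, hw, rfl⟩, (hF w hw).2 x hx hxc hneg⟩

end Main

/-- **Part (A)**: existence of `2d` bounded semi-invariant sections. -/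
theorem sections_exist (q k : ℕ) (ε : ℝ) (hε : 0 < ε) : ∃ C : ℝ,
    ∀ (M : AddSubgroup (Fin q ⊕ Fin k → ℤ)) (r : ℕ), 0 < r → (∀ u, (r:ℤ) • u ∈ M) →
    ∀ (S : Finset (Fin k → ℕ)), S.Nonempty →
      (∀ μ ∈ S, ∀ μ' ∈ S, (Sum.elim (fun _ => 0) (fun j => (μ j : ℤ) - μ' j)) ∈ M) →
    ∀ (c : Fin k → ℝ), (∀ j, 0 < c j) →
    (∀ x : Fin q ⊕ Fin k → ℝ, InCone S x → (∀ u ∈ M, ∃ z : ℤ, ∑ i, x i * u i = z) → x ≠ 0 →
      ε ≤ ∑ j, c j * x (Sum.inr j)) →
    ∃ L : List (ℕ × (Fin q ⊕ Fin k → ℤ)), L.length = 2 * (q + k) ∧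
      (∀ s ∈ L, (∀ l, 0 ≤ s.2 (Sum.inl l)) ∧ (s.1 = 0 ∨ ∃ l, s.2 (Sum.inl l) = 0) ∧
        (∀ μ ∈ S, s.2 + (s.1:ℤ) • Sum.elim (fun _ => (-1:ℤ)) (fun j => (μ j : ℤ)) ∈ M) ∧
        (∀ j, -C * c j ≤ s.2 (Sum.inr j))) ∧
      ∀ x : Fin q ⊕ Fin k → ℝ, InCone S x → x ≠ 0 → ∃ s ∈ L, ∀ γ : ℝ,
        (∀ μ ∈ S, γ ≤ ∑ j, μ j * x (Sum.inr j)) →
          s.1 * (γ - ∑ l, x (Sum.inl l)) + ∑ i, (s.2 i) * x i < 0 := by
  refine ⟨Fc (q + k) k (q + k) / ε, ?_⟩
  intro M r hr hM S hSne hSM c hc hlc
  have hperp : perp (∅ : Set (Fin q ⊕ Fin k → ℤ)) = ⊤ := by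
    ext x
    simp only [Submodule.mem_top, iff_true]
    intro u hu
    exact absurd hu (Set.notMem_empty u)
  obtain ⟨L, hL1, hL2, hL3⟩ := staged (AddSubgroup.toIntSubmodule M) r hr hM S hSne hSM c hc ε hε
    hlc (q + k) ∅ (Set.empty_subset _) (fun u hu => absurd hu (Set.notMem_empty u)) (by
      rw [hperp, finrank_top, finrank_fintype_fun_eq_card]; simp only [Fintype.card_sum, Fintype.card_fin, Nat.add_left_cancel_iff])
  refine ⟨L, hL1, ?_, ?_⟩
  · intro s hs
    obtain ⟨h1, h2, h3, h4⟩ := hL2 s hs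
    refine ⟨h1, h2, h3, ?_⟩
    intro j
    have hv : InSig (∅ : Set (Fin q ⊕ Fin k → ℤ)) (Pi.single (Sum.inr j) 1) := by
      refine ⟨?_, ?_, ?_⟩
      · intro l; simp
      · intro j'
        by_cases hj : j' = j
        · subst hj; simp
        · simp [hj]
      · rw [hperp]; exact Submodule.mem_top
    have h5 := h4 _ hv
    have h6 : psiL c (Pi.single (Sum.inr j) 1 : Fin q ⊕ Fin k → ℝ) = c j := by
      simp only [psiL_apply, Pi.single_apply, Sum.inr.injEq, mul_ite, mul_one, mul_zero, Finset.sum_ite_eq', Finset.mem_univ, ↓reduceIte]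
    have h7 : dot (Pi.single (Sum.inr j) 1 : Fin q ⊕ Fin k → ℝ) s.2 = s.2 (Sum.inr j) := by
      simp only [dot, Pi.single_apply, ite_mul, one_mul, zero_mul, Finset.sum_ite_eq', Finset.mem_univ, ↓reduceIte]
    rw [h6, h7] at h5
    linarith only [h5]
  · intro x hx hx0
    obtain ⟨s, hs, hneg⟩ := hL3 x (by rw [hperp]; exact Submodule.mem_top) hx hx0
    refine ⟨s, hs, ?_⟩
    intro γ hγ
    have h1 := hneg γ hγ
    have h2 : dot x s.2 = ∑ i, ((s.2 i : ℤ) : ℝ) * x i :=
      Finset.sum_congr rfl fun i _ => mul_comm _ _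
    rw [h2] at h1
    exact h1

end Vale.Agent.P283
end
end

section

section

/-!
The core positivity statement on `L = ℂ(t)`.
-/

set_option linter.style.haveILetI false

namespace Vale.Agent.P283

open scoped KaehlerDifferential
open MvPolynomial Finset

section Lists

theorem list_sum_le {ι : Type} (l : List ι) (f : ι → ℤ) (c : ℤ) (h : ∀ s ∈ l, f s ≤ c) :
    (l.map f).sum ≤ l.length * c := by
  induction l with
  | nil => simp
  | cons a l ih =>
    simp only [List.map_cons, List.sum_cons, List.length_cons]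
    have h1 := h a (by simp)
    have h2 := ih fun s hs => h s (by simp [hs])
    push_cast
    linarith only [h1, h2]

theorem list_sum_neg {ι : Type} (l : List ι) (f : ι → ℤ) (h : ∀ s ∈ l, f s ≤ 0)
    (h' : ∃ s ∈ l, f s < 0) : (l.map f).sum < 0 := by
  induction l with
  | nil => obtain ⟨s, hs, _⟩ := h'; simp at hs
  | cons a l ih =>
    simp only [List.map_cons, List.sum_cons]
    have h1 := h a (by simp)
    have h3 : ∀ s ∈ l, f s ≤ 0 := fun s hs => h s (by simp [hs])
    have h4 := list_sum_le l f 0 h3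
    obtain ⟨s, hs, hs'⟩ := h'
    rcases List.mem_cons.1 hs with rfl | hs
    · linarith only [h4, hs']
    · have := ih h3 ⟨s, hs, hs'⟩
      linarith

end Lists

section Eigen

variable {L : Type} [Field L] [Algebra ℂ L] (D : Derivation ℂ L L) (x : L)

/-- `a` is an eigenvector of `x D` with eigenvalue the integer `α`. -/
def Eig (α : ℤ) (a : L) : Prop := x * D a = (α : L) * a

theorem Eig.mul {α β : ℤ} {a b : L} (ha : Eig D x α a) (hb : Eig D x β b) :
    Eig D x (α + β) (a * b) := by
  unfold Eig at *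
  rw [Derivation.leibniz, smul_eq_mul, smul_eq_mul]
  push_cast
  linear_combination b * ha + a * hb

theorem Eig.one : Eig D x 0 1 := by
  unfold Eig; simp

theorem Eig.pow {α : ℤ} {a : L} (ha : Eig D x α a) (n : ℕ) : Eig D x (n * α) (a ^ n) := by
  induction n with
  | zero => simpa using Eig.one D x
  | succ n ih =>
    rw [pow_succ]
    have := ih.mul D x ha
    rwa [show (((n + 1 : ℕ) : ℤ) * α) = n * α + α by push_cast; ring]

theorem Eig.inv {α : ℤ} {a : L} (ha : Eig D x α a) (ha0 : a ≠ 0) : Eig D x (-α) a⁻¹ := by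
  unfold Eig at *
  rw [Derivation.leibniz_inv, smul_eq_mul]
  push_cast
  field_simp
  linear_combination -ha

theorem Eig.zpow {α : ℤ} {a : L} (ha : Eig D x α a) (ha0 : a ≠ 0) (n : ℤ) :
    Eig D x (n * α) (a ^ n) := by
  obtain ⟨m, rfl | rfl⟩ := n.eq_nat_or_neg
  · rw [zpow_natCast]; exact ha.pow D x m
  · rw [zpow_neg, zpow_natCast, neg_mul]
    exact (ha.pow D x m).inv D x (pow_ne_zero _ ha0)

theorem Eig.prod {ι : Type} (s : Finset ι) (α : ι → ℤ) (a : ι → L)
    (h : ∀ i ∈ s, Eig D x (α i) (a i)) : Eig D x (∑ i ∈ s, α i) (∏ i ∈ s, a i) := by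
  classical
  induction s using Finset.induction_on with
  | empty => simpa using Eig.one D x
  | insert i s hi ih =>
    rw [Finset.sum_insert hi, Finset.prod_insert hi]
    exact (h i (Finset.mem_insert_self _ _)).mul D x
      (ih fun j hj => h j (Finset.mem_insert_of_mem hj))

end Eigen

section Mono

variable {σ L : Type} [Fintype σ] [Field L] [Algebra ℂ L] {t : σ → L} (ht : IsCoords t)
variable {w : AddValuation L (WithTop ℤ)} (B : Module.Basis σ L (Ω[L⁄ℂ]))
  (hB : ∀ i, B i = KaehlerDifferential.D ℂ L (t i))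
include hB

omit [Fintype σ] in
theorem eig_coord [DecidableEq σ] (i j : σ) :
    Eig (pd B i) (t i) (if j = i then 1 else 0) (t j) := by
  unfold Eig
  rw [pd_self B hB]
  by_cases h : j = i
  · subst h; simp
  · simp [h]

/-- The Laurent monomials are eigenvectors. -/
theorem eig_mono (ht : IsCoords t) (i : σ) (e : σ → ℤ) :
    Eig (pd B i) (t i) (e i) (∏ j, t j ^ e j) := by
  classical
  have h := Eig.prod (pd B i) (t i) Finset.univ (fun j => e j * (if j = i then 1 else 0))
    (fun j => t j ^ e j) (fun j _ => (eig_coord B hB i j).zpow _ _ (ht.ne_zero j) (e j))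
  simpa only [mul_ite, mul_one, mul_zero, sum_ite_eq', mem_univ, ↓reduceIte] using h

theorem theta_aeval (i : σ) (p : MvPolynomial σ ℂ) :
    t i * pd B i (aeval t p)
      = ∑ n ∈ p.support, ((n i : ℕ) : L) * (aeval t (monomial n (p.coeff n))) := by
  classical
  conv_lhs => rw [p.as_sum]
  rw [map_sum, map_sum, Finset.mul_sum]
  apply Finset.sum_congr rfl
  intro n _
  rw [aeval_monomial, Finsupp.prod_fintype _ _ (by simp)]
  have h := Eig.prod (pd B i) (t i) Finset.univ (fun j => n j * (if j = i then 1 else 0))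
    (fun j => t j ^ n j) (fun j _ => (eig_coord B hB i j).pow _ _ (n j))
  have h2 : (∑ j, ((n j : ℕ) : ℤ) * (if j = i then 1 else 0)) = n i := by simp only [mul_ite, mul_one, mul_zero, sum_ite_eq', mem_univ, ↓reduceIte]
  rw [h2] at h
  unfold Eig at h
  rw [Derivation.leibniz, Derivation.map_algebraMap, smul_zero, add_zero, smul_eq_mul]
  push_cast at h ⊢
  linear_combination (algebraMap ℂ L (p.coeff n)) * h

/-- If all logarithmic derivations `tᵢ ∂/∂tᵢ` do not lower `w`, then `w` of a polynomial is at most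
the value of each of its monomials. -/
theorem val_le_monomial (hconst : ∀ c : ℂ, c ≠ 0 → w (algebraMap ℂ L c) = 0)
    (hθ : ∀ i f, w f ≤ w (t i * pd B i f)) (N : ℕ) :
    ∀ p : MvPolynomial σ ℂ, p.support.card ≤ N → ∀ m ∈ p.support,
      w (aeval t p) ≤ w (∏ j, t j ^ m j) := by
  classical
  induction N with
  | zero =>
    intro p hp m hm
    rw [Nat.le_zero, Finset.card_eq_zero] at hp
    rw [hp] at hm; simp at hm
  | succ N ih =>
    intro p hp m hm
    by_cases hall : ∀ m' ∈ p.support, m' = m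
    · have h1 : p = monomial m (p.coeff m) := by
        conv_lhs => rw [p.as_sum]
        have h2 : p.support = {m} := Finset.eq_singleton_iff_unique_mem.2 ⟨hm, hall⟩
        rw [h2, Finset.sum_singleton]
      rw [h1, aeval_monomial, Finsupp.prod_fintype _ _ (by simp), AddValuation.map_mul,
        hconst _ (mem_support_iff.1 hm), zero_add]
    · push Not at hall
      obtain ⟨m', hm', hne⟩ := hall
      obtain ⟨i, hi⟩ : ∃ i, m' i ≠ m i := by
        by_contra hcon
        push Not at hcon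
        exact hne (Finsupp.ext hcon)
      let p' : MvPolynomial σ ℂ := ∑ n ∈ p.support,
        monomial n (((n i : ℂ) - (m' i : ℂ)) * p.coeff n)
      have hcoeff : ∀ n, p'.coeff n = ((n i : ℂ) - (m' i : ℂ)) * p.coeff n := by
        intro n
        simp only [p', coeff_sum, coeff_monomial, Finset.sum_ite_eq']
        split_ifs with h
        · rfl
        · rw [notMem_support_iff.1 h]; simp
      have hsub : p'.support ⊆ p.support.erase m' := by
        intro n hn
        rw [mem_support_iff, hcoeff] at hn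
        rw [Finset.mem_erase, mem_support_iff]
        refine ⟨?_, right_ne_zero_of_mul hn⟩
        rintro rfl
        exact left_ne_zero_of_mul hn (sub_self _)
      have hmem : m ∈ p'.support := by
        rw [mem_support_iff, hcoeff]
        apply mul_ne_zero _ (mem_support_iff.1 hm)
        rw [sub_ne_zero]
        exact_mod_cast Ne.symm hi
      have hcard : p'.support.card ≤ N := by
        have h1 := Finset.card_le_card hsub
        rw [Finset.card_erase_of_mem hm'] at h1
        omega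
      have h1 := ih p' hcard m hmem
      refine le_trans ?_ h1
      have h2 : aeval t p' = t i * pd B i (aeval t p) - (m' i : L) * aeval t p := by
        rw [theta_aeval B hB i p]
        conv_rhs => rw [show aeval t p = ∑ n ∈ p.support, aeval t (monomial n (p.coeff n)) by
          rw [← map_sum]; congr 1; exact p.as_sum]
        rw [Finset.mul_sum, ← Finset.sum_sub_distrib, map_sum]
        apply Finset.sum_congr rfl
        intro n _
        rw [aeval_monomial, aeval_monomial, map_mul, map_sub]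
        simp only [map_natCast]
        ring
      rw [h2]
      apply AddValuation.map_le_sub
      · exact hθ i _
      · rw [AddValuation.map_mul]
        have h3 : 0 ≤ w ((m' i : ℕ) : L) := by
          by_cases h0 : m' i = 0
          · rw [h0]; simp only [Nat.cast_zero, AddValuation.map_zero, le_top]
          · have : ((m' i : ℕ) : L) = algebraMap ℂ L (m' i : ℂ) := by simp only [map_natCast]
            rw [this, hconst _ (by exact_mod_cast h0)]
        calc w (aeval t p) = 0 + w (aeval t p) := (zero_add _).symm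
          _ ≤ _ := by (clear * - h3; gcongr)

end Mono

section Positivity

variable {q k : ℕ} {L : Type} [Field L] [Algebra ℂ L] {t : Fin q ⊕ Fin k → L}

/-- The monomial `x₀^{s.1} t^{s.2}`. -/
noncomputable def phi (t : Fin q ⊕ Fin k → L) (x0 : L) (s : ℕ × (Fin q ⊕ Fin k → ℤ)) : L :=
  x0 ^ s.1 * ∏ i, t i ^ s.2 i

/-- The exponents of the monomials of `g`. -/
noncomputable def supp (g : MvPolynomial (Fin k) ℂ) : Finset (Fin k → ℕ) :=
  g.support.image fun m : Fin k →₀ ℕ => (m : Fin k → ℕ)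

theorem phi_ne_zero (ht : IsCoords t) {x0 : L} (h0 : x0 ≠ 0) (s : ℕ × (Fin q ⊕ Fin k → ℤ)) :
    phi t x0 s ≠ 0 :=
  mul_ne_zero (pow_ne_zero _ h0) (Finset.prod_ne_zero_iff.2 fun i _ =>
    zpow_ne_zero _ (ht.ne_zero i))

theorem aeval_inr (g : MvPolynomial (Fin k) ℂ) :
    aeval (fun j => t (Sum.inr j)) g = aeval t (rename Sum.inr g) := by
  rw [aeval_rename]; rfl

theorem x0_ne_zero (ht : IsCoords t) {g : MvPolynomial (Fin k) ℂ} (hg : g ≠ 0) {x0 : L}
    (hx0 : x0 * ∏ l, t (Sum.inl l) = aeval (fun j => t (Sum.inr j)) g) : x0 ≠ 0 := by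
  rintro rfl
  rw [zero_mul, aeval_inr] at hx0
  have h1 : rename (Sum.inr : Fin k → Fin q ⊕ Fin k) g ≠ 0 := by
    intro h
    exact hg (rename_injective _ Sum.inr_injective (by rw [h, map_zero]))
  exact ht.aeval_ne_zero h1 hx0.symm

theorem eig_phi (ht : IsCoords t) (B : Module.Basis (Fin q ⊕ Fin k) L (Ω[L⁄ℂ]))
    (hB : ∀ i, B i = KaehlerDifferential.D ℂ L (t i)) {g : MvPolynomial (Fin k) ℂ} {x0 : L}
    (hx0 : x0 * ∏ l, t (Sum.inl l) = aeval (fun j => t (Sum.inr j)) g)
    (s : ℕ × (Fin q ⊕ Fin k → ℤ)) (hs : s.1 = 0 ∨ ∃ l, s.2 (Sum.inl l) = 0) :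
    phi t x0 s = 1 ∨ ∃ i, ∃ α : ℤ, α ≠ 0 ∧ Eig (pd B i) (t i) α (phi t x0 s) := by
  classical
  by_cases h0 : s.1 = 0
  · by_cases h1 : s.2 = 0
    · left; simp only [phi, h0, pow_zero, h1, Pi.zero_apply, zpow_ofNat, prod_const_one, mul_one]
    · right
      obtain ⟨i, hi⟩ := Function.ne_iff.1 h1
      refine ⟨i, s.2 i, hi, ?_⟩
      unfold phi
      rw [h0, pow_zero, one_mul]
      exact eig_mono B hB ht i s.2
  · right
    obtain ⟨l, hl⟩ := hs.resolve_left h0
    refine ⟨Sum.inl l, -(s.1 : ℤ), by simpa using h0, ?_⟩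
    have h1 := eig_mono B hB ht (Sum.inl l) s.2
    rw [hl] at h1
    -- the eigenvalue of `x0`
    have hθg : pd B (Sum.inl l) (aeval (fun j => t (Sum.inr j)) g) = 0 := by
      have h2 : ∀ p : MvPolynomial (Fin k) ℂ,
          pd B (Sum.inl l) (aeval (fun j => t (Sum.inr j)) p) = 0 := by
        intro p
        induction p using MvPolynomial.induction_on with
        | C a => simp
        | add p q hp hq => rw [map_add, map_add, hp, hq, add_zero]
        | mul_X p i hp =>
          rw [map_mul, Derivation.leibniz, aeval_X, hp, pd_self B hB]; simp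
      exact h2 g
    have hprod : Eig (pd B (Sum.inl l)) (t (Sum.inl l)) 1 (∏ l', t (Sum.inl l')) := by
      have h := Eig.prod (pd B (Sum.inl l)) (t (Sum.inl l)) (Finset.univ : Finset (Fin q))
        (fun l' => if Sum.inl l' = (Sum.inl l : Fin q ⊕ Fin k) then 1 else 0)
        (fun l' => t (Sum.inl l')) (fun l' _ => eig_coord B hB (Sum.inl l) (Sum.inl l'))
      have h2 : (∑ l' : Fin q, (if (Sum.inl l' : Fin q ⊕ Fin k) = Sum.inl l then (1 : ℤ) else 0))
          = 1 := by
        simp only [Sum.inl.injEq, sum_ite_eq', mem_univ, ↓reduceIte]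
      rwa [h2] at h
    have hprod0 : (∏ l', t (Sum.inl l')) ≠ 0 :=
      Finset.prod_ne_zero_iff.2 fun l' _ => ht.ne_zero _
    have hx : Eig (pd B (Sum.inl l)) (t (Sum.inl l)) (-1) x0 := by
      have h3 : Eig (pd B (Sum.inl l)) (t (Sum.inl l)) 0
          (aeval (fun j => t (Sum.inr j)) g) := by
        unfold Eig; rw [hθg]; simp
      have h4 := h3.mul _ _ (hprod.inv _ _ hprod0)
      rw [← hx0] at h4
      rw [zero_add] at h4
      have h6 : (x0 * ∏ l', t (Sum.inl l')) * (∏ l', t (Sum.inl l'))⁻¹ = x0 := by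
        field_simp
      rwa [h6] at h4
    have h7 := (hx.pow _ _ s.1).mul _ _ h1
    unfold phi
    simpa only [Fintype.prod_sum_type, Int.reduceNeg, mul_neg, mul_one, add_zero] using h7

theorem ov_phi (ht : IsCoords t) {x0 : L} (h0 : x0 ≠ 0) (w : AddValuation L (WithTop ℤ))
    (s : ℕ × (Fin q ⊕ Fin k → ℤ)) :
    ov w (phi t x0 s) = s.1 * ov w x0 + ∑ i, s.2 i * ov w (t i) := by
  unfold phi
  rw [ov_mul w (pow_ne_zero _ h0) (Finset.prod_ne_zero_iff.2 fun i _ =>
    zpow_ne_zero _ (ht.ne_zero i)), ov_pow w h0, ov_prod _ _ fun i _ => zpow_ne_zero _ (ht.ne_zero i)]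
  congr 1
  apply Finset.sum_congr rfl
  intro i _
  rw [ov_zpow w (ht.ne_zero i)]

theorem aeval_nonneg {σ : Type} {t : σ → L} {w : AddValuation L (WithTop ℤ)}
    (hconst : ∀ c : ℂ, c ≠ 0 → w (algebraMap ℂ L c) = 0) (h1 : ∀ i, 0 ≤ w (t i))
    (p : MvPolynomial σ ℂ) : 0 ≤ w (aeval t p) := by
  induction p using MvPolynomial.induction_on with
  | C a =>
    by_cases ha : a = 0
    · rw [ha]; simp
    · rw [algHom_C, hconst a ha]
  | add p q hp hq => rw [map_add]; exact nonneg_add w hp hq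
  | mul_X p i hp =>
    rw [map_mul, aeval_X]
    exact nonneg_mul w hp (h1 i)

/-- **Core positivity.** -/
theorem core_positivity (hd : 0 < q + k) (ht : IsCoords t) {g : MvPolynomial (Fin k) ℂ}
    (hg : g ≠ 0) {x0 : L}
    (hx0 : x0 * ∏ l, t (Sum.inl l) = aeval (fun j => t (Sum.inr j)) g)
    {w : AddValuation L (WithTop ℤ)} (hw : IsDivisorial (q + k) w) (h1 : ∀ i, 0 ≤ w (t i))
    (h0 : 0 ≤ w x0) {m : ℤ} (hm : FormOrder (q + k) w (logForm t) m)
    (Ls : List (ℕ × (Fin q ⊕ Fin k → ℤ))) (hL : Ls.length = 2 * (q + k))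
    (hLs : ∀ s ∈ Ls, s.1 = 0 ∨ ∃ l, s.2 (Sum.inl l) = 0)
    (hneg : ∀ x : Fin q ⊕ Fin k → ℝ, InCone (supp g) x → x ≠ 0 → ∃ s ∈ Ls, ∀ γ : ℝ,
        (∀ μ ∈ supp g, γ ≤ ∑ j, μ j * x (Sum.inr j)) →
          s.1 * (γ - ∑ l, x (Sum.inl l)) + ∑ i, (s.2 i) * x i < 0)
    (N : ℤ) (hN : 2 * (q + k) < N) :
    (∀ s ∈ Ls, 1 + phi t x0 s ≠ 0) ∧
    (Ls.map fun s => ov w (1 + phi t x0 s)).sum < N * (m + 1) := by
  classical
  haveI := ht.essFiniteType
  haveI : CharZero L := charZero_of_injective_algebraMap (algebraMap ℂ L).injective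
  have htr : Algebra.trdeg ℂ L ≤ ((q + k : ℕ) : Cardinal) := by
    rw [ht.trdeg_eq]; simp only [Fintype.card_sum, Fintype.card_fin, Nat.cast_add, Std.le_refl]
  obtain ⟨B', hB'⟩ := exists_kaehler_basis t ht.isTranscendenceBasis
  let E : Fin (q + k) ≃ Fin q ⊕ Fin k := (finSumFinEquiv (m := q) (n := k)).symm
  let B := B'.reindex E.symm
  have hB : ∀ i, B i = KaehlerDifferential.D ℂ L ((t ∘ E) i) := by
    intro i
    simp only [B, Module.Basis.reindex_apply, Equiv.symm_symm, hB', Function.comp]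
  have hpd : ∀ i, pd B i = pd B' (E i) := by
    intro i
    ext f
    simp only [pd_apply, B, Module.Basis.repr_reindex_apply, Equiv.symm_symm]
  have htt : ∀ i, (t ∘ E) i ≠ 0 := fun i => ht.ne_zero _
  have hm' : FormOrder (q + k) w (dlogForm (t ∘ E)) m := hm
  have hm1 := dlog_order hd htr hw _ htt hm'
  have hx00 := x0_ne_zero ht hg hx0
  have hθ : ∀ i f, w f ≤ w (t i * pd B' i f) + ((m + 1 : ℤ) : WithTop ℤ) := by
    intro i f
    have := dlog_derivation hd htr hw htt B hB hm' (E.symm i) f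
    rw [hpd] at this
    simpa only [AddValuation.map_mul, WithTop.coe_add, WithTop.coe_one, ge_iff_le, Function.comp_apply,     Equiv.apply_symm_apply] using this
  -- each factor
  have hone : ∀ s ∈ Ls, 1 + phi t x0 s ≠ 0 ∧ ov w (1 + phi t x0 s) ≤ m + 1 ∧
      (ov w (phi t x0 s) < 0 → ov w (1 + phi t x0 s) < 0) := by
    intro s hs
    have hφ0 := phi_ne_zero ht hx00 s
    have hne : 1 + phi t x0 s ≠ 0 := by
      intro h
      have h2 : phi t x0 s = -1 := by linear_combination h
      rcases eig_phi ht B' hB' hx0 s (hLs s hs) with h3 | ⟨i, α, hα, h3⟩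
      · rw [h2] at h3
        have h5 : (2 : L) = 0 := by linear_combination -h3
        exact two_ne_zero h5
      · unfold Eig at h3
        rw [h2, map_neg, Derivation.map_one_eq_zero] at h3
        have : (α : L) = 0 := by linear_combination h3
        exact hα (by exact_mod_cast this)
    refine ⟨hne, ?_, ?_⟩
    · rcases lt_trichotomy (ov w (phi t x0 s)) 0 with h | h | h
      · have h2 : w (1 + phi t x0 s) = w (phi t x0 s) := by
          apply AddValuation.map_add_eq_of_lt_right
          rw [AddValuation.map_one, ← coe_ov w hφ0]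
          exact_mod_cast h
        have h3 : ov w (1 + phi t x0 s) = ov w (phi t x0 s) := by
          unfold ov; rw [h2]
        omega
      · rcases eig_phi ht B' hB' hx0 s (hLs s hs) with h3 | ⟨i, α, hα, h3⟩
        · rw [h3]
          have h4 : ov w (1 + 1 : L) = 0 := by
            apply ov_eq_of
            have : (1 + 1 : L) = algebraMap ℂ L 2 := by rw [map_ofNat]; norm_num
            rw [this, hw.const 2 (by norm_num)]; rfl
          rw [h4]; omega
        · have h4 := one_add_le hd htr hw htt B hB hm' (E.symm i) (phi t x0 s) (α : ℂ)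
            (by exact_mod_cast hα) ?_ ?_
          · rw [← coe_ov w hne] at h4
            exact_mod_cast h4
          · rw [hpd]
            simpa only [Function.comp_apply, Equiv.apply_symm_apply, map_intCast, Eig] using h3
          · rw [← coe_ov w hφ0, h]; rfl
      · have h2 : w (1 + phi t x0 s) = w 1 := by
          apply AddValuation.map_add_eq_of_lt_left
          rw [AddValuation.map_one, ← coe_ov w hφ0]
          exact_mod_cast h
        have h3 : ov w (1 + phi t x0 s) = 0 := by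
          apply ov_eq_of
          rw [h2, AddValuation.map_one]; rfl
        omega
    · intro h
      have h2 : w (1 + phi t x0 s) = w (phi t x0 s) := by
        apply AddValuation.map_add_eq_of_lt_right
        rw [AddValuation.map_one, ← coe_ov w hφ0]
        exact_mod_cast h
      have h3 : ov w (1 + phi t x0 s) = ov w (phi t x0 s) := by
        unfold ov; rw [h2]
      omega
  refine ⟨fun s hs => (hone s hs).1, ?_⟩
  rcases lt_or_eq_of_le hm1 with hlt | heq
  · -- positive log order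
    have h2 := list_sum_le Ls (fun s => ov w (1 + phi t x0 s)) (m + 1) fun s hs => (hone s hs).2.1
    rw [hL] at h2
    have h3 : (0 : ℤ) < m + 1 := by omega
    push_cast at h2
    nlinarith only [hlt, h2, hN]
  · -- log order zero: `w` is monomial
    have hm0 : m + 1 = 0 := by omega
    rw [hm0, mul_zero]
    apply list_sum_neg
    · intro s hs
      have := (hone s hs).2.1
      omega
    · have hθ0 : ∀ i f, w f ≤ w (t i * pd B' i f) := by
        intro i f
        have := hθ i f
        rw [hm0] at this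
        simpa only [AddValuation.map_mul, ge_iff_le, WithTop.coe_zero, add_zero] using this
      have hmon : ∀ p : MvPolynomial (Fin q ⊕ Fin k) ℂ, ∀ n ∈ p.support,
          ov w (aeval t p) ≤ ∑ j, (n j : ℤ) * ov w (t j) := by
        intro p n hn
        have hp0 : p ≠ 0 := by
          rintro rfl
          simp at hn
        have h2 := val_le_monomial B' hB' hw.const hθ0 p.support.card p le_rfl n hn
        rw [le_le_iff w (ht.aeval_ne_zero hp0) (Finset.prod_ne_zero_iff.2 fun j _ =>
          pow_ne_zero _ (ht.ne_zero j)), ov_prod _ _ fun j _ => pow_ne_zero _ (ht.ne_zero j)] at h2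
        refine h2.trans (le_of_eq ?_)
        apply Finset.sum_congr rfl
        intro j _
        rw [ov_pow w (ht.ne_zero j)]
      let x : Fin q ⊕ Fin k → ℝ := fun i => (ov w (t i) : ℝ)
      have hgr0 : rename (Sum.inr : Fin k → Fin q ⊕ Fin k) g ≠ 0 := by
        intro h
        exact hg (rename_injective _ Sum.inr_injective (by rw [h, map_zero]))
      have hgov : ov w (aeval (fun j => t (Sum.inr j)) g) = ov w x0 + ∑ l, ov w (t (Sum.inl l)) := by
        rw [← hx0, ov_mul w hx00 (Finset.prod_ne_zero_iff.2 fun l _ => ht.ne_zero _),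
          ov_prod _ _ fun l _ => ht.ne_zero _]
      have hx0n : 0 ≤ ov w x0 := (nonneg_iff w hx00).1 h0
      have hgle : ∀ μ ∈ supp g, ov w (aeval (fun j => t (Sum.inr j)) g)
          ≤ ∑ j, (μ j : ℤ) * ov w (t (Sum.inr j)) := by
        intro μ hμ
        obtain ⟨n, hn, rfl⟩ := Finset.mem_image.1 hμ
        have h2 := hmon (rename Sum.inr g) (n.mapDomain Sum.inr) (by
          rw [support_rename_of_injective Sum.inr_injective]
          exact Finset.mem_image_of_mem _ hn)
        rw [← aeval_inr] at h2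
        refine h2.trans (le_of_eq ?_)
        rw [Fintype.sum_sum_type]
        have h3 : ∀ l : Fin q, (Finsupp.mapDomain (Sum.inr : Fin k → Fin q ⊕ Fin k) n) (Sum.inl l)
            = 0 := by
          intro l
          apply Finsupp.mapDomain_of_notMem_range
          simp only [Set.mem_range, reduceCtorEq, exists_false, not_false_eq_true]
        simp only [h3, Finsupp.mapDomain_apply Sum.inr_injective]
        simp only [CharP.cast_eq_zero, zero_mul, sum_const_zero, zero_add]
      have hxc : InCone (supp g) x := by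
        refine ⟨?_, ?_⟩
        · intro i
          have := (nonneg_iff w (ht.ne_zero i)).1 (h1 i)
          simp only [x]
          exact_mod_cast this
        · intro μ hμ
          have h2 := hgle μ hμ
          rw [hgov] at h2
          have h3 : ∑ l, ov w (t (Sum.inl l)) ≤ ∑ j, (μ j : ℤ) * ov w (t (Sum.inr j)) := by omega
          unfold mdot
          simp only [x]
          exact_mod_cast h3
      have hxne : x ≠ 0 := by
        intro hx
        have hz : ∀ i, ov w (t i) = 0 := by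
          intro i
          have := congrFun hx i
          simp only [x, Pi.zero_apply] at this
          exact_mod_cast this
        have hpol : ∀ p : MvPolynomial (Fin q ⊕ Fin k) ℂ, p ≠ 0 → ov w (aeval t p) = 0 := by
          intro p hp
          obtain ⟨n, hn⟩ := support_nonempty.2 hp
          have h2 := hmon p n hn
          simp only [hz, mul_zero, Finset.sum_const_zero] at h2
          have h3 : 0 ≤ w (aeval t p) := aeval_nonneg hw.const h1 p
          rw [nonneg_iff w (ht.aeval_ne_zero hp)] at h3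
          omega
        obtain ⟨f, hf⟩ := hw.normalized
        obtain ⟨p, r, hr, rfl⟩ := ht.gen f
        have hf0 : aeval t p / aeval t r ≠ 0 := ne_zero_of_eq w (n := 1) (by simpa only [AddValuation.map_div, WithTop.coe_one] using hf)
        have hp : p ≠ 0 := by
          rintro rfl
          simp at hf0
        have h2 : ov w (aeval t p / aeval t r) = 0 := by
          rw [ov_div w (ht.aeval_ne_zero hp) (ht.aeval_ne_zero hr), hpol p hp, hpol r hr]
          ring
        have h3 : ov w (aeval t p / aeval t r) = 1 := ov_eq_of w (n := 1) (by simpa only [AddValuation.map_div, WithTop.coe_one] using hf)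
        omega
      obtain ⟨s, hs, hs2⟩ := hneg x hxc hxne
      refine ⟨s, hs, (hone s hs).2.2 ?_⟩
      rw [ov_phi ht hx00]
      have h4 := hs2 (ov w (aeval (fun j => t (Sum.inr j)) g)) (by
        intro μ hμ
        have := hgle μ hμ
        simp only [x]
        exact_mod_cast this)
      simp only [x] at h4
      have h5 : (s.1 : ℤ) * (ov w (aeval (fun j => t (Sum.inr j)) g)
          - ∑ l, ov w (t (Sum.inl l))) + ∑ i, s.2 i * ov w (t i) < 0 := by exact_mod_cast h4
      rw [hgov] at h5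
      simpa only [Fintype.sum_sum_type, gt_iff_lt, add_sub_cancel_right] using h5

end Positivity

end Vale.Agent.P283
end
end

section

section

/-!
Extension of a discrete valuation to a finite extension field.
-/

namespace Vale.Agent.P283

open WithZero

section Up

variable {K : Type} [Field K] (v : AddValuation K (WithTop ℤ))

lemma isUnit_vRing_iff (x : vRing v) : IsUnit x ↔ v (x : K) = 0 := by
  constructor
  · rintro ⟨u, rfl⟩
    have h1 : v ((u : vRing v) : K) + v (((u⁻¹ : (vRing v)ˣ) : vRing v) : K) = 0 := by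
      rw [← AddValuation.map_mul]
      have : (((u : vRing v) : K) * (((u⁻¹ : (vRing v)ˣ) : vRing v) : K)) = 1 := by
        exact congrArg (Subtype.val) (u.mul_inv)
      rw [this, AddValuation.map_one]
    have h2 : 0 ≤ v ((u : vRing v) : K) := (u : vRing v).2
    have h3 : 0 ≤ v (((u⁻¹ : (vRing v)ˣ) : vRing v) : K) := ((u⁻¹ : (vRing v)ˣ) : vRing v).2
    refine le_antisymm ?_ h2
    calc v ((u : vRing v) : K) = v ((u : vRing v) : K) + 0 := (add_zero _).symm
      _ ≤ v ((u : vRing v) : K) + v (((u⁻¹ : (vRing v)ˣ) : vRing v) : K) := by gcongr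
      _ = 0 := h1
  · intro h
    have hx : (x : K) ≠ 0 := ne_zero_of_val_zero v h
    have hinv : v (x : K)⁻¹ = 0 := by
      rw [eq_zero_iff v (inv_ne_zero hx), ov_inv, (eq_zero_iff v hx).mp h, neg_zero]
    refine ⟨⟨x, ⟨(x : K)⁻¹, hinv.ge⟩, ?_, ?_⟩, rfl⟩
    · exact Subtype.ext (mul_inv_cancel₀ hx)
    · exact Subtype.ext (inv_mul_cancel₀ hx)

lemma vRing_dvr (hv : ∃ f, v f = 1) : IsDiscreteValuationRing (vRing v) := by
  obtain ⟨t, ht⟩ := hv
  have ht0 : t ≠ 0 := ne_zero_of_eq v (n := 1) (by simpa using ht)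
  have hto : ov v t = 1 := ov_eq_of v (n := 1) (by simpa using ht)
  let T : vRing v := ⟨t, by rw [mem_vRing, ht]; exact zero_le_one⟩
  apply IsDiscreteValuationRing.ofHasUnitMulPowIrreducibleFactorization
  refine ⟨T, ?_, ?_⟩
  · constructor
    · rw [isUnit_vRing_iff]
      show ¬ v t = 0
      rw [ht]
      exact one_ne_zero
    · intro a b hab
      have ha0 : (a : K) ≠ 0 := by
        intro h
        apply ht0
        have := congrArg Subtype.val hab
        simpa only [MulMemClass.coe_mul, h, zero_mul] using this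
      have hb0 : (b : K) ≠ 0 := by
        intro h
        apply ht0
        have := congrArg Subtype.val hab
        simpa only [MulMemClass.coe_mul, h, mul_zero] using this
      have h1 : ov v (a : K) + ov v (b : K) = 1 := by
        rw [← ov_mul v ha0 hb0, ← hto]
        congr 1
        have := congrArg Subtype.val hab
        exact this.symm
      have ha : 0 ≤ ov v (a : K) := (nonneg_iff v ha0).mp a.2
      have hb : 0 ≤ ov v (b : K) := (nonneg_iff v hb0).mp b.2
      rw [isUnit_vRing_iff, isUnit_vRing_iff, eq_zero_iff v ha0, eq_zero_iff v hb0]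
      omega
  · intro x hx
    have hx0 : (x : K) ≠ 0 := fun h => hx (Subtype.ext h)
    have hxo : 0 ≤ ov v (x : K) := (nonneg_iff v hx0).mp x.2
    obtain ⟨n, hn⟩ := Int.eq_ofNat_of_zero_le hxo
    refine ⟨n, ?_⟩
    have hy0 : (x : K) / t ^ n ≠ 0 := div_ne_zero hx0 (pow_ne_zero _ ht0)
    have hy : v ((x : K) / t ^ n) = 0 := by
      rw [eq_zero_iff v hy0, ov_div v hx0 (pow_ne_zero _ ht0), ov_pow v ht0, hto, hn]
      ring
    let y : vRing v := ⟨(x : K) / t ^ n, hy.ge⟩
    have hyu : IsUnit y := (isUnit_vRing_iff v y).mpr hy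
    obtain ⟨u, hu⟩ := hyu
    refine ⟨u, ?_⟩
    rw [hu]
    apply Subtype.ext
    show t ^ n * ((x : K) / t ^ n) = x
    field_simp

end Up

open Classical in
/-- additive version of the valuation of a height one prime -/
noncomputable def addOf {L : Type} [Field L] (w : Valuation L ℤᵐ⁰) : AddValuation L (WithTop ℤ) :=
  AddValuation.of (fun f => if f = 0 then ⊤ else (((-(log (w f)) : ℤ)) : WithTop ℤ))
    (by simp) (by simp) (by
      intro x y
      by_cases hx : x = 0
      · subst hx; simp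
      by_cases hy : y = 0
      · subst hy; simp
      by_cases hxy : x + y = 0
      · simp [hxy]
      simp only [if_neg hx, if_neg hy, if_neg hxy]
      rw [← WithTop.coe_min, WithTop.coe_le_coe]
      have h1 := w.map_add x y
      have hwx : w x ≠ 0 := (Valuation.ne_zero_iff w).mpr hx
      have hwy : w y ≠ 0 := (Valuation.ne_zero_iff w).mpr hy
      have hwxy : w (x + y) ≠ 0 := (Valuation.ne_zero_iff w).mpr hxy
      rcases le_max_iff.mp h1 with h | h
      · have := (log_le_log hwxy hwx).mpr h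
        omega
      · have := (log_le_log hwxy hwy).mpr h
        omega) (by
      intro x y
      by_cases hx : x = 0
      · subst hx; simp
      by_cases hy : y = 0
      · subst hy; simp
      have hxy : x * y ≠ 0 := mul_ne_zero hx hy
      simp only [if_neg hx, if_neg hy, if_neg hxy]
      have hwx : w x ≠ 0 := (Valuation.ne_zero_iff w).mpr hx
      have hwy : w y ≠ 0 := (Valuation.ne_zero_iff w).mpr hy
      rw [← WithTop.coe_add, WithTop.coe_inj, map_mul, log_mul hwx hwy]
      ring)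

lemma addOf_apply {L : Type} [Field L] (w : Valuation L ℤᵐ⁰) {f : L} (hf : f ≠ 0) :
    addOf w f = (((-(log (w f)) : ℤ)) : WithTop ℤ) := by
  classical
  show (if f = 0 then ⊤ else (((-(log (w f)) : ℤ)) : WithTop ℤ)) = _
  rw [if_neg hf]

theorem exists_extension {K L : Type} [Field K] [Field L] [Algebra K L] [FiniteDimensional K L]
    [CharZero K] (v : AddValuation K (WithTop ℤ)) (hv : ∃ f, v f = 1) :
    ∃ (w : AddValuation L (WithTop ℤ)) (e : ℕ), 0 < e ∧ (∃ f, w f = 1) ∧
      ∀ f : K, w (algebraMap K L f) = e • v f := by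
  classical
  have hdvr : IsDiscreteValuationRing (vRing v) := vRing_dvr v hv
  obtain ⟨t, ht⟩ := hv
  have ht0 : t ≠ 0 := ne_zero_of_eq v (n := 1) (by simpa using ht)
  have hto : ov v t = 1 := ov_eq_of v (n := 1) (by simpa using ht)
  let _ : Algebra (vRing v) L := ((algebraMap K L).comp (algebraMap (vRing v) K)).toAlgebra
  have _ : IsScalarTower (vRing v) K L := IsScalarTower.of_algebraMap_eq fun x => rfl
  let C := integralClosure (vRing v) L
  have hded : IsDedekindDomain C := integralClosure.isDedekindDomain (vRing v) K L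
  have hfrac : IsFractionRing C L := integralClosure.isFractionRing_of_finite_extension K L
  have hint : Algebra.IsIntegral (vRing v) C := integralClosure.AlgebraIsIntegral
  obtain ⟨P, hP⟩ := Ideal.exists_maximal C
  have hPA : (P.comap (algebraMap (vRing v) C)).IsMaximal :=
    Ideal.isMaximal_comap_of_isIntegral_of_isMaximal P
  have hPA' : P.comap (algebraMap (vRing v) C) = IsLocalRing.maximalIdeal (vRing v) :=
    IsLocalRing.eq_maximalIdeal hPA
  let T : vRing v := ⟨t, by rw [mem_vRing, ht]; exact zero_le_one⟩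
  have hTP : algebraMap (vRing v) C T ∈ P := by
    have h1 : T ∈ IsLocalRing.maximalIdeal (vRing v) := by
      rw [IsLocalRing.mem_maximalIdeal, mem_nonunits_iff, isUnit_vRing_iff]
      show ¬ v t = 0
      rw [ht]; exact one_ne_zero
    rw [← hPA'] at h1
    exact h1
  have hTL : ∀ x : vRing v, algebraMap C L (algebraMap (vRing v) C x) = algebraMap K L x :=
    fun x => rfl
  have hT0 : algebraMap (vRing v) C T ≠ 0 := by
    intro h
    have h1 := congrArg (algebraMap C L) h
    rw [hTL, map_zero] at h1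
    exact ht0 ((map_eq_zero _).mp h1)
  let Q : IsDedekindDomain.HeightOneSpectrum C :=
    ⟨P, hP.isPrime, fun h => hT0 (by rw [h] at hTP; exact (Submodule.mem_bot C).mp hTP)⟩
  let w := addOf (Q.valuation L)
  have htL : algebraMap K L t ≠ 0 := (map_ne_zero _).mpr ht0
  have hlt : Q.valuation L (algebraMap K L t) < 1 := by
    have h1 : Q.valuation L (algebraMap C L (algebraMap (vRing v) C T)) < 1 :=
      (Q.valuation_lt_one_iff_mem _).mpr hTP
    rwa [hTL] at h1
  have hQt : Q.valuation L (algebraMap K L t) ≠ 0 := (Valuation.ne_zero_iff _).mpr htL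
  have hpos : 0 < -(log (Q.valuation L (algebraMap K L t))) := by
    have h1 : log (Q.valuation L (algebraMap K L t)) < log (1 : ℤᵐ⁰) :=
      (log_lt_log hQt one_ne_zero).mpr hlt
    rw [log_one] at h1
    omega
  obtain ⟨e, he⟩ := Int.eq_ofNat_of_zero_le hpos.le
  have he' : ov w (algebraMap K L t) = e := by
    refine ov_eq_of w ?_
    rw [addOf_apply _ htL, he]
  have hunit : ∀ x : K, v x = 0 → w (algebraMap K L x) = 0 := by
    intro x hx
    have hx0 : x ≠ 0 := ne_zero_of_val_zero v hx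
    let X : vRing v := ⟨x, hx.ge⟩
    have hXu : IsUnit X := (isUnit_vRing_iff v X).mpr hx
    have hXP : algebraMap (vRing v) C X ∉ P := by
      intro h
      have h1 : X ∈ P.comap (algebraMap (vRing v) C) := h
      rw [hPA'] at h1
      exact (IsLocalRing.mem_maximalIdeal _).mp h1 hXu
    have h1 : Q.valuation L (algebraMap C L (algebraMap (vRing v) C X)) = 1 :=
      (Q.valuation_eq_one_iff_notMem (K := L)).mpr hXP
    rw [hTL] at h1
    rw [addOf_apply _ ((map_ne_zero _).mpr hx0)]
    show (((-(log (Q.valuation L (algebraMap K L X))) : ℤ)) : WithTop ℤ) = 0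
    rw [h1, log_one]
    rfl
  refine ⟨w, e, ?_, ?_, ?_⟩
  · have : (0 : ℤ) < e := by rw [← he]; exact hpos
    exact_mod_cast this
  · obtain ⟨π, hπ⟩ := Q.valuation_exists_uniformizer L
    have hπ0 : π ≠ 0 := by
      intro h
      rw [h, map_zero] at hπ
      exact (exp_ne_zero hπ.symm).elim
    refine ⟨π, ?_⟩
    rw [addOf_apply _ hπ0, hπ, log_exp]
    rfl
  · intro f
    by_cases hf : f = 0
    · subst hf
      rw [map_zero, AddValuation.map_zero, AddValuation.map_zero]
      have : (e : ℕ) ≠ 0 := by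
        intro h0
        rw [h0] at he
        have := hpos
        rw [he] at this
        exact lt_irrefl _ this
      obtain ⟨e', rfl⟩ := Nat.exists_eq_succ_of_ne_zero this
      rw [succ_nsmul]; simp
    · have hfL : algebraMap K L f ≠ 0 := (map_ne_zero _).mpr hf
      have hu : v (f / t ^ ov v f) = 0 := by
        rw [eq_zero_iff v (div_ne_zero hf (zpow_ne_zero _ ht0)), ov_div v hf (zpow_ne_zero _ ht0),
          ov_zpow v ht0, hto]
        ring
      have hu' := hunit _ hu
      have hne : algebraMap K L (f / t ^ ov v f) ≠ 0 :=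
        (map_ne_zero _).mpr (div_ne_zero hf (zpow_ne_zero _ ht0))
      rw [eq_zero_iff w hne, map_div₀, map_zpow₀, ov_div w hfL (zpow_ne_zero _ htL),
        ov_zpow w htL, he'] at hu'
      rw [← coe_ov w hfL, ← coe_ov v hf, ← WithTop.coe_nsmul, WithTop.coe_inj, nsmul_eq_mul]
      linarith only [hu']

end Vale.Agent.P283
end
end

section

section

/-!
Restriction of a divisorial valuation to a subfield with algebraic quotient.
-/

namespace Vale.Agent.P283

open Cardinal

section Res

variable {K : Type} [Field K] [Algebra ℂ K] (v : AddValuation K (WithTop ℤ))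

/-- constants as elements of the valuation ring -/
def constHom (hc : ∀ c : ℂ, c ≠ 0 → v (algebraMap ℂ K c) = 0) : ℂ →+* vRing v where
  toFun := fun c => ⟨algebraMap ℂ K c, by
    by_cases h : c = 0
    · subst h; simp
    · rw [mem_vRing, hc c h]⟩
  map_one' := Subtype.ext (map_one _)
  map_mul' := fun x y => Subtype.ext (map_mul _ x y)
  map_zero' := Subtype.ext (map_zero _)
  map_add' := fun x y => Subtype.ext (map_add _ x y)

lemma eval₂_constHom (hc : ∀ c : ℂ, c ≠ 0 → v (algebraMap ℂ K c) = 0) {ι : Type}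
    (u : ι → vRing v) (P : MvPolynomial ι ℂ) :
    ((MvPolynomial.eval₂ (constHom v hc) u P : vRing v) : K)
      = MvPolynomial.aeval (fun i => (u i : K)) P := by
  have h := MvPolynomial.hom_eval₂ P (constHom v hc) (vRing v).subtype u
  exact h

omit [Algebra ℂ K] in
lemma residue_ne_zero_iff (x : vRing v) : IsLocalRing.residue (vRing v) x ≠ 0 ↔ v (x : K) = 0 := by
  rw [Ne, IsLocalRing.residue_eq_zero_iff, IsLocalRing.mem_maximalIdeal, mem_nonunits_iff,
    not_not, isUnit_vRing_iff]

end Res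

theorem exists_restriction {K L : Type} [Field K] [Field L] [Algebra ℂ K] [Algebra ℂ L]
    [Algebra K L] [IsScalarTower ℂ K L] [Algebra.IsAlgebraic K L] (d : ℕ)
    (w : AddValuation L (WithTop ℤ)) (hw : IsDivisorial d w) :
    ∃ (v : AddValuation K (WithTop ℤ)) (e : ℕ), 0 < e ∧ IsDivisorial d v ∧
      ∀ f : K, w (algebraMap K L f) = e • v f := by
  classical
  have hinjKL : Function.Injective (algebraMap K L) := (algebraMap K L).injective
  have hKL : ∀ {f : K}, f ≠ 0 → algebraMap K L f ≠ 0 := fun hf => (map_ne_zero _).mpr hf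
  -- the value group of the restriction
  let H : AddSubgroup ℤ :=
    { carrier := {n | ∃ f : K, f ≠ 0 ∧ ov w (algebraMap K L f) = n}
      zero_mem' := ⟨1, one_ne_zero, by rw [map_one, ov_one]⟩
      add_mem' := by
        rintro m n ⟨f, hf, rfl⟩ ⟨g, hg, rfl⟩
        exact ⟨f * g, mul_ne_zero hf hg, by rw [map_mul, ov_mul w (hKL hf) (hKL hg)]⟩
      neg_mem' := by
        rintro n ⟨f, hf, rfl⟩
        exact ⟨f⁻¹, inv_ne_zero hf, by rw [map_inv₀, ov_inv]⟩ }
  obtain ⟨e0, he0⟩ := Int.subgroup_cyclic H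
  let e : ℕ := e0.natAbs
  have hmem : ∀ x, x ∈ H ↔ (e : ℤ) ∣ x := by
    intro x
    rw [he0, AddSubgroup.mem_closure_singleton]
    constructor
    · rintro ⟨n, rfl⟩
      rw [smul_eq_mul]
      exact Dvd.dvd.mul_left (Int.natAbs_dvd.mpr dvd_rfl) n
    · intro h
      obtain ⟨n, hn⟩ := Int.natAbs_dvd.mp h
      exact ⟨n, by rw [smul_eq_mul, hn, mul_comm]⟩
  have hdvd : ∀ f : K, f ≠ 0 → (e : ℤ) ∣ ov w (algebraMap K L f) := fun f hf =>
    (hmem _).mp ⟨f, hf, rfl⟩
  -- the restriction is nontrivial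
  have he : 0 < e := by
    rcases Nat.eq_zero_or_pos e with h | h
    · exfalso
      have htriv : ∀ f : K, f ≠ 0 → ov w (algebraMap K L f) = 0 := by
        intro f hf
        have := hdvd f hf
        rw [h] at this
        simpa only [CharP.cast_eq_zero, zero_dvd_iff] using this
      obtain ⟨y, hy⟩ := hw.normalized
      have hy0 : y ≠ 0 := ne_zero_of_eq w (n := 1) (by simpa using hy)
      have hyo : ov w y = 1 := ov_eq_of w (n := 1) (by simpa using hy)
      have halg := Algebra.IsAlgebraic.isAlgebraic (R := K) y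
      have hint := halg.isIntegral
      have h1 : Polynomial.aeval y (minpoly K y) = 0 := minpoly.aeval K y
      have h2 : (minpoly K y).coeff 0 ≠ 0 := minpoly.coeff_zero_ne_zero hint hy0
      rw [Polynomial.aeval_eq_sum_range, Finset.sum_range_succ'] at h1
      have h3 : 1 ≤ w (∑ k ∈ Finset.range (minpoly K y).natDegree,
          (minpoly K y).coeff (k + 1) • y ^ (k + 1)) := by
        refine AddValuation.map_le_sum w ?_
        intro k _
        by_cases hk : (minpoly K y).coeff (k + 1) = 0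
        · rw [hk]; simp only [zero_smul, AddValuation.map_zero, le_top]
        · rw [Algebra.smul_def]
          have h4 : algebraMap K L ((minpoly K y).coeff (k + 1)) * y ^ (k + 1) ≠ 0 :=
            mul_ne_zero (hKL hk) (pow_ne_zero _ hy0)
          have h5 := le_iff w h4 (n := 1)
          have h6 : ov w (algebraMap K L ((minpoly K y).coeff (k + 1)) * y ^ (k + 1)) = k + 1 := by
            rw [ov_mul w (hKL hk) (pow_ne_zero _ hy0), htriv _ hk, ov_pow w hy0, hyo]
            push_cast; ring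
          rw [h6] at h5
          have h7 := h5.mpr (by omega)
          simpa only [AddValuation.map_mul, AddValuation.map_pow, ge_iff_le, WithTop.coe_one] using h7
      have h4 : w ((minpoly K y).coeff 0 • y ^ 0) = 0 := by
        rw [pow_zero, Algebra.smul_def, mul_one, eq_zero_iff w (hKL h2)]
        exact htriv _ h2
      have h5 : ∑ k ∈ Finset.range (minpoly K y).natDegree,
          (minpoly K y).coeff (k + 1) • y ^ (k + 1) = -((minpoly K y).coeff 0 • y ^ 0) :=
        eq_neg_of_add_eq_zero_left h1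
      rw [h5, AddValuation.map_neg, h4] at h3
      exact absurd h3 (by decide)
    · exact h
  have heZ : (0 : ℤ) < e := by exact_mod_cast he
  have hq : ∀ f : K, f ≠ 0 → ov w (algebraMap K L f) = e * (ov w (algebraMap K L f) / e) :=
    fun f hf => (Int.mul_ediv_cancel' (hdvd f hf)).symm
  -- the restricted valuation
  let v : AddValuation K (WithTop ℤ) := AddValuation.of
    (fun f => if f = 0 then ⊤ else ((ov w (algebraMap K L f) / e : ℤ) : WithTop ℤ))
    (by simp) (by simp [ov_one]) (by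
      intro x y
      by_cases hx : x = 0
      · subst hx; simp only [↓reduceIte, le_top, inf_of_le_right, zero_add, Std.le_refl]
      by_cases hy : y = 0
      · subst hy; simp only [↓reduceIte, le_top, inf_of_le_left, add_zero, Std.le_refl]
      by_cases hxy : x + y = 0
      · simp only [hxy, ↓reduceIte, le_top]
      simp only [if_neg hx, if_neg hy, if_neg hxy]
      rw [← WithTop.coe_min, WithTop.coe_le_coe]
      have h1 := AddValuation.map_add w (algebraMap K L x) (algebraMap K L y)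
      rw [← map_add, ← coe_ov w (hKL hx), ← coe_ov w (hKL hy), ← coe_ov w (hKL hxy),
        ← WithTop.coe_min, WithTop.coe_le_coe] at h1
      rcases min_le_iff.mp h1 with h | h
      · exact (min_le_left _ _).trans (Int.ediv_le_ediv heZ h)
      · exact (min_le_right _ _).trans (Int.ediv_le_ediv heZ h)) (by
      intro x y
      by_cases hx : x = 0
      · subst hx; simp
      by_cases hy : y = 0
      · subst hy; simp
      have hxy : x * y ≠ 0 := mul_ne_zero hx hy
      simp only [if_neg hx, if_neg hy, if_neg hxy]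
      rw [← WithTop.coe_add, WithTop.coe_inj, map_mul, ov_mul w (hKL hx) (hKL hy),
        Int.add_ediv_of_dvd_left (hdvd x hx)])
  have hv : ∀ f : K, f ≠ 0 → v f = ((ov w (algebraMap K L f) / e : ℤ) : WithTop ℤ) := by
    intro f hf
    show (if f = 0 then ⊤ else ((ov w (algebraMap K L f) / e : ℤ) : WithTop ℤ)) = _
    rw [if_neg hf]
  have hvw : ∀ f : K, w (algebraMap K L f) = e • v f := by
    intro f
    by_cases hf : f = 0
    · subst hf
      rw [map_zero, AddValuation.map_zero, AddValuation.map_zero]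
      obtain ⟨e', he'⟩ := Nat.exists_eq_succ_of_ne_zero he.ne'
      rw [he', succ_nsmul]; simp
    · rw [hv f hf, ← coe_ov w (hKL hf), ← WithTop.coe_nsmul, WithTop.coe_inj, nsmul_eq_mul]
      exact hq f hf
  have hov : ∀ f : K, f ≠ 0 → ov w (algebraMap K L f) = e * ov v f := by
    intro f hf
    rw [ov_eq_of v (hv f hf)]
    exact hq f hf
  have hvc : ∀ c : ℂ, c ≠ 0 → v (algebraMap ℂ K c) = 0 := by
    intro c hc
    have h1 := hw.const c hc
    rw [IsScalarTower.algebraMap_apply ℂ K L] at h1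
    have h2 : algebraMap ℂ K c ≠ 0 := (map_ne_zero _).mpr hc
    rw [eq_zero_iff w (hKL h2), hov _ h2] at h1
    rw [eq_zero_iff v h2]
    rcases mul_eq_zero.mp h1 with h | h
    · exact absurd h heZ.ne'
    · exact h
  have hnonneg : ∀ f : K, 0 ≤ v f → 0 ≤ w (algebraMap K L f) := by
    intro f hf
    rw [hvw]
    exact nsmul_nonneg hf e
  refine ⟨v, e, he, ⟨hvc, ?_, ?_⟩, hvw⟩
  · obtain ⟨f, hf, hf'⟩ := (hmem e).mpr dvd_rfl
    refine ⟨f, ?_⟩
    rw [hv f hf, hf', Int.ediv_self heZ.ne']
    rfl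
  · -- residue fields
    obtain ⟨u, hu⟩ := hw.residue
    let φ : vRing v →+* vRing w :=
      { toFun := fun f => ⟨algebraMap K L f, hnonneg _ f.2⟩
        map_one' := Subtype.ext (map_one _)
        map_mul' := fun x y => Subtype.ext (map_mul _ _ _)
        map_zero' := Subtype.ext (map_zero _)
        map_add' := fun x y => Subtype.ext (map_add _ _ _) }
    have hφ : IsLocalHom φ := by
      constructor
      intro x hx
      rw [isUnit_vRing_iff] at hx ⊢
      have hx0 : (x : K) ≠ 0 := by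
        intro h
        have : w (algebraMap K L (x : K)) = 0 := hx
        rw [h, map_zero, AddValuation.map_zero] at this
        exact absurd this (by simp)
      have h1 : w (algebraMap K L (x : K)) = 0 := hx
      rw [eq_zero_iff w (hKL hx0), hov _ hx0] at h1
      rw [eq_zero_iff v hx0]
      rcases mul_eq_zero.mp h1 with h | h
      · exact absurd h heZ.ne'
      · exact h
    let kv := IsLocalRing.ResidueField (vRing v)
    let kw := IsLocalRing.ResidueField (vRing w)
    let cv : ℂ →+* kv := (IsLocalRing.residue (vRing v)).comp (constHom v hvc)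
    let cw : ℂ →+* kw := (IsLocalRing.residue (vRing w)).comp (constHom w hw.const)
    let φ' : kv →+* kw := IsLocalRing.ResidueField.map φ
    have hφ' : ∀ x, φ' (IsLocalRing.residue (vRing v) x) = IsLocalRing.residue (vRing w) (φ x) :=
      fun x => rfl
    let _ : Algebra ℂ kv := cv.toAlgebra
    let _ : Algebra ℂ kw := cw.toAlgebra
    let _ : Algebra kv kw := φ'.toAlgebra
    have _ : IsScalarTower ℂ kv kw := IsScalarTower.of_algebraMap_eq fun c => by
      show cw c = φ' (cv c)
      show IsLocalRing.residue (vRing w) _ = IsLocalRing.residue (vRing w) _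
      congr 1
      apply Subtype.ext
      show algebraMap ℂ L c = algebraMap K L (algebraMap ℂ K c)
      exact IsScalarTower.algebraMap_apply ℂ K L c
    -- algebraic residue extension
    have halg : Algebra.IsAlgebraic kv kw := by
      constructor
      intro ybar
      obtain ⟨y, rfl⟩ := IsLocalRing.residue_surjective ybar
      obtain ⟨p, hp0, hpy⟩ := Algebra.IsAlgebraic.isAlgebraic (R := K) (y : L)
      obtain ⟨i0, hi0, hmin⟩ := Finset.exists_min_image p.support (fun i => ov v (p.coeff i))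
        (Polynomial.support_nonempty.mpr hp0)
      have hc0 : p.coeff i0 ≠ 0 := Polynomial.mem_support_iff.mp hi0
      let a : ℕ → vRing v := fun i => ⟨p.coeff i / p.coeff i0, by
        rw [mem_vRing]
        by_cases hi : p.coeff i = 0
        · rw [hi, zero_div]; simp
        · rw [nonneg_iff v (div_ne_zero hi hc0), ov_div v hi hc0]
          have := hmin i (Polynomial.mem_support_iff.mpr hi)
          linarith only [this]⟩
      refine ⟨∑ i ∈ Finset.range (p.natDegree + 1),
        Polynomial.C (IsLocalRing.residue (vRing v) (a i)) * Polynomial.X ^ i, ?_, ?_⟩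
      · intro h
        have h1 := congrArg (fun q => Polynomial.coeff q i0) h
        simp only [Polynomial.finsetSum_coeff, Polynomial.coeff_C_mul, Polynomial.coeff_X_pow,
          mul_ite, mul_one, mul_zero, Polynomial.coeff_zero] at h1
        rw [Finset.sum_ite_eq] at h1
        have h2 : i0 ∈ Finset.range (p.natDegree + 1) :=
          Finset.mem_range.mpr (Nat.lt_succ_of_le (Polynomial.le_natDegree_of_ne_zero hc0))
        rw [if_pos h2] at h1
        have h3 : a i0 = 1 := Subtype.ext (div_self hc0)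
        rw [h3, map_one] at h1
        exact one_ne_zero h1
      · rw [map_sum]
        have h1 : ∀ i, Polynomial.aeval (IsLocalRing.residue (vRing w) y)
            (Polynomial.C (IsLocalRing.residue (vRing v) (a i)) * Polynomial.X ^ i)
            = IsLocalRing.residue (vRing w) (φ (a i) * y ^ i) := by
          intro i
          rw [map_mul, Polynomial.aeval_C, map_pow, Polynomial.aeval_X, map_mul, map_pow]
          rfl
        simp only [h1]
        rw [← map_sum]
        have h2 : ∑ i ∈ Finset.range (p.natDegree + 1), φ (a i) * y ^ i = 0 := by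
          apply Subtype.ext
          have h3 : (((∑ i ∈ Finset.range (p.natDegree + 1), φ (a i) * y ^ i) : vRing w) : L)
              = ∑ i ∈ Finset.range (p.natDegree + 1),
                algebraMap K L (p.coeff i / p.coeff i0) * (y : L) ^ i := by
            have := map_sum (vRing w).subtype (fun i => φ (a i) * y ^ i)
              (Finset.range (p.natDegree + 1))
            exact this
          rw [h3]
          have h4 : ∀ i, algebraMap K L (p.coeff i / p.coeff i0) * (y : L) ^ i
              = (algebraMap K L (p.coeff i0))⁻¹ * (p.coeff i • (y : L) ^ i) := by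
            intro i
            rw [map_div₀, Algebra.smul_def]
            ring
          simp only [h4]
          rw [← Finset.mul_sum, ← Polynomial.aeval_eq_sum_range, hpy, mul_zero]
          rfl
        rw [h2, map_zero]
    -- compare transcendence degrees
    have hui : ∀ i, w (u i) = 0 := by
      intro i
      have := hu (MvPolynomial.X i) (MvPolynomial.X_ne_zero i)
      rwa [MvPolynomial.aeval_X] at this
    let u' : Fin (d - 1) → vRing w := fun i => ⟨u i, (hui i).ge⟩
    have hindep : AlgebraicIndependent ℂ (fun i => IsLocalRing.residue (vRing w) (u' i)) := by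
      rw [algebraicIndependent_iff]
      intro P hP
      by_contra hne
      have h1 := hu P hne
      have h2 := eval₂_constHom w hw.const u' P
      have h3 : v = v := rfl
      have h4 : IsLocalRing.residue (vRing w) (MvPolynomial.eval₂ (constHom w hw.const) u' P) ≠ 0 := by
        rw [residue_ne_zero_iff, h2]
        exact h1
      apply h4
      rw [MvPolynomial.hom_eval₂]
      exact hP
    have hfs1 : FaithfulSMul ℂ kv :=
      (faithfulSMul_iff_algebraMap_injective _ _).mpr (algebraMap ℂ kv).injective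
    have hfs2 : FaithfulSMul kv kw :=
      (faithfulSMul_iff_algebraMap_injective _ _).mpr (algebraMap kv kw).injective
    have htr : Algebra.trdeg ℂ kv + Algebra.trdeg kv kw = Algebra.trdeg ℂ kw :=
      _root_.trdeg_add_eq ℂ kv (A := kw)
    have htr0 : Algebra.trdeg kv kw = 0 := _root_.trdeg_eq_zero
    rw [htr0, add_zero] at htr
    have hle := hindep.cardinalMk_le_trdeg
    rw [← htr] at hle
    obtain ⟨ι, x, hx⟩ := exists_isTranscendenceBasis' ℂ kv
    rw [← hx.cardinalMk_eq_trdeg] at hle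
    obtain ⟨emb⟩ := Cardinal.le_def _ _ |>.mp hle
    have hind2 : AlgebraicIndependent ℂ (x ∘ emb) := hx.1.comp emb emb.injective
    choose lift hlift using fun i => IsLocalRing.residue_surjective (x (emb i))
    refine ⟨fun i => (lift i : K), ?_⟩
    intro P hP
    rw [← eval₂_constHom v hvc lift P, ← residue_ne_zero_iff, MvPolynomial.hom_eval₂]
    intro h0
    apply hP
    rw [algebraicIndependent_iff] at hind2
    apply hind2
    have : (x ∘ emb) = fun i => IsLocalRing.residue (vRing v) (lift i) := by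
      funext i; exact (hlift i).symm
    rw [this]
    exact h0

end Vale.Agent.P283
end
end

section

section

/-!
Laurent monomials in the field of rational functions.
-/

namespace Vale.Agent.P283

/-- The Laurent monomial `t^E` in the field `ℂ(tᵢ : i ∈ σ)`. -/
noncomputable def mono {σ : Type} [Fintype σ] (E : σ → ℤ) :
    FractionRing (MvPolynomial σ ℂ) :=
  ∏ i, (algebraMap (MvPolynomial σ ℂ) (FractionRing (MvPolynomial σ ℂ)) (MvPolynomial.X i)) ^ E i

end Vale.Agent.P283
end
end

section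

section

/-!
Eigenvectors of derivations.
-/

namespace Vale.Agent.P283

open Finset

variable {K : Type} [Field K] [Algebra ℂ K] {σ : Type} [Fintype σ] [DecidableEq σ]

/-- eigenvectors of a derivation -/
def EigV (θ : Derivation ℂ K K) (f : K) (l : ℂ) : Prop := θ f = algebraMap ℂ K l * f

omit [Fintype σ] [DecidableEq σ] in
lemma EigV.mul {θ : Derivation ℂ K K} {f g : K} {a b : ℂ} (hf : EigV θ f a) (hg : EigV θ g b) :
    EigV θ (f * g) (a + b) := by
  unfold EigV at *
  rw [Derivation.leibniz, hf, hg, map_add]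
  simp only [smul_eq_mul]
  ring

lemma EigV.inv {θ : Derivation ℂ K K} {f : K} {a : ℂ} (hf : EigV θ f a) :
    EigV θ f⁻¹ (-a) := by
  unfold EigV at *
  by_cases h0 : f = 0
  · subst h0; simp only [inv_zero, map_zero, map_neg, mul_zero]
  · rw [Derivation.leibniz_inv, hf, map_neg]
    simp only [smul_eq_mul]
    field_simp

lemma EigV.one (θ : Derivation ℂ K K) : EigV θ 1 0 := by
  unfold EigV; simp

lemma EigV.prod {ι : Type} {θ : Derivation ℂ K K} (s : Finset ι) {f : ι → K} {a : ι → ℂ}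
    (hf : ∀ i ∈ s, EigV θ (f i) (a i)) : EigV θ (∏ i ∈ s, f i) (∑ i ∈ s, a i) := by
  classical
  induction s using Finset.induction_on with
  | empty => simpa using EigV.one θ
  | insert b s hb ih =>
    rw [Finset.prod_insert hb, Finset.sum_insert hb]
    exact (hf b (Finset.mem_insert_self _ _)).mul
      (ih fun i hi => hf i (Finset.mem_insert_of_mem hi))

lemma EigV.smul {θ : Derivation ℂ K K} {f : K} {a : ℂ} (c : ℂ) (hf : EigV θ f a) :
    EigV θ (algebraMap ℂ K c * f) a := by
  unfold EigV at *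
  rw [Derivation.leibniz, Derivation.map_algebraMap, hf]
  simp only [smul_eq_mul]
  ring

variable (θ : σ → Derivation ℂ K K) (t : σ → K) (hθ : ∀ i j, θ i (t j) = if i = j then t j else 0)

include hθ

omit [Fintype σ] in
lemma eigV_t (i j : σ) : EigV (θ i) (t j) (if i = j then 1 else 0) := by
  unfold EigV
  rw [hθ]
  split_ifs <;> simp


end Vale.Agent.P283
end
end

section

section

/-!
The form `omegaY` is semi-invariant under the group `G`.
-/

namespace Vale.Agent.P283

open scoped KaehlerDifferential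
open MvPolynomial Finset

@[simp] lemma stdT_inl {q k : ℕ} (l : Fin q) : stdT q k (Sum.inl l) = coordX l := rfl

@[simp] lemma stdT_inr {q k : ℕ} (j : Fin k) : stdT q k (Sum.inr j) = coordZ j := rfl

lemma derivation_aeval_zero {L ι : Type} [Field L] [Algebra ℂ L] (δ : Derivation ℂ L L)
    (u : ι → L) (hu : ∀ j, δ (u j) = 0) (p : MvPolynomial ι ℂ) : δ (aeval u p) = 0 := by
  induction p using MvPolynomial.induction_on with
  | C a => simp
  | add p r hp hr => rw [map_add, map_add, hp, hr, add_zero]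
  | mul_X p i hp => rw [map_mul, Derivation.leibniz, aeval_X, hu, hp]; simp

variable {q k : ℕ} (g : MvPolynomial (Fin k) ℂ) (b : Fin k → ℚ)
  (G : Subgroup (RatField q k ≃ₐ[ℂ] RatField q k))

section Eigs

variable (B : Module.Basis (Fin q ⊕ Fin k) (RatField q k) (Ω[RatField q k⁄ℂ]))
  (hB : ∀ i, B i = KaehlerDifferential.D ℂ (RatField q k) (stdT q k i))

include hB

end Eigs

end Vale.Agent.P283
end
end

section

section

open Module Set MeasureTheory Metric Function
open scoped ENNReal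

namespace Vale.Agent.P283

/-- a `c`-separated set in the unit ball is bounded in terms of the dimension -/
theorem packing {E : Type*} [NormedAddCommGroup E] [NormedSpace ℝ E] [FiniteDimensional ℝ E]
    (c : ℝ) (hc : 0 < c) (s : Finset E) (hs : ∀ x ∈ s, ‖x‖ ≤ 1)
    (h : ∀ x ∈ s, ∀ y ∈ s, x ≠ y → c ≤ ‖x - y‖) :
    (s.card : ℝ) ≤ (2 / c + 1) ^ finrank ℝ E := by
  borelize E
  let μ : Measure E := Measure.addHaar
  let δ : ℝ := c / 2
  let ρ : ℝ := 1 + c / 2
  have ρpos : 0 < ρ := by positivity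
  have δpos : 0 < δ := by positivity
  set A := ⋃ x ∈ s, ball (x : E) δ with hA
  have D : Set.Pairwise (s : Set E) (Disjoint on fun x => ball (x : E) δ) := by
    rintro x hx y hy hxy
    apply ball_disjoint_ball
    rw [dist_eq_norm]
    have := h x hx y hy hxy
    show c / 2 + c / 2 ≤ _
    linarith only [this]
  have A_subset : A ⊆ ball (0 : E) ρ := by
    refine iUnion₂_subset fun x hx => ?_
    apply ball_subset_ball'
    calc
      δ + dist x 0 ≤ δ + 1 := by rw [dist_zero_right]; exact add_le_add le_rfl (hs x hx)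
      _ = ρ := by simp only [δ, ρ]; ring
  have I :
    (s.card : ℝ≥0∞) * ENNReal.ofReal (δ ^ finrank ℝ E) * μ (ball 0 1) ≤
      ENNReal.ofReal (ρ ^ finrank ℝ E) * μ (ball 0 1) :=
    calc
      (s.card : ℝ≥0∞) * ENNReal.ofReal (δ ^ finrank ℝ E) * μ (ball 0 1) = μ A := by
        rw [hA, measure_biUnion_finset D fun c _ => measurableSet_ball]
        simp only [μ.addHaar_ball_of_pos _ δpos]
        simp only [Finset.sum_const, nsmul_eq_mul, mul_assoc]
      _ ≤ μ (ball (0 : E) ρ) := measure_mono A_subset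
      _ = ENNReal.ofReal (ρ ^ finrank ℝ E) * μ (ball 0 1) := by
        simp only [μ.addHaar_ball_of_pos _ ρpos]
  have J : (s.card : ℝ≥0∞) * ENNReal.ofReal (δ ^ finrank ℝ E) ≤ ENNReal.ofReal (ρ ^ finrank ℝ E) :=
    (ENNReal.mul_le_mul_iff_left (measure_ball_pos _ _ zero_lt_one).ne' measure_ball_lt_top.ne).1 I
  have K : (s.card : ℝ) * δ ^ finrank ℝ E ≤ ρ ^ finrank ℝ E := by
    have := ENNReal.toReal_le_of_le_ofReal (pow_nonneg ρpos.le _) J
    rw [ENNReal.toReal_mul, ENNReal.toReal_ofReal (pow_nonneg δpos.le _)] at this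
    simpa only [ge_iff_le, ENNReal.toReal_natCast] using this
  have hρδ : 2 / c + 1 = ρ / δ := by
    simp only [ρ, δ]
    field_simp
  rw [hρδ, div_pow]
  rw [le_div_iff₀ (pow_pos δpos _)]
  exact K

section Core

variable {G : Type} [Group G] [Finite G] {V : Type} [NormedAddCommGroup V] [NormedSpace ℂ V]
  [FiniteDimensional ℂ V]

/-- operator norm of an endomorphism -/
noncomputable def opN (T : V →ₗ[ℂ] V) : ℝ := ‖LinearMap.toContinuousLinearMap T‖

lemma opN_nonneg (T : V →ₗ[ℂ] V) : 0 ≤ opN T := norm_nonneg _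

lemma le_opN (T : V →ₗ[ℂ] V) (v : V) : ‖T v‖ ≤ opN T * ‖v‖ :=
  (LinearMap.toContinuousLinearMap T).le_opNorm v

lemma opN_le (T : V →ₗ[ℂ] V) {C : ℝ} (hC : 0 ≤ C) (h : ∀ v, ‖T v‖ ≤ C * ‖v‖) : opN T ≤ C :=
  (LinearMap.toContinuousLinearMap T).opNorm_le_bound hC h

lemma opN_mul (S T : V →ₗ[ℂ] V) : opN (S * T) ≤ opN S * opN T :=
  opN_le _ (mul_nonneg (opN_nonneg _) (opN_nonneg _)) fun v => by
    calc ‖(S * T) v‖ = ‖S (T v)‖ := rfl
      _ ≤ opN S * ‖T v‖ := le_opN _ _
      _ ≤ opN S * (opN T * ‖v‖) := mul_le_mul_of_nonneg_left (le_opN _ _) (opN_nonneg _)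
      _ = _ := by ring

lemma opN_sub (S T : V →ₗ[ℂ] V) : opN (S - T) ≤ opN S + opN T := by
  unfold opN
  rw [map_sub]
  exact norm_sub_le _ _

lemma opN_eq_zero {T : V →ₗ[ℂ] V} (h : opN T = 0) : T = 0 := by
  unfold opN at h
  rw [norm_eq_zero] at h
  exact (LinearEquiv.map_eq_zero_iff _).mp h

variable (ρ : G →* (V →ₗ[ℂ] V)) (hρ : ∀ g v, ‖ρ g v‖ = ‖v‖)

include hρ

omit [Finite G] in
lemma opN_iso_le (g : G) : opN (ρ g) ≤ 1 := opN_le _ zero_le_one fun v => by rw [hρ]; simp

omit [Finite G] in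
lemma opN_iso_mul (g : G) (T : V →ₗ[ℂ] V) : opN T ≤ opN (ρ g * T) := by
  refine opN_le _ (opN_nonneg _) fun v => ?_
  calc ‖T v‖ = ‖ρ g (T v)‖ := (hρ _ _).symm
    _ = ‖(ρ g * T) v‖ := rfl
    _ ≤ _ := le_opN _ _

omit [Finite G] in
lemma opN_mul_iso (g : G) (T : V →ₗ[ℂ] V) : opN (T * ρ g) ≤ opN T := by
  calc opN (T * ρ g) ≤ opN T * opN (ρ g) := opN_mul _ _
    _ ≤ opN T * 1 := mul_le_mul_of_nonneg_left (opN_iso_le ρ hρ g) (opN_nonneg _)
    _ = opN T := mul_one _

omit [Finite G] in
lemma opN_comm (g h : G) : opN (ρ (g * h * g⁻¹ * h⁻¹) - 1) ≤ 2 * opN (ρ g - 1) * opN (ρ h - 1) := by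
  have h1 : ρ (g * h * g⁻¹ * h⁻¹) - 1 = ((ρ g - 1) * (ρ h - 1) - (ρ h - 1) * (ρ g - 1)) *
      ρ (g⁻¹ * h⁻¹) := by
    have h2 : (ρ g - 1) * (ρ h - 1) - (ρ h - 1) * (ρ g - 1) = ρ (g * h) - ρ (h * g) := by
      rw [map_mul, map_mul]; noncomm_ring
    rw [h2, sub_mul, ← map_mul, ← map_mul]
    have h3 : g * h * (g⁻¹ * h⁻¹) = g * h * g⁻¹ * h⁻¹ := by group
    have h4 : h * g * (g⁻¹ * h⁻¹) = 1 := by group
    rw [h3, h4, map_one]
  rw [h1]
  refine (opN_mul_iso ρ hρ _ _).trans ((opN_sub _ _).trans ?_)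
  have := opN_mul (ρ g - 1) (ρ h - 1)
  have := opN_mul (ρ h - 1) (ρ g - 1)
  (clear hρ h1; nlinarith)

omit [Finite G] in
lemma opN_sub_one_le (g : G) : opN (ρ g - 1) ≤ 2 := by
  refine opN_le _ (by norm_num) fun v => ?_
  calc ‖(ρ g - 1) v‖ = ‖ρ g v - v‖ := rfl
    _ ≤ ‖ρ g v‖ + ‖v‖ := norm_sub_le _ _
    _ = 2 * ‖v‖ := by rw [hρ]; ring

/-- the subgroup generated by elements close to the identity has bounded index -/
lemma index_closure (c : ℝ) (hc : 0 < c) (d : ℕ) (hd : finrank ℂ V ≤ d) :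
    (Subgroup.closure {g : G | opN (ρ g - 1) < c}).index ≤ (⌈2 / c⌉₊ + 1) ^ (2 * d ^ 2) := by
  classical
  set H := Subgroup.closure {g : G | opN (ρ g - 1) < c} with hH
  have : Fintype (G ⧸ H) := Fintype.ofFinite _
  let f : G ⧸ H → (V →L[ℂ] V) := fun x => LinearMap.toContinuousLinearMap (ρ x.out)
  have hsep : ∀ x y, x ≠ y → c ≤ ‖f x - f y‖ := by
    intro x y hxy
    by_contra hlt
    push Not at hlt
    apply hxy
    have h1 : opN (ρ (x.out⁻¹ * y.out) - 1) < c := by
      have h2 : opN (ρ (x.out⁻¹ * y.out) - 1) ≤ opN (ρ y.out - ρ x.out) := by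
        refine (opN_iso_mul ρ hρ x.out _).trans (le_of_eq ?_)
        rw [mul_sub, ← map_mul, mul_one]
        congr 3
        group
      refine lt_of_le_of_lt h2 ?_
      have h3 : opN (ρ y.out - ρ x.out) = ‖f x - f y‖ := by
        rw [norm_sub_rev]
        unfold opN
        rw [map_sub]
      rw [h3]; exact hlt
    have h4 : x.out⁻¹ * y.out ∈ H := Subgroup.subset_closure h1
    have h5 : (x.out : G ⧸ H) = (y.out : G ⧸ H) := QuotientGroup.eq.mpr h4
    rw [QuotientGroup.out_eq', QuotientGroup.out_eq'] at h5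
    exact h5
  have hinj : Injective f := by
    intro x y hxy
    by_contra hne
    have := hsep x y hne
    rw [hxy, sub_self, norm_zero] at this
    linarith only [hc, this]
  let _ : NormedSpace ℝ (V →L[ℂ] V) := NormedSpace.restrictScalars ℝ ℂ _
  have : FiniteDimensional ℝ (V →L[ℂ] V) := by
    exact Module.Finite.trans ℂ _
  have h1 := packing c hc (Finset.univ.image f)
    (by
      intro x hx
      obtain ⟨y, -, rfl⟩ := Finset.mem_image.mp hx
      exact opN_iso_le ρ hρ _)
    (by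
      intro x hx y hy hxy
      obtain ⟨x', -, rfl⟩ := Finset.mem_image.mp hx
      obtain ⟨y', -, rfl⟩ := Finset.mem_image.mp hy
      exact hsep _ _ (fun h => hxy (by rw [h])))
  have h2 : (Finset.univ.image f).card = H.index := by
    rw [Finset.card_image_of_injective _ hinj, Finset.card_univ, Subgroup.index_eq_card,
      Nat.card_eq_fintype_card]
  have h3 : finrank ℝ (V →L[ℂ] V) ≤ 2 * d ^ 2 := by
    have e1 : finrank ℂ (V →L[ℂ] V) = finrank ℂ V * finrank ℂ V := by
      rw [← (LinearMap.toContinuousLinearMap (𝕜 := ℂ) (E := V) (F' := V)).finrank_eq,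
        finrank_linearMap]
    have e2 : finrank ℝ (V →L[ℂ] V) = 2 * finrank ℂ (V →L[ℂ] V) := by
      exact finrank_real_of_complex _
    rw [e2, e1, sq]
    exact Nat.mul_le_mul_left 2 (Nat.mul_le_mul hd hd)
  rw [h2] at h1
  have h4 : (H.index : ℝ) ≤ ((⌈2 / c⌉₊ + 1 : ℕ) : ℝ) ^ (2 * d ^ 2) := by
    refine h1.trans ?_
    have h5 : (2 / c + 1 : ℝ) ≤ ((⌈2 / c⌉₊ + 1 : ℕ) : ℝ) := by
      push_cast
      have := Nat.le_ceil (2 / c)
      linarith
    have h6 : (1 : ℝ) ≤ 2 / c + 1 := by
      have : 0 < 2 / c := by positivity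
      linarith only [this]
    calc (2 / c + 1) ^ finrank ℝ (V →L[ℂ] V) ≤ (2 / c + 1) ^ (2 * d ^ 2) :=
          pow_le_pow_right₀ h6 h3
      _ ≤ _ := pow_le_pow_left₀ (by linarith only [h6]) h5 _
  exact_mod_cast h4

omit [Finite G] hρ in
lemma root_of_unity_gap {l : ℂ} {n : ℕ} (hn : 0 < n) (hl : l ^ n = 1) (h : (n : ℝ) * ‖l - 1‖ < 1) :
    l = 1 := by
  by_contra hne
  have hnorm : ‖l‖ = 1 := Complex.norm_eq_one_of_pow_eq_one hl hn.ne'
  have h1 : ∀ j : ℕ, ‖1 - l ^ j‖ ≤ j * ‖l - 1‖ := by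
    intro j
    induction j with
    | zero => simp
    | succ j ih =>
      have h2 : 1 - l ^ (j + 1) = (1 - l ^ j) - l ^ j * (l - 1) := by ring
      rw [h2]
      refine (norm_sub_le _ _).trans ?_
      rw [norm_mul, norm_pow, hnorm, one_pow, one_mul]
      push_cast
      linarith only [ih]
  have h2 : ∑ j ∈ Finset.range n, l ^ j = 0 := by
    have := geom_sum_mul l n
    rw [hl, sub_self] at this
    rcases mul_eq_zero.mp this with h | h
    · exact h
    · exact absurd (sub_eq_zero.mp h) hne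
  have h3 : (n : ℂ) = ∑ j ∈ Finset.range n, (1 - l ^ j) := by
    rw [Finset.sum_sub_distrib, h2]; simp
  have h4 : (n : ℝ) ≤ ∑ j ∈ Finset.range n, (n : ℝ) * ‖l - 1‖ := by
    calc (n : ℝ) = ‖(n : ℂ)‖ := by simp
      _ = ‖∑ j ∈ Finset.range n, (1 - l ^ j)‖ := by rw [← h3]
      _ ≤ ∑ j ∈ Finset.range n, ‖1 - l ^ j‖ := norm_sum_le _ _
      _ ≤ _ := Finset.sum_le_sum fun j hj => (h1 j).trans (mul_le_mul_of_nonneg_right
          (by exact_mod_cast (Finset.mem_range.mp hj).le) (norm_nonneg _))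
  rw [Finset.sum_const, Finset.card_range, nsmul_eq_mul] at h4
  have hn' : (0 : ℝ) < n := by exact_mod_cast hn
  nlinarith only [h4, h, hn']

/-- a nonscalar element of the subgroup generated by small elements, which is closest to the
identity, is central -/
lemma exists_central (c : ℝ) (hc : 0 < c) (d : ℕ) (hd : finrank ℂ V ≤ d) (hcd : 4 * c * d < 1)
    (hc2 : 2 * c ≤ 1) (H : Subgroup G) (hH : H = Subgroup.closure {g : G | opN (ρ g - 1) < c})
    (hns : ¬ ∀ g ∈ H, ∃ l : ℂ, ρ g = l • 1) :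
    ∃ h ∈ H, (¬ ∃ l : ℂ, ρ h = l • 1) ∧ ∀ g ∈ H, ρ g * ρ h = ρ h * ρ g := by
  classical
  have hne : {g : G | g ∈ H ∧ ¬ ∃ l : ℂ, ρ g = l • 1}.Nonempty := by
    push Not at hns
    obtain ⟨g, hg, hg'⟩ := hns
    exact ⟨g, hg, fun ⟨l, hl⟩ => hg' l hl⟩
  obtain ⟨h, ⟨hhH, hhns⟩, hmin⟩ := (Set.toFinite {g : G | g ∈ H ∧ ¬ ∃ l : ℂ, ρ g = l • 1}).exists_minimalFor
    (fun g => opN (ρ g - 1)) _ hne
  have hmin' : ∀ g ∈ H, opN (ρ g - 1) < opN (ρ h - 1) → ∃ l : ℂ, ρ g = l • 1 := by
    intro g hg hlt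
    by_contra hcon
    have := hmin ⟨hg, hcon⟩ hlt.le
    (clear hρ c hc d hd hcd hc2 hH hns hne hhH hhns; linarith)
  have hpos : 0 < opN (ρ h - 1) := by
    rcases (opN_nonneg (ρ h - 1)).eq_or_lt with h0 | h0
    · exact absurd ⟨1, by rw [one_smul]; exact sub_eq_zero.mp (opN_eq_zero h0.symm)⟩ hhns
    · exact h0
  have hnt : Nontrivial V := by
    by_contra hcon
    rw [not_nontrivial_iff_subsingleton] at hcon
    exact hhns ⟨1, Subsingleton.elim _ _⟩
  obtain ⟨v, hv⟩ := exists_ne (0 : V)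
  have hv' : 0 < ‖v‖ := norm_pos_iff.mpr hv
  refine ⟨h, hhH, hhns, ?_⟩
  have hgen : ∀ g ∈ {g : G | opN (ρ g - 1) < c}, ρ g * ρ h = ρ h * ρ g := by
    intro g hg
    have hgH : g ∈ H := by rw [hH]; exact Subgroup.subset_closure hg
    have hg' : opN (ρ g - 1) < c := hg
    set k := g * h * g⁻¹ * h⁻¹ with hk
    have hkH : k ∈ H := H.mul_mem (H.mul_mem (H.mul_mem hgH hhH) (H.inv_mem hgH)) (H.inv_mem hhH)
    have h1 := opN_comm ρ hρ g h
    rw [← hk] at h1
    have h2 : opN (ρ k - 1) < opN (ρ h - 1) := by (clear hρ hc d hd hcd H hH hns hne hmin hhH hmin' v hv hv' hgH hk hkH; nlinarith)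
    obtain ⟨l, hl⟩ := hmin' k hkH h2
    have h3 : opN (ρ k - 1) ≤ 4 * c := by
      have := opN_sub_one_le ρ hρ h
      have := opN_nonneg (ρ g - 1)
      (clear d hd hcd H hH hns hne hmin hhH hmin' v hv hv' hgH hk hkH h2 l hl this; nlinarith)
    have h4 : ‖l - 1‖ ≤ 4 * c := by
      have h5 : ‖(ρ k - 1) v‖ ≤ opN (ρ k - 1) * ‖v‖ := le_opN _ _
      have h6 : (ρ k - 1) v = (l - 1) • v := by
        rw [hl, LinearMap.sub_apply, LinearMap.smul_apply, Module.End.one_apply, sub_smul, one_smul]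
      rw [h6, norm_smul] at h5
      exact (le_of_mul_le_mul_right h5 hv').trans h3
    have h5 : l ^ finrank ℂ V = 1 := by
      have h6 : LinearMap.det (ρ k) = 1 := by
        have h7 : LinearMap.det (ρ k) = LinearMap.det (ρ (g * g⁻¹)) * LinearMap.det (ρ (h * h⁻¹)) := by
          rw [hk]
          simp only [map_mul]
          ring
        rw [h7]; simp only [mul_inv_cancel, map_one, mul_one]
      rw [hl, LinearMap.det_smul] at h6
      simpa only [map_one, mul_one] using h6
    have h6 : l = 1 := by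
      refine root_of_unity_gap (finrank_pos (R := ℂ) (M := V)) h5 ?_
      have h7 : (finrank ℂ V : ℝ) ≤ d := by exact_mod_cast hd
      calc (finrank ℂ V : ℝ) * ‖l - 1‖ ≤ d * (4 * c) :=
            mul_le_mul h7 h4 (norm_nonneg _) (Nat.cast_nonneg _)
        _ < 1 := by linarith only [hcd]
    rw [h6, one_smul] at hl
    have h7 : ρ (k * (h * g)) = ρ (g * h) := by
      congr 1
      rw [hk]; group
    rw [map_mul, hl, one_mul] at h7
    rw [← map_mul, ← map_mul, h7]
  intro g hg
  rw [hH] at hg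
  induction hg using Subgroup.closure_induction with
  | mem x hx => exact hgen x hx
  | one => rw [map_one]; simp only [one_mul, mul_one]
  | mul x y _ _ hx hy =>
    rw [map_mul, mul_assoc, hy, ← mul_assoc, hx, mul_assoc]
  | inv x _ hx =>
    have h1 : ρ x⁻¹ * ρ x = 1 := by rw [← map_mul]; simp
    have h2 : ρ x * ρ x⁻¹ = 1 := by rw [← map_mul]; simp
    calc ρ x⁻¹ * ρ h = ρ x⁻¹ * (ρ h * (ρ x * ρ x⁻¹)) := by rw [h2, mul_one]
      _ = ρ x⁻¹ * ((ρ h * ρ x) * ρ x⁻¹) := by rw [mul_assoc]
      _ = ρ x⁻¹ * ((ρ x * ρ h) * ρ x⁻¹) := by rw [hx]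
      _ = (ρ x⁻¹ * ρ x) * (ρ h * ρ x⁻¹) := by noncomm_ring
      _ = ρ h * ρ x⁻¹ := by rw [h1, one_mul]

omit hρ in
/-- decomposition into two proper invariant subspaces -/
lemma exists_decomp (h : G) (hns : ¬ ∃ l : ℂ, ρ h = l • 1) :
    ∃ W₁ W₂ : Submodule ℂ V, W₁ ⊔ W₂ = ⊤ ∧ W₁ ≠ ⊤ ∧ W₂ ≠ ⊤ ∧
      ∀ g, ρ g * ρ h = ρ h * ρ g → (∀ w ∈ W₁, ρ g w ∈ W₁) ∧ (∀ w ∈ W₂, ρ g w ∈ W₂) := by
  classical
  have hnt : Nontrivial V := by
    by_contra hcon
    rw [not_nontrivial_iff_subsingleton] at hcon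
    exact hns ⟨1, Subsingleton.elim _ _⟩
  set T := ρ h with hT
  obtain ⟨m, hm, hTm⟩ : ∃ m : ℕ, 0 < m ∧ T ^ m = 1 := by
    refine ⟨orderOf h, orderOf_pos h, ?_⟩
    rw [hT, ← map_pow, pow_orderOf_eq_one, map_one]
  obtain ⟨μ, hμ⟩ := Module.End.exists_eigenvalue T
  obtain ⟨v, hv⟩ := hμ.exists_hasEigenvector
  have hv1 : T v = μ • v := hv.apply_eq_smul
  have hv0 : v ≠ 0 := hv.2
  have hμm : μ ^ m = 1 := by
    have h1 : ∀ j : ℕ, (T ^ j) v = μ ^ j • v := by
      intro j
      induction j with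
      | zero => simp
      | succ j ih =>
        rw [pow_succ, Module.End.mul_apply, hv1, map_smul, ih, smul_smul, pow_succ, mul_comm]
    have h2 := h1 m
    rw [hTm, Module.End.one_apply] at h2
    have h3 : (μ ^ m - 1) • v = 0 := by rw [sub_smul, one_smul, ← h2, sub_self]
    rcases smul_eq_zero.mp h3 with h4 | h4
    · exact sub_eq_zero.mp h4
    · exact absurd h4 hv0
  open Polynomial in
  obtain ⟨Q, hQ⟩ : (X - C μ : ℂ[X]) ∣ X ^ m - C 1 := by
    rw [Polynomial.dvd_iff_isRoot]
    simp only [map_one, IsRoot.def, eval_sub, eval_pow, eval_X, hμm, eval_one, sub_self]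
  open Polynomial in
  have hsep : (X ^ m - C 1 : ℂ[X]).Separable :=
    separable_X_pow_sub_C 1 (by exact_mod_cast hm.ne') one_ne_zero
  rw [hQ] at hsep
  have hcop := hsep.isCoprime
  open Polynomial in
  refine ⟨LinearMap.ker (aeval T (X - C μ : ℂ[X])), LinearMap.ker (aeval T Q), ?_, ?_, ?_, ?_⟩
  · rw [Polynomial.sup_ker_aeval_eq_ker_aeval_mul_of_coprime T hcop, ← hQ]
    have : (Polynomial.aeval T) (Polynomial.X ^ m - Polynomial.C 1 : Polynomial ℂ) = 0 := by
      simp only [map_one, aeval_sub, map_pow, aeval_X, hTm, sub_self]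
    rw [this, LinearMap.ker_zero]
  · intro htop
    apply hns
    refine ⟨μ, ?_⟩
    rw [LinearMap.ker_eq_top] at htop
    simp only [map_sub, aeval_X, aeval_C] at htop
    rw [sub_eq_zero] at htop
    rw [htop, Algebra.algebraMap_eq_smul_one]
  · intro htop
    have h1 := Polynomial.disjoint_ker_aeval_of_isCoprime T hcop
    rw [htop, disjoint_top] at h1
    have h2 : v ∈ LinearMap.ker ((Polynomial.aeval T) (Polynomial.X - Polynomial.C μ : Polynomial ℂ)) := by
      rw [LinearMap.mem_ker]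
      simp only [aeval_sub, aeval_X, aeval_C, LinearMap.sub_apply, hv1, algebraMap_end_apply, sub_self]
    rw [h1] at h2
    exact hv0 ((Submodule.mem_bot ℂ).mp h2)
  · intro g hg
    have h1 : ∀ P : Polynomial ℂ, Commute (ρ g) (Polynomial.aeval T P) := by
      intro P
      have hc' : Commute (ρ g) T := hg
      induction P using Polynomial.induction_on' with
      | add p q hp hq => rw [map_add]; exact hp.add_right hq
      | monomial n a =>
        rw [Polynomial.aeval_monomial]
        have h3 : Commute (ρ g) (algebraMap ℂ (V →ₗ[ℂ] V) a) := (Algebra.commutes a (ρ g)).symm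
        exact h3.mul_right (hc'.pow_right n)
    have h2 : ∀ P : Polynomial ℂ, ∀ w ∈ LinearMap.ker (Polynomial.aeval T P),
        ρ g w ∈ LinearMap.ker (Polynomial.aeval T P) := by
      intro P w hw
      rw [LinearMap.mem_ker] at hw ⊢
      have h3 := LinearMap.congr_fun (h1 P).eq w
      rw [Module.End.mul_apply, Module.End.mul_apply, hw, map_zero] at h3
      exact h3.symm
    exact ⟨h2 _, h2 _⟩

end Core

/-- restriction of a representation to an invariant subspace (and a subgroup) -/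
def restrictRep {G : Type} [Group G] {V : Type} [AddCommGroup V] [Module ℂ V]
    (ρ : G →* (V →ₗ[ℂ] V)) (H : Subgroup G) (W : Submodule ℂ V)
    (hW : ∀ g ∈ H, ∀ w ∈ W, ρ g w ∈ W) : H →* (W →ₗ[ℂ] W) where
  toFun := fun g => (ρ g).restrict (hW g g.2)
  map_one' := by
    ext w
    simp [LinearMap.restrict_apply]
  map_mul' := by
    intro g h
    ext w
    simp [LinearMap.restrict_apply]

theorem jordan_rep (d : ℕ) : ∃ J : ℕ, 0 < J ∧ ∀ (G : Type) [Group G] [Finite G] (V : Type)
    [NormedAddCommGroup V] [NormedSpace ℂ V] [FiniteDimensional ℂ V] (ρ : G →* (V →ₗ[ℂ] V)),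
    (∀ g v, ‖ρ g v‖ = ‖v‖) → finrank ℂ V ≤ d → ∃ A : Subgroup G, A.index ≤ J ∧
      Submodule.span ℂ {v | ∀ a ∈ A, ∃ c : ℂ, ρ a v = c • v} = ⊤ := by
  induction d with
  | zero =>
    refine ⟨1, one_pos, ?_⟩
    intro G _ _ V _ _ _ ρ hρ hd
    have hs : Subsingleton V := Module.finrank_zero_iff (R := ℂ).mp (Nat.le_zero.mp hd)
    exact ⟨⊤, by simp, Subsingleton.elim _ _⟩
  | succ d ih =>
    obtain ⟨J, hJ, ih⟩ := ih
    let c : ℝ := 1 / (4 * (d + 2))
    have hc : 0 < c := by positivity
    have hcd : 4 * c * (d + 1 : ℕ) < 1 := by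
      simp only [c]
      push_cast
      rw [mul_one_div, div_mul_eq_mul_div, div_lt_one (by positivity)]
      linarith only []
    have hc2 : 2 * c ≤ 1 := by
      simp only [c]
      rw [mul_one_div, div_le_one (by positivity)]
      have : (0 : ℝ) ≤ d := Nat.cast_nonneg d
      linarith
    refine ⟨(⌈2 / c⌉₊ + 1) ^ (2 * (d + 1) ^ 2) * (J * J), by positivity, ?_⟩
    intro G _ _ V _ _ _ ρ hρ hd
    set H := Subgroup.closure {g : G | opN (ρ g - 1) < c} with hH
    have hidx : H.index ≤ (⌈2 / c⌉₊ + 1) ^ (2 * (d + 1) ^ 2) := index_closure ρ hρ c hc (d + 1) hd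
    by_cases hns : ∀ g ∈ H, ∃ l : ℂ, ρ g = l • 1
    · refine ⟨H, ?_, ?_⟩
      · calc H.index ≤ (⌈2 / c⌉₊ + 1) ^ (2 * (d + 1) ^ 2) * 1 := by rw [mul_one]; exact hidx
          _ ≤ _ := Nat.mul_le_mul_left _ (Nat.mul_pos hJ hJ)
      · rw [eq_top_iff]
        intro v _
        refine Submodule.subset_span ?_
        intro a ha
        obtain ⟨l, hl⟩ := hns a ha
        exact ⟨l, by rw [hl]; simp only [LinearMap.smul_apply, End.one_apply]⟩
    · obtain ⟨h, hhH, hhns, hcomm⟩ := exists_central ρ hρ c hc (d + 1) hd hcd hc2 H hH hns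
      obtain ⟨W₁, W₂, hsup, hW₁, hW₂, hinv⟩ := exists_decomp ρ h hhns
      have key : ∀ W : Submodule ℂ V, W ≠ ⊤ → (∀ g ∈ H, ∀ w ∈ W, ρ g w ∈ W) →
          ∃ A : Subgroup H, A.index ≤ J ∧
            W ≤ Submodule.span ℂ {v | ∀ a ∈ A, ∃ c : ℂ, ρ (a : G) v = c • v} := by
        intro W hW hWinv
        have hlt : finrank ℂ W ≤ d := by
          have := Submodule.finrank_lt (lt_top_iff_ne_top.mpr hW).ne
          omega
        obtain ⟨A, hA, hspan⟩ := ih H W (restrictRep ρ H W hWinv)
          (fun g v => by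
            show ‖((restrictRep ρ H W hWinv g v : W) : V)‖ = ‖(v : V)‖
            exact hρ g v) hlt
        refine ⟨A, hA, ?_⟩
        have h1 : (⊤ : Submodule ℂ W).map W.subtype = W := by simp
        rw [← h1, ← hspan, Submodule.map_span, Submodule.span_le]
        rintro _ ⟨w, hw, rfl⟩
        refine Submodule.subset_span ?_
        intro a ha
        obtain ⟨l, hl⟩ := hw a ha
        refine ⟨l, ?_⟩
        have := congrArg Subtype.val hl
        exact this
      obtain ⟨A₁, hA₁, hs₁⟩ := key W₁ hW₁ (fun g hg => (hinv g (hcomm g hg)).1)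
      obtain ⟨A₂, hA₂, hs₂⟩ := key W₂ hW₂ (fun g hg => (hinv g (hcomm g hg)).2)
      refine ⟨(A₁ ⊓ A₂).map H.subtype, ?_, ?_⟩
      · rw [Subgroup.index_map_subtype, mul_comm]
        refine Nat.mul_le_mul hidx ?_
        exact Subgroup.index_inf_le.trans (Nat.mul_le_mul hA₁ hA₂)
      · rw [eq_top_iff, ← hsup]
        refine sup_le (hs₁.trans ?_) (hs₂.trans ?_)
        · refine Submodule.span_mono ?_
          rintro v hv _ ⟨a, ha, rfl⟩
          exact hv a ha.1
        · refine Submodule.span_mono ?_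
          rintro v hv _ ⟨a, ha, rfl⟩
          exact hv a ha.2

/-- Jordan's theorem for representations of finite groups, with simultaneous diagonalization -/
theorem jordan_rep' (d : ℕ) : ∃ J : ℕ, 0 < J ∧ ∀ (G : Type) [Group G] [Finite G]
    (ρ : G →* ((Fin d → ℂ) →ₗ[ℂ] (Fin d → ℂ))), ∃ A : Subgroup G, A.index ≤ J ∧
      Submodule.span ℂ {v | ∀ a ∈ A, ∃ c : ℂ, ρ a v = c • v} = ⊤ := by
  obtain ⟨J, hJ, key⟩ := jordan_rep d
  refine ⟨J, hJ, ?_⟩
  intro G _ _ ρ
  have : Fintype G := Fintype.ofFinite G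
  let Φ : (Fin d → ℂ) →ₗ[ℂ] (G → (Fin d → ℂ)) := LinearMap.pi fun g => ρ g
  have hΦ : Injective Φ := by
    intro v w h
    have h1 := congrFun h 1
    simpa [Φ] using h1
  let σ : G →* ((G → (Fin d → ℂ)) →ₗ[ℂ] (G → (Fin d → ℂ))) :=
    { toFun := fun h => LinearMap.funLeft ℂ (Fin d → ℂ) (fun g => g * h)
      map_one' := by
        ext F g
        simp only [LinearMap.funLeft, mul_one, LinearMap.coe_mk, AddHom.coe_mk, comp_apply, End.one_apply]
      map_mul' := by
        intro h₁ h₂
        refine LinearMap.ext fun F => ?_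
        funext g
        simp only [LinearMap.funLeft, LinearMap.coe_mk, AddHom.coe_mk, comp_apply, End.mul_apply, mul_assoc] }
  have hσ : ∀ h F g, σ h F g = F (g * h) := fun h F g => rfl
  have hσΦ : ∀ h v, σ h (Φ v) = Φ (ρ h v) := by
    intro h v
    funext g
    rw [hσ]
    show ρ (g * h) v = ρ g (ρ h v)
    rw [map_mul]; rfl
  let W := LinearMap.range Φ
  have hW : ∀ g, ∀ w ∈ W, σ g w ∈ W := by
    rintro g _ ⟨v, rfl⟩
    exact ⟨ρ g v, (hσΦ g v).symm⟩
  let τ : G →* (W →ₗ[ℂ] W) :=
    { toFun := fun g => (σ g).restrict (hW g)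
      map_one' := by
        refine LinearMap.ext fun w => Subtype.ext ?_
        show σ 1 w = w
        rw [map_one]; rfl
      map_mul' := by
        intro g h
        refine LinearMap.ext fun w => Subtype.ext ?_
        show σ (g * h) w = σ g (σ h w)
        rw [map_mul]; rfl }
  have hτ : ∀ g (w : W), ((τ g w : W) : G → (Fin d → ℂ)) = σ g w := fun g w => rfl
  have hnorm : ∀ g (w : W), ‖τ g w‖ = ‖w‖ := by
    intro g w
    show ‖((τ g w : W) : G → (Fin d → ℂ))‖ = ‖(w : G → (Fin d → ℂ))‖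
    rw [hτ]
    have h1 : ∀ (g : G) (F : G → (Fin d → ℂ)), ‖σ g F‖ ≤ ‖F‖ := by
      intro g F
      rw [pi_norm_le_iff_of_nonneg (norm_nonneg _)]
      intro x
      rw [hσ]
      exact norm_le_pi_norm F _
    refine le_antisymm (h1 g _) ?_
    have h2 := h1 g⁻¹ (σ g w)
    have h3 : σ g⁻¹ (σ g w) = (w : G → (Fin d → ℂ)) := by
      funext x
      rw [hσ, hσ]; simp only [inv_mul_cancel_right]
    rw [h3] at h2
    exact h2
  have hfr : finrank ℂ W ≤ d := by
    have := LinearMap.finrank_range_le Φ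
    simpa only [ge_iff_le, finrank_fintype_fun_eq_card, Fintype.card_fin] using this
  obtain ⟨A, hA, hspan⟩ := key G W τ hnorm hfr
  refine ⟨A, hA, ?_⟩
  rw [eq_top_iff]
  intro v _
  have h1 : (⟨Φ v, ⟨v, rfl⟩⟩ : W) ∈ Submodule.span ℂ {w : W | ∀ a ∈ A, ∃ c : ℂ, τ a w = c • w} := by
    rw [hspan]; exact Submodule.mem_top
  have h2 : ((⟨Φ v, ⟨v, rfl⟩⟩ : W) : G → (Fin d → ℂ)) ∈
      (Submodule.span ℂ {w : W | ∀ a ∈ A, ∃ c : ℂ, τ a w = c • w}).map W.subtype :=
    Submodule.mem_map_of_mem h1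
  rw [Submodule.map_span] at h2
  have h3 : Submodule.span ℂ (W.subtype '' {w : W | ∀ a ∈ A, ∃ c : ℂ, τ a w = c • w}) ≤
      (Submodule.span ℂ {v | ∀ a ∈ A, ∃ c : ℂ, ρ a v = c • v}).map Φ := by
    rw [Submodule.span_le]
    rintro _ ⟨⟨_, ⟨u, rfl⟩⟩, hw, rfl⟩
    refine Submodule.mem_map_of_mem (Submodule.subset_span ?_)
    intro a ha
    obtain ⟨c, hc⟩ := hw a ha
    refine ⟨c, hΦ ?_⟩
    rw [← hσΦ, map_smul]
    exact congrArg Subtype.val hc
  obtain ⟨u, hu, huv⟩ := h3 h2
  have : u = v := hΦ huv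
  rwa [← this]

end Vale.Agent.P283
end
end

section

section

/-!
A subgroup of bounded index acting diagonally.
-/

namespace Vale.Agent.P283

open MvPolynomial Finset

section Stab

variable {L : Type} [Field L] [Algebra ℂ L]

/-- automorphisms scaling all the `y i` -/
def stab {ι : Type} (y : ι → L) : Subgroup (L ≃ₐ[ℂ] L) where
  carrier := {τ | ∀ i, ∃ c : ℂ, τ (y i) = c • y i}
  one_mem' := fun i => ⟨1, by simp⟩
  mul_mem' := by
    intro τ σ hτ hσ i
    obtain ⟨c, hc⟩ := hτ i
    obtain ⟨c', hc'⟩ := hσ i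
    refine ⟨c' * c, ?_⟩
    rw [AlgEquiv.mul_apply, hc', map_smul, hc, smul_smul]
  inv_mem' := by
    intro τ hτ i
    obtain ⟨c, hc⟩ := hτ i
    show ∃ c : ℂ, τ.symm (y i) = c • y i
    by_cases h0 : c = 0
    · refine ⟨0, ?_⟩
      rw [h0, zero_smul] at hc
      have : y i = 0 := (map_eq_zero _).mp hc
      rw [this]; simp
    · refine ⟨c⁻¹, ?_⟩
      rw [AlgEquiv.symm_apply_eq, map_smul, hc, smul_smul, inv_mul_cancel₀ h0, one_smul]

lemma stab_of_eq {ι : Type} (y : ι → L) (hy : ∀ i, y i ≠ 0) (y' : ι → L)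
    (τ τ' : L ≃ₐ[ℂ] L) (c c' : ι → ℂ) (h : ∀ i, τ (y i) = c i • y' i)
    (h' : ∀ i, τ' (y i) = c' i • y' i) : τ⁻¹ * τ' ∈ stab y := by
  intro i
  have hc : c i ≠ 0 := by
    intro h0
    have := h i
    rw [h0, zero_smul] at this
    exact hy i ((map_eq_zero _).mp this)
  refine ⟨c' i * (c i)⁻¹, ?_⟩
  rw [AlgEquiv.mul_apply, h' i, map_smul]
  have h1 : τ⁻¹ (y' i) = (c i)⁻¹ • y i := by
    show τ.symm (y' i) = _
    rw [AlgEquiv.symm_apply_eq, map_smul, h i, smul_smul, inv_mul_cancel₀ hc, one_smul]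
  rw [h1, smul_smul]

end Stab

lemma index_le_of_map {G T : Type} [Group G] [Finite G] [Fintype T] (A : Subgroup G) (F : G → T)
    (h : ∀ x y, F x = F y → x⁻¹ * y ∈ A) : A.index ≤ Fintype.card T := by
  classical
  have : Fintype (G ⧸ A) := Fintype.ofFinite _
  rw [Subgroup.index_eq_card, Nat.card_eq_fintype_card]
  refine Fintype.card_le_of_injective (fun x : G ⧸ A => F x.out) ?_
  intro x y hxy
  have h1 := h _ _ hxy
  have h2 : (x.out : G ⧸ A) = (y.out : G ⧸ A) := QuotientGroup.eq.mpr h1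
  rw [QuotientGroup.out_eq', QuotientGroup.out_eq'] at h2
  exact h2

/-- choosing a basis of common eigenvectors extending given ones -/
lemma exists_basis_ext {k : ℕ} (s : Set (Fin k → ℂ)) (hs : Submodule.span ℂ s = ⊤)
    (b : Fin k → ℚ) (hb : ∀ j, b j ≠ 0 → (Pi.single j 1 : Fin k → ℂ) ∈ s) :
    ∃ v : Fin k → (Fin k → ℂ), LinearIndependent ℂ v ∧ (∀ j, v j ∈ s) ∧
      ∀ j, b j ≠ 0 → v j = Pi.single j 1 := by
  classical
  let E : Fin k → (Fin k → ℂ) := fun j => Pi.single j 1
  have hE : LinearIndependent ℂ E := by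
    have h1 := (Pi.basisFun ℂ (Fin k)).linearIndependent
    have h2 : (Pi.basisFun ℂ (Fin k) : Fin k → (Fin k → ℂ)) = E := by
      funext j; simp [E]
    rwa [h2] at h1
  let U : Set (Fin k → ℂ) := E '' {j | b j ≠ 0}
  have hU : LinearIndepOn ℂ id U := by
    have h1 : LinearIndepOn ℂ E {j | b j ≠ 0} := hE.linearIndepOn _
    exact h1.id_image
  have hUs : U ⊆ s := by
    rintro _ ⟨j, hj, rfl⟩
    exact hb j hj
  let W := hU.extend hUs
  have hW : LinearIndepOn ℂ id W := hU.linearIndepOn_extend hUs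
  have hUW : U ⊆ W := hU.subset_extend hUs
  have hWs : W ⊆ s := hU.extend_subset hUs
  have hspan : Submodule.span ℂ W = ⊤ := by
    rw [eq_top_iff, ← hs, Submodule.span_le]
    exact hU.subset_span_extend hUs
  have hWli : LinearIndependent ℂ (Subtype.val : W → (Fin k → ℂ)) := hW
  let bW : Module.Basis W ℂ (Fin k → ℂ) := Module.Basis.mk hWli (by
    rw [Subtype.range_coe_subtype]
    exact hspan.ge)
  have hfin : Finite W := Module.Finite.finite_basis bW
  have : Fintype W := Fintype.ofFinite _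
  have hcard : Fintype.card W = k := by
    have := Module.finrank_eq_card_basis bW
    rw [Module.finrank_fintype_fun_eq_card, Fintype.card_fin] at this
    exact this.symm
  -- injection of the given part
  let f₀ : {j // b j ≠ 0} → W := fun j => ⟨E j, hUW ⟨j, j.2, rfl⟩⟩
  have hf₀ : Function.Injective f₀ := by
    intro i j h
    have h1 := congrArg Subtype.val h
    exact Subtype.ext (hE.injective h1)
  have hc : Fintype.card {j // ¬ b j ≠ 0} = Fintype.card {w : W // ¬ w ∈ Set.range f₀} := by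
    have h1 : Fintype.card {j // ¬ b j ≠ 0} = k - Fintype.card {j // b j ≠ 0} := by
      rw [Fintype.card_subtype_compl, Fintype.card_fin]
    have h2 : Fintype.card {w : W // ¬ w ∈ Set.range f₀}
        = k - Fintype.card {w : W // w ∈ Set.range f₀} := by
      rw [Fintype.card_subtype_compl, hcard]
    have h3 : Fintype.card {w : W // w ∈ Set.range f₀} = Fintype.card {j // b j ≠ 0} :=
      Set.card_range_of_injective hf₀
    rw [h1, h2, h3]
  let e := Fintype.equivOfCardEq hc
  let f : Fin k → W := fun j => if h : b j ≠ 0 then f₀ ⟨j, h⟩ else (e ⟨j, h⟩ : W)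
  have hf1 : ∀ j (h : b j ≠ 0), f j = f₀ ⟨j, h⟩ := fun j h => dif_pos h
  have hf2 : ∀ j (h : ¬ b j ≠ 0), f j = (e ⟨j, h⟩ : W) := fun j h => dif_neg h
  have hfinj : Function.Injective f := by
    intro i j h
    by_cases hi : b i ≠ 0
    · by_cases hj : b j ≠ 0
      · rw [hf1 i hi, hf1 j hj] at h
        exact congrArg Subtype.val (hf₀ h)
      · rw [hf1 i hi, hf2 j hj] at h
        exact absurd ⟨_, h⟩ (e ⟨j, hj⟩).2
    · by_cases hj : b j ≠ 0
      · rw [hf2 i hi, hf1 j hj] at h
        exact absurd ⟨_, h.symm⟩ (e ⟨i, hi⟩).2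
      · rw [hf2 i hi, hf2 j hj] at h
        exact congrArg Subtype.val (e.injective (Subtype.ext h))
  refine ⟨fun j => (f j : Fin k → ℂ), hWli.comp f hfinj, fun j => hWs (f j).2, ?_⟩
  intro j hj
  show ((f j : W) : Fin k → ℂ) = _
  rw [hf1 j hj]

lemma alg_smul {L : Type} [Field L] [Algebra ℂ L] (τ : L ≃ₐ[ℂ] L) (c : ℂ) (x : L) :
    τ (c • x) = c • τ x := by simp only [map_smul]

section Rep

variable {q k : ℕ}

/-- linear combinations of the `z_j` -/
noncomputable def linC (q k : ℕ) : (Fin k → ℂ) →ₗ[ℂ] RatField q k :=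
  Fintype.linearCombination ℂ (coordZ (q := q) (k := k))

variable {g : MvPolynomial (Fin k) ℂ} {b : Fin k → ℚ}
  {G : Subgroup (RatField q k ≃ₐ[ℂ] RatField q k)}

end Rep

end Vale.Agent.P283
end
end

section

section

/-!
Linear change of the coordinates `z_j`.
-/

namespace Vale.Agent.P283

open scoped KaehlerDifferential
open MvPolynomial Finset

variable {q k : ℕ} (v : Fin k → (Fin k → ℂ))

/-- the new coordinates -/
noncomputable def newT (q : ℕ) (v : Fin k → (Fin k → ℂ)) : Fin q ⊕ Fin k → RatField q k :=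
  Sum.elim coordX fun j => linC q k (v j)

@[simp] lemma newT_inl (l : Fin q) : newT q v (Sum.inl l) = coordX l := rfl

@[simp] lemma newT_inr (j : Fin k) : newT q v (Sum.inr j) = linC q k (v j) := rfl

/-- linear forms in the variables `z` -/
noncomputable def lform (w : Fin k → ℂ) : MvPolynomial (Fin k) ℂ := ∑ j, C (w j) * X j

/-- linear substitution -/
noncomputable def lsub (q : ℕ) (v : Fin k → (Fin k → ℂ)) :
    Fin q ⊕ Fin k → MvPolynomial (Fin q ⊕ Fin k) ℂ :=
  Sum.elim (fun l => X (Sum.inl l)) fun i => ∑ j, C (v i j) * X (Sum.inr j)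

lemma bind_lsub (v w : Fin k → (Fin k → ℂ)) (h : Matrix.of v * Matrix.of w = 1)
    (p : MvPolynomial (Fin q ⊕ Fin k) ℂ) : bind₁ (lsub q w) (bind₁ (lsub q v) p) = p := by
  classical
  rw [bind₁_bind₁]
  have h1 : (fun i => bind₁ (lsub q w) (lsub q v i)) = X := by
    funext i
    rcases i with l | i
    · simp only [lsub, Sum.elim_inl, bind₁_X_right]
    · simp only [lsub, Sum.elim_inr, map_sum, map_mul, bind₁_X_right, algHom_C,
        MvPolynomial.algebraMap_eq]
      have h2 : ∀ j, (∑ l, v i l * w l j) = if i = j then 1 else 0 := by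
        intro j
        have := congrFun (congrFun h i) j
        rw [Matrix.mul_apply, Matrix.one_apply] at this
        exact this
      simp only [mul_sum]
      rw [Finset.sum_comm]
      have h3 : ∀ j, ∑ l, C (v i l) * (C (w l j) * X (Sum.inr j) : MvPolynomial (Fin q ⊕ Fin k) ℂ)
          = C (if i = j then 1 else 0) * X (Sum.inr j) := by
        intro j
        rw [← h2 j, map_sum, Finset.sum_mul]
        exact Finset.sum_congr rfl fun l _ => by rw [map_mul]; ring
      simp only [h3]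
      rw [Finset.sum_eq_single i]
      · simp
      · intro j _ hj
        rw [if_neg (Ne.symm hj)]; simp
      · intro h; exact absurd (Finset.mem_univ _) h
  rw [h1, bind₁_X_left]
  rfl

variable (hv : LinearIndependent ℂ v)
include hv

lemma exists_inv : ∃ w : Fin k → (Fin k → ℂ), Matrix.of v * Matrix.of w = 1 ∧
    Matrix.of w * Matrix.of v = 1 ∧ (Matrix.of v).det ≠ 0 := by
  have h1 : IsUnit (Matrix.of v) := by
    rw [← Matrix.linearIndependent_rows_iff_isUnit]
    exact hv
  have h2 := (Matrix.isUnit_iff_isUnit_det _).mp h1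
  obtain ⟨W, hW⟩ : ∃ W : Matrix (Fin k) (Fin k) ℂ, W = (Matrix.of v)⁻¹ := ⟨_, rfl⟩
  have e : Matrix.of (fun i j => W i j) = W := rfl
  refine ⟨fun i j => W i j, ?_, ?_, h2.ne_zero⟩
  · rw [e, hW, Matrix.mul_nonsing_inv _ h2]
  · rw [e, hW, Matrix.nonsing_inv_mul _ h2]

end Vale.Agent.P283
end
end

section

section

/-!
The coordinate ring of `X = Y / G`.
-/

namespace Vale.Agent.P283

open MvPolynomial Finset

variable {q k : ℕ} {g : MvPolynomial (Fin k) ℂ} {b : Fin k → ℚ}
  {G : Subgroup (RatField q k ≃ₐ[ℂ] RatField q k)}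

end Vale.Agent.P283
end
end

section

section

/-!
The pullback of a form on `X` and the semi-invariant function attached to it.
-/

namespace Vale.Agent.P283

open scoped KaehlerDifferential
open MvPolynomial Finset

section Generic

variable {K L : Type} [Field K] [Field L] [Algebra ℂ K] [Algebra ℂ L] [Algebra K L]
  [IsScalarTower ℂ K L]

lemma gen_trdeg (halg : Algebra.IsAlgebraic K L) : Algebra.trdeg ℂ K = Algebra.trdeg ℂ L := by
  have hfs1 : FaithfulSMul ℂ K :=
    (faithfulSMul_iff_algebraMap_injective _ _).mpr (algebraMap ℂ K).injective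
  have hfs2 : FaithfulSMul K L :=
    (faithfulSMul_iff_algebraMap_injective _ _).mpr (algebraMap K L).injective
  have h1 : Algebra.trdeg ℂ K + Algebra.trdeg K L = Algebra.trdeg ℂ L :=
    _root_.trdeg_add_eq ℂ K (A := L)
  have h2 : Algebra.trdeg K L = 0 := _root_.trdeg_eq_zero
  rw [h2, add_zero] at h1
  exact h1

lemma gen_trbasis {K : Type} [Field K] [Algebra ℂ K] {n : ℕ}
    (h : Algebra.trdeg ℂ K = (n : Cardinal)) : ∃ β : Fin n → K, IsTranscendenceBasis ℂ β := by
  have hfs1 : FaithfulSMul ℂ K :=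
    (faithfulSMul_iff_algebraMap_injective _ _).mpr (algebraMap ℂ K).injective
  obtain ⟨ι, x, hx⟩ := exists_isTranscendenceBasis' ℂ K
  have h1 := hx.cardinalMk_eq_trdeg
  rw [h] at h1
  have h2 : Cardinal.mk ι = Cardinal.mk (Fin n) := by rw [h1]; simp only [Cardinal.mk_fintype, Fintype.card_fin]
  obtain ⟨e⟩ := Cardinal.eq.mp h2
  exact ⟨x ∘ e.symm, (isTranscendenceBasis_equiv e.symm).mpr hx⟩

/-- existence and nonvanishing of the pullback of a form -/
theorem gen_pullback (halg : Algebra.IsAlgebraic K L) {d : ℕ}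
    (htr : Algebra.trdeg ℂ L = (d : Cardinal)) (ω : ⋀[K]^d (Ω[K⁄ℂ])) (hω : ω ≠ 0) :
    ∃ (a : K) (β : Fin d → K), ω = a • wedgeD d β ∧
      algebraMap K L a • wedgeD d (fun i => algebraMap K L (β i)) ≠ 0 := by
  have htrK : Algebra.trdeg ℂ K = (d : Cardinal) := by rw [gen_trdeg halg, htr]
  obtain ⟨β, hβ⟩ := gen_trbasis htrK
  obtain ⟨BK, hBK⟩ := exists_kaehler_basis _ hβ
  obtain ⟨a, ha⟩ := exists_eq_smul_wedgeD BK hBK ω
  have ha0 : a ≠ 0 := by
    rintro rfl
    exact hω (by rw [ha, zero_smul])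
  have hind : AlgebraicIndependent ℂ (fun i => algebraMap K L (β i)) :=
    hβ.1.map' (f := IsScalarTower.toAlgHom ℂ K L) (algebraMap K L).injective
  have htb : IsTranscendenceBasis ℂ (fun i => algebraMap K L (β i)) :=
    hind.isTranscendenceBasis_of_trdeg_le_of_finite (by rw [htr]; simp only [Cardinal.mk_fintype, Fintype.card_fin, Std.le_refl])
  obtain ⟨BL, hBL⟩ := exists_kaehler_basis _ htb
  exact ⟨a, β, ha, smul_ne_zero ((map_ne_zero _).mpr ha0) (wedgeD_basis_ne_zero BL hBL)⟩

end Generic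

variable {q k : ℕ} {g : MvPolynomial (Fin k) ℂ} {b : Fin k → ℚ}
  {G : Subgroup (RatField q k ≃ₐ[ℂ] RatField q k)}

end Vale.Agent.P283
end
end

section

section

/-!
Monomial valuations on a field of rational functions.
-/

open MvPolynomial

namespace Vale.Agent.P283

section MonoVal

variable {σ : Type}

lemma prod_single {Γ : Type*} [AddCommMonoid Γ] [PartialOrder Γ] [IsOrderedCancelAddMonoid Γ]
    {A ι : Type*} [CommRing A] (s : Finset ι) (a : ι → Γ) (x : ι → A) :
    ∏ i ∈ s, HahnSeries.single (a i) (x i) = HahnSeries.single (∑ i ∈ s, a i) (∏ i ∈ s, x i) := by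
  classical
  induction s using Finset.induction_on with
  | empty => simp only [Finset.prod_empty, Finset.sum_empty, HahnSeries.single_zero_one]
  | insert i s hi ih =>
    rw [Finset.prod_insert hi, Finset.sum_insert hi, Finset.prod_insert hi, ih,
      HahnSeries.single_mul_single]

lemma single_pow' {Γ : Type*} [AddCommMonoid Γ] [PartialOrder Γ] [IsOrderedCancelAddMonoid Γ]
    {A : Type*} [CommRing A] (a : Γ) (x : A) (n : ℕ) :
    (HahnSeries.single a x) ^ n = HahnSeries.single (n • a) (x ^ n) := by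
  simp only [HahnSeries.single_pow]

variable (F : Type) [Field F] [Algebra ℂ F] [Algebra (MvPolynomial σ ℂ) F]

/-- the homomorphism `X_i ↦ X_i T^{b_i}` -/
noncomputable def psi0 (b : σ → ℤ) : MvPolynomial σ ℂ →+* HahnSeries ℤ F :=
  eval₂Hom ((HahnSeries.C : F →+* HahnSeries ℤ F).comp (algebraMap ℂ F))
    fun i => HahnSeries.single (b i) (algebraMap (MvPolynomial σ ℂ) F (X i))

variable [Fintype σ]

/-- weight of a monomial -/
def wt (b : σ → ℤ) (m : σ →₀ ℕ) : ℤ := ∑ i, b i * m i

variable [IsScalarTower ℂ (MvPolynomial σ ℂ) F]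

lemma psi0_monomial (b : σ → ℤ) (m : σ →₀ ℕ) (c : ℂ) :
    psi0 F b (monomial m c) = HahnSeries.single (wt b m) (algebraMap (MvPolynomial σ ℂ) F (monomial m c)) := by
  classical
  rw [psi0, eval₂Hom_monomial, Finsupp.prod_fintype _ _ (fun i => by simp)]
  simp only [single_pow']
  rw [prod_single]
  have h1 : ((HahnSeries.C : F →+* HahnSeries ℤ F).comp (algebraMap ℂ F)) c
      = HahnSeries.single 0 (algebraMap ℂ F c) := rfl
  rw [h1, HahnSeries.single_mul_single, zero_add]
  have h2 : ∑ i, m i • b i = wt b m := by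
    unfold wt
    exact Finset.sum_congr rfl fun i _ => by rw [nsmul_eq_mul, mul_comm]
  have h3 : algebraMap ℂ F c * ∏ i, (algebraMap (MvPolynomial σ ℂ) F (X i)) ^ m i
      = algebraMap (MvPolynomial σ ℂ) F (monomial m c) := by
    rw [monomial_eq, map_mul, Finsupp.prod_fintype _ _ (fun i => by simp), map_prod,
      IsScalarTower.algebraMap_apply ℂ (MvPolynomial σ ℂ) F, MvPolynomial.algebraMap_eq]
    simp only [map_pow]
  rw [h2, h3]

lemma psi0_coeff (b : σ → ℤ) (p : (MvPolynomial σ ℂ)) (k : ℤ) :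
    (psi0 F b p).coeff k = algebraMap (MvPolynomial σ ℂ) F
      (∑ m ∈ p.support.filter (fun m => wt b m = k), monomial m (coeff m p)) := by
  classical
  conv_lhs => rw [← MvPolynomial.support_sum_monomial_coeff p]
  rw [map_sum, HahnSeries.coeff_sum, map_sum, Finset.sum_filter]
  refine Finset.sum_congr rfl fun m _ => ?_
  rw [psi0_monomial, HahnSeries.coeff_single]
  by_cases h : wt b m = k
  · rw [if_pos h.symm, if_pos h]
  · rw [if_neg (Ne.symm h), if_neg h]

variable [IsFractionRing (MvPolynomial σ ℂ) F]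

lemma coeff_ne_zero_of (b : σ → ℤ) (p : (MvPolynomial σ ℂ)) (m : σ →₀ ℕ) (hm : m ∈ p.support) :
    (psi0 F b p).coeff (wt b m) ≠ 0 := by
  classical
  rw [psi0_coeff]
  intro h
  have h1 := (IsFractionRing.injective (MvPolynomial σ ℂ) F) (h.trans (map_zero _).symm)
  have h2 := congrArg (coeff m) h1
  rw [coeff_sum, coeff_zero] at h2
  simp only [coeff_monomial] at h2
  have h3 : m ∈ p.support.filter (fun m' => wt b m' = wt b m) := Finset.mem_filter.mpr ⟨hm, rfl⟩
  rw [Finset.sum_ite_eq', if_pos h3] at h2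
  exact (mem_support_iff.mp hm) h2

lemma psi0_injective (b : σ → ℤ) : Function.Injective (psi0 (σ := σ) F b) := by
  rw [injective_iff_map_eq_zero]
  intro p hp
  by_contra hne
  obtain ⟨m, hm⟩ := (MvPolynomial.support_nonempty).mpr hne
  have := coeff_ne_zero_of F b p m hm
  rw [hp] at this
  simp at this

lemma psi0_orderTop (b : σ → ℤ) (p : (MvPolynomial σ ℂ)) (m : σ →₀ ℕ) (hm : m ∈ p.support)
    (hmin : ∀ m' ∈ p.support, wt b m ≤ wt b m') : (psi0 F b p).orderTop = (wt b m : WithTop ℤ) := by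
  classical
  have h1 := coeff_ne_zero_of F b p m hm
  have h0 : psi0 F b p ≠ 0 := by
    intro h; rw [h] at h1; simp at h1
  rw [← HahnSeries.order_eq_orderTop_of_ne_zero h0]
  congr 1
  refine le_antisymm (HahnSeries.order_le_of_coeff_ne_zero h1) ?_
  by_contra hlt
  push Not at hlt
  have h2 : (psi0 F b p).coeff (psi0 F b p).order ≠ 0 := HahnSeries.coeff_order_eq_zero.not.mpr h0
  apply h2
  rw [psi0_coeff]
  rw [Finset.filter_eq_empty_iff.mpr]
  · simp
  · intro m' hm' heq
    have := hmin m' hm'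
    omega

/-- the extension to the fraction field -/
noncomputable def psi (b : σ → ℤ) : F →+* HahnSeries ℤ F :=
  IsFractionRing.lift (psi0_injective (σ := σ) F b)

lemma psi_algebraMap (b : σ → ℤ) (p : (MvPolynomial σ ℂ)) : psi F b (algebraMap (MvPolynomial σ ℂ) F p) = psi0 F b p :=
  IsFractionRing.lift_algebraMap (psi0_injective (σ := σ) F b) p

/-- the monomial valuation -/
noncomputable def monoVal (b : σ → ℤ) : AddValuation F (WithTop ℤ) :=
  (HahnSeries.addVal ℤ F).comap (psi F b)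

lemma monoVal_apply (b : σ → ℤ) (x : F) : monoVal F b x = (psi F b x).orderTop := by
  show (HahnSeries.addVal ℤ F) (psi F b x) = _
  rw [HahnSeries.addVal_apply]

lemma monoVal_poly (b : σ → ℤ) (p : (MvPolynomial σ ℂ)) (m : σ →₀ ℕ) (hm : m ∈ p.support)
    (hmin : ∀ m' ∈ p.support, wt b m ≤ wt b m') :
    monoVal F b (algebraMap (MvPolynomial σ ℂ) F p) = (wt b m : WithTop ℤ) := by
  rw [monoVal_apply, psi_algebraMap, psi0_orderTop F b p m hm hmin]

omit [Fintype σ] [Algebra ℂ F] [IsScalarTower ℂ (MvPolynomial σ ℂ) F] in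
lemma algebraMap_X_ne_zero (i : σ) : algebraMap (MvPolynomial σ ℂ) F (X i) ≠ 0 := by
  intro h
  exact X_ne_zero i ((IsFractionRing.injective (MvPolynomial σ ℂ) F) (h.trans (map_zero _).symm))

/-- Laurent monomials in a general model of the fraction field -/
noncomputable def monoF (E : σ → ℤ) : F := ∏ i, (algebraMap (MvPolynomial σ ℂ) F (X i)) ^ E i

omit [Algebra ℂ F] [IsScalarTower ℂ (MvPolynomial σ ℂ) F] in
lemma monoF_ne_zero (E : σ → ℤ) : monoF F E ≠ 0 :=
  Finset.prod_ne_zero_iff.mpr fun i _ => zpow_ne_zero _ (algebraMap_X_ne_zero F i)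

lemma psi_mono (b : σ → ℤ) (E : σ → ℤ) :
    psi F b (monoF F E) = HahnSeries.single (∑ i, b i * E i) (monoF F E) := by
  classical
  unfold monoF
  rw [map_prod]
  have h1 : ∀ i, psi F b ((algebraMap (MvPolynomial σ ℂ) F (X i)) ^ E i)
      = HahnSeries.single (b i * E i) ((algebraMap (MvPolynomial σ ℂ) F (X i)) ^ E i) := by
    intro i
    have h2 : psi F b (algebraMap (MvPolynomial σ ℂ) F (X i)) = HahnSeries.single (b i) (algebraMap (MvPolynomial σ ℂ) F (X i)) := by
      rw [psi_algebraMap, psi0, eval₂Hom_X']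
    have h3 : ∀ n : ℕ, psi F b ((algebraMap (MvPolynomial σ ℂ) F (X i)) ^ n)
        = HahnSeries.single (b i * n) ((algebraMap (MvPolynomial σ ℂ) F (X i)) ^ n) := by
      intro n
      rw [map_pow, h2, single_pow', nsmul_eq_mul, mul_comm]
    obtain ⟨n, hn | hn⟩ := (E i).eq_nat_or_neg
    · rw [hn, zpow_natCast]; exact h3 n
    · rw [hn, zpow_neg, zpow_natCast, map_inv₀, h3 n]
      rw [inv_eq_of_mul_eq_one_left]
      rw [HahnSeries.single_mul_single]
      rw [mul_neg, neg_add_cancel, inv_mul_cancel₀ (pow_ne_zero _ (algebraMap_X_ne_zero F i))]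
      rfl
  simp only [h1]
  rw [prod_single]

lemma monoVal_mono (b : σ → ℤ) (E : σ → ℤ) :
    monoVal F b (monoF F E) = ((∑ i, b i * E i : ℤ) : WithTop ℤ) := by
  rw [monoVal_apply, psi_mono]
  exact HahnSeries.orderTop_single (monoF_ne_zero F E)

lemma psi_const (b : σ → ℤ) (c : ℂ) :
    psi F b (algebraMap ℂ F c) = (HahnSeries.C : F →+* HahnSeries ℤ F) (algebraMap ℂ F c) := by
  rw [IsScalarTower.algebraMap_apply ℂ (MvPolynomial σ ℂ) F, psi_algebraMap, MvPolynomial.algebraMap_eq, psi0,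
    eval₂Hom_C, ← MvPolynomial.algebraMap_eq, ← IsScalarTower.algebraMap_apply ℂ (MvPolynomial σ ℂ) F]
  rfl

omit [Algebra ℂ F] [IsScalarTower ℂ (MvPolynomial σ ℂ) F] in
lemma monoF_add (E E' : σ → ℤ) : monoF F (E + E') = monoF F E * monoF F E' := by
  unfold monoF
  rw [← Finset.prod_mul_distrib]
  exact Finset.prod_congr rfl fun i _ => by
    rw [Pi.add_apply, zpow_add₀ (algebraMap_X_ne_zero F i)]

omit [Algebra ℂ F] [IsScalarTower ℂ (MvPolynomial σ ℂ) F] [IsFractionRing (MvPolynomial σ ℂ) F] in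
lemma monoF_zero : monoF (σ := σ) F 0 = 1 := by
  unfold monoF
  simp only [Pi.zero_apply, zpow_ofNat, pow_zero, Finset.prod_const_one]

omit [Algebra ℂ F] [IsScalarTower ℂ (MvPolynomial σ ℂ) F] in
lemma monoF_pow (E : σ → ℤ) (n : ℕ) : monoF F E ^ n = monoF F (n • E) := by
  induction n with
  | zero => rw [pow_zero, zero_smul, monoF_zero]
  | succ n ih => rw [pow_succ, ih, succ_nsmul, monoF_add]

omit [Algebra ℂ F] [IsScalarTower ℂ (MvPolynomial σ ℂ) F] in
lemma monoF_sum {ι : Type*} (s : Finset ι) (E : ι → σ → ℤ) :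
    monoF F (∑ i ∈ s, E i) = ∏ i ∈ s, monoF F (E i) := by
  classical
  induction s using Finset.induction_on with
  | empty => simp [monoF_zero]
  | insert i s hi ih => rw [Finset.sum_insert hi, Finset.prod_insert hi, monoF_add, ih]

/-- distinct Laurent monomials are linearly independent -/
lemma laurent_indep {ι : Type*} (s : Finset ι) (f : ι → σ → ℤ) (hf : Set.InjOn f s) (c : ι → ℂ)
    (h : ∑ m ∈ s, algebraMap ℂ F (c m) * monoF F (f m) = 0) : ∀ m ∈ s, c m = 0 := by
  classical
  let N : σ → ℕ := fun i => ∑ m ∈ s, (f m i).natAbs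
  have hN : ∀ m ∈ s, ∀ i, 0 ≤ f m i + N i := by
    intro m hm i
    have h1 : (f m i).natAbs ≤ N i :=
      Finset.single_le_sum (f := fun m => (f m i).natAbs) (fun _ _ => Nat.zero_le _) hm
    omega
  let e : ι → σ →₀ ℕ := fun m => Finsupp.equivFunOnFinite.symm fun i => (f m i + N i).toNat
  have he : ∀ m ∈ s, ∀ i, ((e m i : ℕ) : ℤ) = f m i + N i := by
    intro m hm i
    exact Int.toNat_of_nonneg (hN m hm i)
  have h1 : ∀ m ∈ s, algebraMap ℂ F (c m) * monoF F (f m) * monoF F (fun i => (N i : ℤ))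
      = algebraMap (MvPolynomial σ ℂ) F (monomial (e m) (c m)) := by
    intro m hm
    rw [mul_assoc, ← monoF_add, monomial_eq, map_mul, Finsupp.prod_fintype _ _ (fun i => by simp),
      map_prod, IsScalarTower.algebraMap_apply ℂ (MvPolynomial σ ℂ) F, MvPolynomial.algebraMap_eq]
    congr 1
    unfold monoF
    refine Finset.prod_congr rfl fun i _ => ?_
    rw [map_pow, Pi.add_apply, ← he m hm i, zpow_natCast]
  have h2 : algebraMap (MvPolynomial σ ℂ) F (∑ m ∈ s, monomial (e m) (c m)) = 0 := by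
    rw [map_sum, ← Finset.sum_congr rfl h1, ← Finset.sum_mul, h, zero_mul]
  have h3 := (IsFractionRing.injective (MvPolynomial σ ℂ) F) (h2.trans (map_zero _).symm)
  have hinj : Set.InjOn e s := by
    intro m hm m' hm' heq
    apply hf hm hm'
    funext i
    have h4 := he m hm i
    rw [heq, he m' hm' i] at h4
    linarith only [h4]
  intro m hm
  have h4 := congrArg (coeff (e m)) h3
  rw [coeff_sum, coeff_zero] at h4
  simp only [coeff_monomial] at h4
  rw [Finset.sum_eq_single m] at h4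
  · simpa using h4
  · intro m' hm' hne
    rw [if_neg]
    intro heq
    exact hne (hinj hm' hm heq)
  · intro h; exact absurd hm h

omit [IsScalarTower ℂ (MvPolynomial σ ℂ) F] in
lemma aeval_monoF {n : ℕ} (E : Fin n → σ → ℤ) (P : MvPolynomial (Fin n) ℂ) :
    aeval (fun i => monoF F (E i)) P
      = ∑ m ∈ P.support, algebraMap ℂ F (coeff m P) * monoF F (∑ i, m i • E i) := by
  rw [aeval_def, eval₂_eq']
  refine Finset.sum_congr rfl fun m _ => ?_
  congr 1
  rw [monoF_sum]
  exact Finset.prod_congr rfl fun i _ => monoF_pow F _ _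

lemma monoVal_aeval (b : σ → ℤ) {n : ℕ} (E : Fin n → σ → ℤ) (hE : ∀ i, ∑ j, b j * E i j = 0)
    (hinj : Function.Injective (fun m : Fin n →₀ ℕ => ∑ i, m i • E i))
    (P : MvPolynomial (Fin n) ℂ) (hP : P ≠ 0) :
    monoVal F b (aeval (fun i => monoF F (E i)) P) = 0 := by
  set y := aeval (fun i => monoF F (E i)) P with hy
  have h1 : psi F b y = (HahnSeries.C : F →+* HahnSeries ℤ F) y := by
    have h2 : (psi F b).comp (aeval (fun i => monoF F (E i)) : MvPolynomial (Fin n) ℂ →ₐ[ℂ] F).toRingHom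
        = (HahnSeries.C : F →+* HahnSeries ℤ F).comp
          (aeval (fun i => monoF F (E i)) : MvPolynomial (Fin n) ℂ →ₐ[ℂ] F).toRingHom := by
      apply MvPolynomial.ringHom_ext
      · intro c
        simp only [RingHom.comp_apply, AlgHom.toRingHom_eq_coe, RingHom.coe_coe, aeval_C]
        exact psi_const F b c
      · intro i
        simp only [RingHom.comp_apply, AlgHom.toRingHom_eq_coe, RingHom.coe_coe, aeval_X]
        rw [psi_mono, hE i]
        rfl
    exact RingHom.congr_fun h2 P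
  have h0 : y ≠ 0 := by
    intro h0
    apply hP
    rw [hy, aeval_monoF] at h0
    have h2 := laurent_indep F P.support (fun m => ∑ i, m i • E i) hinj.injOn (fun m => coeff m P) h0
    ext m
    rw [coeff_zero]
    by_contra hm
    exact hm (h2 m (mem_support_iff.mpr hm))
  rw [monoVal_apply, h1]
  exact HahnSeries.orderTop_single h0

end MonoVal

theorem exists_monomial_valuation {σ : Type} [Fintype σ] (a : σ → ℕ) (ha : a ≠ 0) :
    ∃ (w : AddValuation (FractionRing (MvPolynomial σ ℂ)) (WithTop ℤ)) (g : ℕ), 0 < g ∧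
      (∀ c : ℂ, c ≠ 0 → w (algebraMap ℂ _ c) = 0) ∧
      (∃ E : σ → ℤ, w (mono E) = 1) ∧
      (∃ E : Fin (Fintype.card σ - 1) → σ → ℤ, ∀ P : MvPolynomial (Fin (Fintype.card σ - 1)) ℂ,
        P ≠ 0 → w (MvPolynomial.aeval (fun i => mono (E i)) P) = 0) ∧
      ∀ p : MvPolynomial σ ℂ, p ≠ 0 → ∃ m ∈ p.support,
        g • w (algebraMap _ (FractionRing (MvPolynomial σ ℂ)) p)
          = (((∑ i, a i * m i : ℕ) : ℤ) : WithTop ℤ) ∧
        ∀ m' ∈ p.support, ∑ i, a i * m i ≤ ∑ i, a i * m' i := by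
  classical
  -- the gcd of the weights
  let φ : (σ → ℤ) →+ ℤ :=
    { toFun := fun E => ∑ i, (a i : ℤ) * E i
      map_zero' := by simp only [Pi.zero_apply, mul_zero, Finset.sum_const_zero]
      map_add' := fun x y => by simp only [Pi.add_apply, mul_add, Finset.sum_add_distrib] }
  obtain ⟨g0, hg0⟩ := Int.subgroup_cyclic φ.range
  let g : ℕ := g0.natAbs
  have hmem : ∀ x, x ∈ φ.range ↔ (g : ℤ) ∣ x := by
    intro x
    rw [hg0, AddSubgroup.mem_closure_singleton]
    constructor
    · rintro ⟨n, rfl⟩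
      rw [smul_eq_mul]
      exact Dvd.dvd.mul_left (Int.natAbs_dvd.mpr dvd_rfl) n
    · intro h
      obtain ⟨n, hn⟩ := Int.natAbs_dvd.mp h
      exact ⟨n, by rw [smul_eq_mul, hn, mul_comm]⟩
  have hdvd : ∀ i, (g : ℤ) ∣ (a i : ℤ) := by
    intro i
    rw [← hmem]
    refine ⟨Pi.single i 1, ?_⟩
    show ∑ j, (a j : ℤ) * (Pi.single i (1 : ℤ) : σ → ℤ) j = a i
    simp [Pi.single_apply]
  obtain ⟨i0, hi0⟩ : ∃ i, a i ≠ 0 := by
    by_contra hcon
    push Not at hcon
    exact ha (funext hcon)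
  have hg : 0 < g := by
    rcases Nat.eq_zero_or_pos g with h | h
    · exfalso
      have h1 := hdvd i0
      rw [h] at h1
      have : (a i0 : ℤ) = 0 := by simpa only [Int.natCast_eq_zero, CharP.cast_eq_zero, zero_dvd_iff] using h1
      exact hi0 (by exact_mod_cast this)
    · exact h
  choose b hb using hdvd
  obtain ⟨E1, hE1⟩ : ∃ E : σ → ℤ, ∑ i, b i * E i = 1 := by
    obtain ⟨E, hE⟩ := (hmem g).mpr dvd_rfl
    refine ⟨E, ?_⟩
    have h1 : ∑ i, (a i : ℤ) * E i = g := hE
    have h2 : (g : ℤ) * ∑ i, b i * E i = g * 1 := by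
      rw [Finset.mul_sum, mul_one]
      refine Eq.trans ?_ h1
      exact Finset.sum_congr rfl fun i _ => by rw [hb i]; ring
    exact mul_left_cancel₀ (by exact_mod_cast hg.ne') h2
  have hmono : ∀ E : σ → ℤ, mono E = monoF (FractionRing (MvPolynomial σ ℂ)) E := fun E => rfl
  refine ⟨monoVal (FractionRing (MvPolynomial σ ℂ)) b, g, hg, ?_, ?_, ?_, ?_⟩
  · intro c hc
    rw [monoVal_apply, psi_const]
    refine HahnSeries.orderTop_single ?_
    exact (map_ne_zero _).mpr hc
  · exact ⟨E1, by rw [hmono, monoVal_mono, hE1]; rfl⟩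
  · -- residually transcendental elements
    let e : {j : σ // j ≠ i0} ≃ Fin (Fintype.card σ - 1) :=
      Fintype.equivFinOfCardEq (by rw [Fintype.card_subtype_compl, Fintype.card_subtype_eq])
    let E : Fin (Fintype.card σ - 1) → σ → ℤ := fun i =>
      (b i0) • Pi.single (e.symm i : σ) (1 : ℤ) - (b (e.symm i)) • Pi.single i0 (1 : ℤ)
    have hbi0 : b i0 ≠ 0 := by
      intro h0
      have := hb i0
      rw [h0, mul_zero] at this
      exact hi0 (by exact_mod_cast this)
    have hEb : ∀ i, ∑ j, b j * E i j = 0 := by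
      intro i
      simp only [Pi.sub_apply, Pi.smul_apply, Pi.single_apply, smul_eq_mul, mul_ite, mul_one, mul_zero, mul_sub, Finset.sum_sub_distrib, Finset.sum_ite_eq', Finset.mem_univ, if_true, E]
      ring
    have hinj : Function.Injective (fun m : Fin (Fintype.card σ - 1) →₀ ℕ => ∑ i, m i • E i) := by
      intro m m' h
      have hval : ∀ (m : Fin (Fintype.card σ - 1) →₀ ℕ) (i : Fin (Fintype.card σ - 1)),
          (∑ l, m l • E l) (e.symm i : σ) = m i * b i0 := by
        intro m i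
        rw [Finset.sum_apply, Finset.sum_eq_single i]
        · have h1 : ((e.symm i : σ)) ≠ i0 := (e.symm i).2
          simp only [E, Pi.smul_apply, Pi.sub_apply, Pi.single_eq_same, smul_eq_mul, mul_one,
            Pi.single_eq_of_ne h1, mul_zero, sub_zero, nsmul_eq_mul]
        · intro l _ hl
          have h1 : ((e.symm i : σ)) ≠ i0 := (e.symm i).2
          have h2 : (e.symm i : σ) ≠ (e.symm l : σ) := by
            intro h
            exact hl (e.symm.injective (Subtype.ext h)).symm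
          simp only [Pi.smul_apply, Pi.sub_apply, Pi.single_eq_of_ne h2, smul_zero, Pi.single_eq_of_ne h1, sub_zero, E]
        · intro h; exact absurd (Finset.mem_univ _) h
      ext i
      have h1 := congrFun h (e.symm i : σ)
      simp only at h1
      rw [hval m i, hval m' i] at h1
      exact_mod_cast mul_right_cancel₀ hbi0 h1
    refine ⟨E, fun P hP => ?_⟩
    exact monoVal_aeval (FractionRing (MvPolynomial σ ℂ)) b E hEb hinj P hP
  · intro p hp
    obtain ⟨m, hm, hmin⟩ := Finset.exists_min_image p.support (fun m => ∑ i, a i * m i)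
      ((MvPolynomial.support_nonempty).mpr hp)
    have hwt : ∀ m : σ →₀ ℕ, ((∑ i, a i * m i : ℕ) : ℤ) = g * wt b m := by
      intro m
      push_cast
      rw [wt, Finset.mul_sum]
      exact Finset.sum_congr rfl fun i _ => by rw [hb i]; ring
    have hmin' : ∀ m' ∈ p.support, wt b m ≤ wt b m' := by
      intro m' hm'
      have h1 : ((∑ i, a i * m i : ℕ) : ℤ) ≤ ((∑ i, a i * m' i : ℕ) : ℤ) := by
        exact_mod_cast hmin m' hm'
      rw [hwt, hwt] at h1
      exact le_of_mul_le_mul_left h1 (by exact_mod_cast hg)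
    refine ⟨m, hm, ?_, hmin⟩
    rw [monoVal_poly (FractionRing (MvPolynomial σ ℂ)) b p m hm hmin', hwt, ← WithTop.coe_nsmul,
      nsmul_eq_mul]

end Vale.Agent.P283
end
end

section

section

/-!
First consequences of the engine data.
-/

set_option linter.style.haveILetI false

namespace Vale.Agent.P283

open scoped KaehlerDifferential
open MvPolynomial Finset

section FG

/-- A subfield of a finitely generated field with algebraic quotient is finitely generated. -/
theorem essFiniteType_sub {K L : Type} [Field K] [Field L] [Algebra ℂ K] [Algebra ℂ L]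
    [Algebra K L] [IsScalarTower ℂ K L] [Algebra.IsAlgebraic K L] [Algebra.EssFiniteType ℂ L] :
    Algebra.EssFiniteType ℂ K := by
  have h1 : Algebra.trdeg ℂ K ≤ Algebra.trdeg ℂ L :=
    trdeg_le_of_injective (IsScalarTower.toAlgHom ℂ K L) (algebraMap K L).injective
  have h2 : Algebra.trdeg ℂ L < Cardinal.aleph0 := trdeg_lt_aleph0 ℂ L
  haveI : FinTrdeg ℂ K := FinTrdeg.of_trdeg (h1.trans_lt h2)
  obtain ⟨F, hF1, hF2⟩ := FinTrdeg.exists_fg_isAlgebraic ℂ K
  haveI := hF2
  haveI : Algebra.EssFiniteType ℂ F := IntermediateField.essFiniteType_iff.2 hF1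
  haveI : IsScalarTower ℂ F L := IsScalarTower.of_algebraMap_eq fun c => by
    rw [IsScalarTower.algebraMap_apply F K L, ← IsScalarTower.algebraMap_apply ℂ F K,
      ← IsScalarTower.algebraMap_apply ℂ K L]
  haveI : Algebra.IsAlgebraic F L := Algebra.IsAlgebraic.trans F K L
  haveI : Algebra.EssFiniteType F L := Algebra.EssFiniteType.of_comp ℂ F L
  haveI : Module.Finite F L := Algebra.finite_of_essFiniteType_of_isAlgebraic
  haveI : Module.Finite F K := Module.Finite.of_injective
    (IsScalarTower.toAlgHom F K L).toLinearMap (algebraMap K L).injective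
  exact Algebra.EssFiniteType.comp ℂ F K

end FG

section Integral

variable {K L : Type} [Field K] [Field L] [Algebra ℂ K] [Algebra ℂ L]
    [Algebra K L] [IsScalarTower ℂ K L]

omit [Algebra ℂ L] [IsScalarTower ℂ K L] in
/-- A valuation which is nonnegative on `A` is nonnegative on integral elements. -/
theorem nonneg_of_integral {A : Subalgebra ℂ K} {w : AddValuation L (WithTop ℤ)}
    (hA : ∀ a ∈ A, 0 ≤ w (algebraMap K L a)) {f : L} (hf : IsIntegral A f) : 0 ≤ w f := by
  have h1 : IsIntegral (vRing w) f := by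
    obtain ⟨p, hp, hpf⟩ := hf
    let φ : A →+* vRing w :=
      { toFun := fun a => ⟨algebraMap K L a, hA a a.2⟩
        map_one' := by ext; simp only [OneMemClass.coe_one, map_one]
        map_mul' := fun a b => by ext; simp only [MulMemClass.coe_mul, map_mul]
        map_zero' := by ext; simp only [ZeroMemClass.coe_zero, map_zero]
        map_add' := fun a b => by ext; simp only [AddMemClass.coe_add, map_add] }
    refine ⟨p.map φ, hp.map φ, ?_⟩
    rw [Polynomial.eval₂_map]
    exact hpf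
  obtain ⟨y, hy⟩ := IsIntegrallyClosed.isIntegral_iff.1 h1
  rw [← hy]
  exact y.2

end Integral

theorem comap_apply' {L : Type} [Field L] [Algebra ℂ L] (w : AddValuation L (WithTop ℤ))
    (τ : L ≃ₐ[ℂ] L) (f : L) : (w.comap (τ : L →+* L)) f = w (τ f) := rfl

namespace EngineData

variable {q k J : ℕ} {K L : Type} [Field K] [Field L] [Algebra ℂ K] [Algebra ℂ L]
    [Algebra K L] [IsScalarTower ℂ K L] {t : Fin q ⊕ Fin k → L} {g : MvPolynomial (Fin k) ℂ} {x0 : L}
    {G G0 : Subgroup (L ≃ₐ[ℂ] L)} {A : Subalgebra ℂ K} (H : EngineData q k J t g x0 G G0 A)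
include H

theorem isAlgebraic : Algebra.IsAlgebraic K L := by
  constructor
  intro f
  have h0 : ∀ i, IsAlgebraic K (t i) := by
    intro i
    have h1 : IsIntegral K (t i) := by
      obtain ⟨p, hp, hpf⟩ := H.int i
      refine ⟨p.map (algebraMap A K), hp.map _, ?_⟩
      rw [Polynomial.eval₂_map, ← IsScalarTower.algebraMap_eq A K L]
      exact hpf
    exact h1.isAlgebraic
  have h1 : ∀ p : MvPolynomial (Fin q ⊕ Fin k) ℂ, IsAlgebraic K (aeval t p) := by
    intro p
    induction p using MvPolynomial.induction_on with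
    | C a =>
      rw [algHom_C, IsScalarTower.algebraMap_apply ℂ K L]
      exact isAlgebraic_algebraMap _
    | add p q hp hq => rw [map_add]; exact hp.add hq
    | mul_X p i hp => rw [map_mul, aeval_X]; exact hp.mul (h0 i)
  obtain ⟨p, r, -, rfl⟩ := H.coords.gen f
  rw [div_eq_mul_inv]
  exact (h1 p).mul (h1 r).inv

omit [IsScalarTower ℂ K L] in
theorem essL : Algebra.EssFiniteType ℂ L := H.coords.essFiniteType

theorem essK : Algebra.EssFiniteType ℂ K := by
  haveI := H.isAlgebraic
  haveI := H.essL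
  exact essFiniteType_sub (L := L)

theorem finDim : FiniteDimensional K L := by
  haveI := H.isAlgebraic
  haveI := H.essL
  haveI : Algebra.EssFiniteType K L := Algebra.EssFiniteType.of_comp ℂ K L
  exact Algebra.finite_of_essFiniteType_of_isAlgebraic

omit [IsScalarTower ℂ K L] in
theorem trdegL : Algebra.trdeg ℂ L ≤ ((q + k : ℕ) : Cardinal) := by
  rw [H.coords.trdeg_eq]; simp only [Fintype.card_sum, Fintype.card_fin, Nat.cast_add, Std.le_refl]

theorem trdegK : Algebra.trdeg ℂ K ≤ ((q + k : ℕ) : Cardinal) :=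
  (trdeg_le_of_injective (IsScalarTower.toAlgHom ℂ K L)
    (algebraMap K L).injective).trans H.trdegL

/-- Twisting a valuation by an element of `G`. -/
theorem twist {w : AddValuation L (WithTop ℤ)} {v : AddValuation K (WithTop ℤ)} {e : ℕ}
    (hvw : ∀ f : K, w (algebraMap K L f) = e • v f) {τ : L ≃ₐ[ℂ] L} (hτ : τ ∈ G) (f : K) :
    (w.comap (τ : L →+* L)) (algebraMap K L f) = e • v f := by
  have h1 : τ (algebraMap K L f) = algebraMap K L f := (H.fix _).2 ⟨f, rfl⟩ τ hτ
  rw [comap_apply', h1, hvw]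

end EngineData

/-- An extension of a divisorial valuation is divisorial. -/
theorem isDivisorial_of_ext {K L : Type} [Field K] [Field L] [Algebra ℂ K] [Algebra ℂ L]
    [Algebra K L] [IsScalarTower ℂ K L] {d : ℕ} {v : AddValuation K (WithTop ℤ)}
    {w : AddValuation L (WithTop ℤ)} {e : ℕ} (hv : IsDivisorial d v) (hw : ∃ f, w f = 1)
    (hvw : ∀ f : K, w (algebraMap K L f) = e • v f) : IsDivisorial d w where
  const := by
    intro c hc
    rw [IsScalarTower.algebraMap_apply ℂ K L, hvw, hv.const c hc, nsmul_zero]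
  normalized := hw
  residue := by
    obtain ⟨u, hu⟩ := hv.residue
    refine ⟨fun i => algebraMap K L (u i), ?_⟩
    intro P hP
    have h1 : aeval (fun i => algebraMap K L (u i)) P = algebraMap K L (aeval u P) := by
      rw [← MvPolynomial.aeval_algebraMap_apply]
      rfl
    rw [h1, hvw, hu P hP, nsmul_zero]

theorem comap_normalized {L : Type} [Field L] [Algebra ℂ L] {w : AddValuation L (WithTop ℤ)}
    (hw : ∃ f, w f = 1) (τ : L ≃ₐ[ℂ] L) : ∃ f, (w.comap (τ : L →+* L)) f = 1 := by
  obtain ⟨f, hf⟩ := hw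
  refine ⟨τ.symm f, ?_⟩
  rw [comap_apply', AlgEquiv.apply_symm_apply, hf]

end Vale.Agent.P283
end
end

section

section

/-!
The lattice of invariant Laurent monomials.
-/

set_option linter.style.haveILetI false

namespace Vale.Agent.P283

open scoped KaehlerDifferential
open MvPolynomial Finset

section MonoT

variable {σ L : Type} [Fintype σ] [Field L] [Algebra ℂ L]

/-- Laurent monomials in the coordinates `t`. -/
noncomputable def monoT (t : σ → L) (u : σ → ℤ) : L := ∏ i, t i ^ u i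

variable {t : σ → L} (ht : ∀ i, t i ≠ 0)
include ht

omit [Algebra ℂ L] in
theorem monoT_ne_zero (u : σ → ℤ) : monoT t u ≠ 0 :=
  Finset.prod_ne_zero_iff.2 fun i _ => zpow_ne_zero _ (ht i)

omit [Algebra ℂ L] in
theorem monoT_add (u u' : σ → ℤ) : monoT t (u + u') = monoT t u * monoT t u' := by
  unfold monoT
  rw [← Finset.prod_mul_distrib]
  apply Finset.prod_congr rfl
  intro i _
  rw [Pi.add_apply, zpow_add₀ (ht i)]

omit [Algebra ℂ L] ht in
theorem monoT_zero : monoT t 0 = 1 := by simp only [monoT, Pi.zero_apply, zpow_ofNat, pow_zero, prod_const_one]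

omit [Algebra ℂ L] in
theorem monoT_neg (u : σ → ℤ) : monoT t (-u) = (monoT t u)⁻¹ := by
  have h := monoT_add ht u (-u)
  rw [add_neg_cancel, monoT_zero] at h
  exact (eq_inv_of_mul_eq_one_right h.symm)

omit [Algebra ℂ L] ht in
theorem monoT_nsmul (u : σ → ℤ) (n : ℕ) : monoT t ((n : ℤ) • u) = monoT t u ^ n := by
  unfold monoT
  rw [← Finset.prod_pow]
  apply Finset.prod_congr rfl
  intro i _
  rw [Pi.smul_apply, smul_eq_mul, mul_comm, zpow_mul, zpow_natCast]

/-- The lattice of exponents of the `G₀`-invariant Laurent monomials. -/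
def invLattice (t : σ → L) (ht : ∀ i, t i ≠ 0) (G0 : Subgroup (L ≃ₐ[ℂ] L)) :
    AddSubgroup (σ → ℤ) where
  carrier := {u | ∀ τ ∈ G0, τ (monoT t u) = monoT t u}
  zero_mem' := by
    intro τ _
    rw [monoT_zero, map_one]
  add_mem' := by
    intro u u' hu hu' τ hτ
    rw [monoT_add ht, map_mul, hu τ hτ, hu' τ hτ]
  neg_mem' := by
    intro u hu τ hτ
    rw [monoT_neg ht, map_inv₀, hu τ hτ]

omit ht in
theorem map_monoT {τ : L ≃ₐ[ℂ] L} {χ : σ → ℂ} (hχ : ∀ i, τ (t i) = χ i • t i) (u : σ → ℤ) :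
    τ (monoT t u) = (∏ i, χ i ^ u i) • monoT t u := by
  unfold monoT
  rw [map_prod, Algebra.smul_def, map_prod, ← Finset.prod_mul_distrib]
  apply Finset.prod_congr rfl
  intro i _
  rw [map_zpow₀, hχ, Algebra.smul_def, mul_zpow, map_zpow₀]

omit [Fintype σ] in
theorem char_ne_zero {τ : L ≃ₐ[ℂ] L} {χ : σ → ℂ} (hχ : ∀ i, τ (t i) = χ i • t i) (i : σ) :
    χ i ≠ 0 := by
  intro h
  have h1 := hχ i
  rw [h, zero_smul] at h1
  exact ht i ((map_eq_zero τ).1 h1)

end MonoT

namespace EngineData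

variable {q k J : ℕ} {K L : Type} [Field K] [Field L] [Algebra ℂ K] [Algebra ℂ L]
    [Algebra K L] {t : Fin q ⊕ Fin k → L} {g : MvPolynomial (Fin k) ℂ} {x0 : L}
    {G G0 : Subgroup (L ≃ₐ[ℂ] L)} {A : Subalgebra ℂ K} (H : EngineData q k J t g x0 G G0 A)
include H

theorem x0_ne : x0 ≠ 0 := x0_ne_zero H.coords H.g_ne H.x0_eq

theorem card_smul_mem (u : Fin q ⊕ Fin k → ℤ) :
    (Nat.card G0 : ℤ) • u ∈ invLattice t H.coords.ne_zero G0 := by
  intro τ hτ
  haveI : Finite G := H.fin
  haveI : Finite G0 := Set.Finite.subset (Set.toFinite (G : Set (L ≃ₐ[ℂ] L))) H.le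
  choose χ hχ using H.diag τ hτ
  have h0 := H.coords.ne_zero
  rw [monoT_nsmul, map_pow, map_monoT hχ]
  have h1 : ∀ n : ℕ, (τ ^ n) (monoT t u) = (∏ i, χ i ^ u i) ^ n • monoT t u := by
    intro n
    induction n with
    | zero => simp only [pow_zero, AlgEquiv.one_apply, Fintype.prod_sum_type, one_smul]
    | succ n ih =>
      rw [pow_succ', AlgEquiv.mul_apply, ih, map_smul, map_monoT hχ, smul_smul, pow_succ]
  have h2 : τ ^ Nat.card G0 = 1 := by
    have h3 : (⟨τ, hτ⟩ : G0) ^ Nat.card G0 = 1 := pow_card_eq_one'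
    exact congrArg Subtype.val h3
  have h3 := h1 (Nat.card G0)
  rw [h2, AlgEquiv.one_apply] at h3
  have h4 : (1 : ℂ) = (∏ i, χ i ^ u i) ^ Nat.card G0 := by
    have h5 : (1 : ℂ) • monoT t u = (∏ i, χ i ^ u i) ^ Nat.card G0 • monoT t u := by
      rw [one_smul]; exact h3
    exact smul_left_injective ℂ (monoT_ne_zero h0 u) h5
  rw [smul_pow, ← h4, one_smul]

/-- If a polynomial in `t` is a semi-invariant then all its monomials have the same character. -/
theorem char_eq {τ : L ≃ₐ[ℂ] L} {χ : Fin q ⊕ Fin k → ℂ} (hχ : ∀ i, τ (t i) = χ i • t i)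
    {p : MvPolynomial (Fin q ⊕ Fin k) ℂ} {c : ℂ} (h : τ (aeval t p) = c • aeval t p)
    {m : Fin q ⊕ Fin k →₀ ℕ} (hm : m ∈ p.support) : ∏ i, χ i ^ (m i : ℤ) = c := by
  classical
  let p' : MvPolynomial (Fin q ⊕ Fin k) ℂ := ∑ n ∈ p.support,
    monomial n ((∏ i, χ i ^ (n i : ℤ)) * p.coeff n)
  have h1 : τ (aeval t p) = aeval t p' := by
    conv_lhs => rw [p.as_sum]
    rw [map_sum, map_sum, map_sum]
    apply Finset.sum_congr rfl
    intro n _
    rw [aeval_monomial, aeval_monomial, Finsupp.prod_fintype _ _ (by simp), map_mul,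
      AlgEquiv.commutes]
    have h2 := map_monoT hχ (fun i => (n i : ℤ))
    have h3 : monoT t (fun i => (n i : ℤ)) = ∏ i, t i ^ n i := by simp only [monoT, zpow_natCast, Fintype.prod_sum_type]
    rw [h3] at h2
    rw [h2, map_mul, Algebra.smul_def]
    ring
  have h2 : aeval t p' = aeval t (C c * p) := by
    rw [← h1, h, map_mul, algHom_C, Algebra.smul_def]
  have h3 := H.coords.ind h2
  have h4 := congrArg (coeff m) h3
  rw [coeff_C_mul] at h4
  have h5 : coeff m p' = (∏ i, χ i ^ (m i : ℤ)) * p.coeff m := by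
    simp only [p', coeff_sum, coeff_monomial, Finset.sum_ite_eq', hm, if_true]
  rw [h5] at h4
  exact mul_right_cancel₀ (mem_support_iff.1 hm) h4

/-- Elements of the coordinate ring are Laurent polynomials. -/
theorem laurent (f : L) (hf : f ∈ Algebra.adjoin ℂ (insert x0 (Set.range t))) :
    ∃ (N : ℕ) (p : MvPolynomial (Fin q ⊕ Fin k) ℂ), f * (∏ l, t (Sum.inl l)) ^ N = aeval t p := by
  set T := ∏ l, t (Sum.inl l : Fin q ⊕ Fin k) with hT
  have hTa : T = aeval t (∏ l : Fin q, (X (Sum.inl l) : MvPolynomial (Fin q ⊕ Fin k) ℂ)) := by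
    rw [map_prod]; simp only [hT, aeval_X]
  induction hf using Algebra.adjoin_induction with
  | mem x hx =>
    rcases hx with rfl | ⟨i, rfl⟩
    · refine ⟨1, rename Sum.inr g, ?_⟩
      rw [pow_one, H.x0_eq, aeval_inr]
    · exact ⟨0, X i, by simp⟩
  | algebraMap r => exact ⟨0, C r, by simp⟩
  | add x y _ _ hx hy =>
    obtain ⟨N, p, hp⟩ := hx
    obtain ⟨N', p', hp'⟩ := hy
    refine ⟨N + N', p * (∏ l : Fin q, X (Sum.inl l)) ^ N' + p' * (∏ l : Fin q, X (Sum.inl l)) ^ N,
      ?_⟩
    rw [map_add, map_mul, map_mul, map_pow, map_pow, ← hTa, ← hp, ← hp', pow_add]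
    ring
  | mul x y _ _ hx hy =>
    obtain ⟨N, p, hp⟩ := hx
    obtain ⟨N', p', hp'⟩ := hy
    refine ⟨N + N', p * p', ?_⟩
    rw [map_mul, ← hp, ← hp', pow_add]
    ring

/-- The exponent vector of `x₁ ⋯ x_q`. -/
def oneL (q k : ℕ) : Fin q ⊕ Fin k → ℤ := Sum.elim (fun _ => 1) (fun _ => 0)

omit H [Algebra ℂ L] in
theorem monoT_oneL (t : Fin q ⊕ Fin k → L) : monoT t (oneL q k) = ∏ l, t (Sum.inl l) := by
  simp only [monoT, oneL, Fintype.prod_sum_type, Sum.elim_inl, zpow_ofNat, pow_one, Sum.elim_inr, pow_zero, prod_const_one, mul_one]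

/-- Values of invariant functions under a monomial valuation. -/
theorem lattice_value {w : AddValuation L (WithTop ℤ)} {a : Fin q ⊕ Fin k → ℕ} {g' : ℕ}
    (hw : ∀ p : MvPolynomial (Fin q ⊕ Fin k) ℂ, p ≠ 0 → ∃ m ∈ p.support,
        (g' : ℤ) * ov w (aeval t p) = ∑ i, (a i : ℤ) * m i)
    {f : L} (hf : f ∈ Algebra.adjoin ℂ (insert x0 (Set.range t))) (hf0 : f ≠ 0)
    (hinv : ∀ τ ∈ G0, τ f = f) :
    ∃ u ∈ invLattice t H.coords.ne_zero G0, (g' : ℤ) * ov w f = ∑ i, (a i : ℤ) * u i := by
  obtain ⟨N, p, hp⟩ := H.laurent f hf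
  have h0 := H.coords.ne_zero
  have hT0 : (∏ l, t (Sum.inl l : Fin q ⊕ Fin k)) ≠ 0 := by
    rw [← monoT_oneL]; exact monoT_ne_zero h0 _
  have hp0 : p ≠ 0 := by
    rintro rfl
    rw [map_zero] at hp
    exact (mul_ne_zero hf0 (pow_ne_zero _ hT0)) hp
  obtain ⟨m, hm, hwm⟩ := hw p hp0
  -- the value of the product of the x_l
  have hwT : (g' : ℤ) * ov w (∏ l, t (Sum.inl l : Fin q ⊕ Fin k)) = ∑ i, (a i : ℤ) * oneL q k i := by
    have h1 : (∏ l : Fin q, X (Sum.inl l) : MvPolynomial (Fin q ⊕ Fin k) ℂ)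
        = monomial (Finsupp.equivFunOnFinite.symm (Sum.elim (fun _ => 1) (fun _ => 0))) 1 := by
      rw [monomial_eq, map_one, one_mul, Finsupp.prod_fintype _ _ (by simp)]
      simp only [Finsupp.equivFunOnFinite_symm_apply_apply, Fintype.prod_sum_type, Sum.elim_inl, pow_one, Sum.elim_inr, pow_zero, prod_const_one, mul_one]
    have h2 : (monomial (Finsupp.equivFunOnFinite.symm (Sum.elim (fun _ => 1) (fun _ => 0))
        : Fin q ⊕ Fin k →₀ ℕ) (1 : ℂ)) ≠ 0 := by
      rw [Ne, monomial_eq_zero]; exact one_ne_zero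
    obtain ⟨m', hm', h3⟩ := hw _ h2
    have h4 : m' = Finsupp.equivFunOnFinite.symm (Sum.elim (fun _ => 1) (fun _ => 0)) := by
      have := support_monomial_subset hm'
      simpa using this
    rw [← h1, map_prod] at h3
    simp only [aeval_X] at h3
    rw [h3, h4]
    apply Finset.sum_congr rfl
    intro i _
    rcases i with i | i <;> simp [oneL]
  refine ⟨(fun i => (m i : ℤ)) + (-((N : ℤ) • oneL q k)), ?_, ?_⟩
  · intro τ hτ
    choose χ hχ using H.diag τ hτ
    rw [monoT_add h0, map_mul, map_monoT hχ, map_monoT hχ]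
    have h1 : τ (aeval t p) = ((∏ i, χ i ^ oneL q k i) ^ N) • aeval t p := by
      rw [← hp, map_mul, hinv τ hτ, map_pow, ← monoT_oneL, map_monoT hχ, smul_pow]
      rw [mul_smul_comm]
    have h2 := H.char_eq hχ h1 hm
    rw [h2]
    have h3 : ∏ i, χ i ^ (-((N : ℤ) • oneL q k)) i = ((∏ i, χ i ^ oneL q k i) ^ N)⁻¹ := by
      rw [← Finset.prod_pow, ← Finset.prod_inv_distrib]
      apply Finset.prod_congr rfl
      intro i _
      rw [Pi.neg_apply, Pi.smul_apply, smul_eq_mul, zpow_neg, mul_comm, zpow_mul, zpow_natCast]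
    rw [h3]
    have h4 : ((∏ i, χ i ^ oneL q k i) ^ N) ≠ 0 :=
      pow_ne_zero _ (Finset.prod_ne_zero_iff.2 fun i _ => zpow_ne_zero _ (char_ne_zero h0 hχ i))
    rw [smul_mul_smul_comm, mul_inv_cancel₀ h4, one_smul]
  · have h1 : ov w f = ov w (aeval t p) - N * ov w (∏ l, t (Sum.inl l : Fin q ⊕ Fin k)) := by
      have h2 := congrArg (ov w) hp
      rw [ov_mul w hf0 (pow_ne_zero _ hT0), ov_pow w hT0] at h2
      linarith only [h2]
    rw [h1, mul_sub, hwm]
    have h2 : (g' : ℤ) * (N * ov w (∏ l, t (Sum.inl l : Fin q ⊕ Fin k)))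
        = N * ∑ i, (a i : ℤ) * oneL q k i := by rw [← hwT]; ring
    rw [h2, Finset.mul_sum, ← Finset.sum_sub_distrib]
    apply Finset.sum_congr rfl
    intro i _
    simp only [Pi.add_apply, Pi.neg_apply, Pi.smul_apply, smul_eq_mul]
    ring

end EngineData

end Vale.Agent.P283
end
end

section

section

/-!
Monomial valuations on `L = ℂ(t)` and the order of the logarithmic form.
-/

set_option linter.style.haveILetI false

namespace Vale.Agent.P283

open scoped KaehlerDifferential
open MvPolynomial Finset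

section

variable {σ L : Type} [Fintype σ] [Field L] [Algebra ℂ L] {t : σ → L}

/-- The log order of `dlog t₁ ∧ ⋯ ∧ dlog t_d` is zero along a monomial valuation. -/
theorem formOrder_dlog_mono (ht : IsCoords t) {d : ℕ} (hd : 0 < d) (E : Fin d ≃ σ)
    {w : AddValuation L (WithTop ℤ)} (hconst : ∀ c : ℂ, c ≠ 0 → w (algebraMap ℂ L c) = 0)
    (E0 : σ → ℤ) (hE0 : w (monoT t E0) = 1) (E1 : Fin (d - 1) → σ → ℤ)
    (hE1 : ∀ P : MvPolynomial (Fin (d - 1)) ℂ, P ≠ 0 →
      w (aeval (fun i => monoT t (E1 i)) P) = 0) :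
    FormOrder d w (dlogForm (t ∘ E)) (-1) := by
  classical
  obtain ⟨n, rfl⟩ : ∃ n, d = n + 1 := ⟨d - 1, by omega⟩
  change Fin n → σ → ℤ at E1
  change ∀ P : MvPolynomial (Fin n) ℂ, P ≠ 0 → w (aeval (fun i => monoT t (E1 i)) P) = 0 at hE1
  haveI := ht.essFiniteType
  haveI : CharZero L := charZero_of_injective_algebraMap (algebraMap ℂ L).injective
  have htr : Algebra.trdeg ℂ L ≤ ((n + 1 : ℕ) : Cardinal) := by
    rw [ht.trdeg_eq, ← Fintype.card_congr E]; simp only [Fintype.card_fin, Nat.cast_add, Nat.cast_one, Std.le_refl]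
  obtain ⟨B', hB'⟩ := exists_kaehler_basis t ht.isTranscendenceBasis
  let B := B'.reindex E.symm
  have hB : ∀ i, B i = KaehlerDifferential.D ℂ L ((t ∘ E) i) := by
    intro i
    simp only [B, Module.Basis.reindex_apply, Equiv.symm_symm, hB', Function.comp]
  have hpd : ∀ i, pd B i = pd B' (E i) := by
    intro i
    ext f
    simp only [pd_apply, B, Module.Basis.repr_reindex_apply, Equiv.symm_symm]
  let vec : Fin (n + 1) → σ → ℤ := Fin.cons E0 E1
  set b : Fin (n + 1) → L := Fin.cons (monoT t E0) (fun i => monoT t (E1 i)) with hb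
  have hbv : ∀ i, b i = monoT t (vec i) := by
    intro i
    refine Fin.cases ?_ (fun i => ?_) i <;> simp [hb, vec]
  have hb0 : ∀ i, b i ≠ 0 := fun i => by rw [hbv]; exact monoT_ne_zero ht.ne_zero _
  let Z : Matrix (Fin (n + 1)) (Fin (n + 1)) ℤ := Matrix.of fun i j => vec i (E j)
  have hmat : (Matrix.of fun i j => pd B j (b i))
      = Matrix.diagonal b * (Z.map (Int.cast : ℤ → L)) * Matrix.diagonal fun j => (t (E j))⁻¹ := by
    ext i j
    rw [Matrix.mul_diagonal, Matrix.diagonal_mul, Matrix.of_apply, hpd, hbv]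
    have h1 := eig_mono B' hB' ht (E j) (vec i)
    unfold Eig at h1
    simp only [Z, Matrix.map_apply, Matrix.of_apply]
    change pd B' (E j) (∏ j, t j ^ vec i j) = (∏ j, t j ^ vec i j) * _ * _
    rw [eq_mul_inv_iff_mul_eq₀ (ht.ne_zero _)]
    linear_combination h1
  have hdet : (Matrix.of fun i j => pd B j (b i)).det
      = ((∏ i, b i) * (Z.det : L)) * (∏ j, (t ∘ E) j)⁻¹ := by
    rw [hmat, Matrix.det_mul, Matrix.det_mul, Matrix.det_diagonal, Matrix.det_diagonal,
      Finset.prod_inv_distrib]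
    have h2 : (Z.map (Int.cast : ℤ → L)).det = (Z.det : L) := by
      have := (Int.castRingHom L).map_det Z
      exact this.symm
    rw [h2]
    rfl
  have hw1 : wedgeD (n + 1) b = ((∏ i, b i) * (Z.det : L)) • dlogForm (t ∘ E) := by
    rw [wedgeD_eq_det B hB, hdet, dlogForm, smul_smul]
  obtain ⟨Bb, hBb⟩ := exists_kaehler_basis _ (isTranscendenceBasis_cons hE0 hE1 htr)
  have hne := wedgeD_basis_ne_zero Bb hBb
  have hZ : Z.det ≠ 0 := by
    intro h
    rw [h] at hw1
    apply hne
    change wedgeD (n + 1) b = 0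
    rw [hw1]; simp
  have hZL : (Z.det : L) ≠ 0 := by exact_mod_cast hZ
  have hZw : ov w (Z.det : L) = 0 := by
    apply ov_eq_of
    have : ((Z.det : ℤ) : L) = algebraMap ℂ L (Z.det : ℂ) := by simp
    rw [this, hconst _ (by exact_mod_cast hZ)]; rfl
  have hprod0 : (∏ i, b i) ≠ 0 := Finset.prod_ne_zero_iff.2 fun i _ => hb0 i
  have hfin : dlogForm (t ∘ E) = ((∏ i, b i) * (Z.det : L))⁻¹ • wedgeD (n + 1) b := by
    rw [hw1, smul_smul, inv_mul_cancel₀ (mul_ne_zero hprod0 hZL), one_smul]
  rw [hfin, hb, formOrder_iff hE0 hE1 htr, eq_iff w (inv_ne_zero (mul_ne_zero hprod0 hZL)), ov_inv,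
    ov_mul w hprod0 hZL, hZw, ov_prod _ _ fun i _ => hb0 i, Fin.sum_univ_succ]
  have h3 : ov w (b 0) = 1 := by
    apply ov_eq_of
    rw [hb, Fin.cons_zero, hE0]; rfl
  have h4 : ∀ i : Fin n, ov w (b i.succ) = 0 := by
    intro i
    apply ov_eq_of
    have := hE1 (X i) (X_ne_zero i)
    rw [aeval_X] at this
    rw [hb, Fin.cons_succ, this]; rfl
  rw [h3]
  simp only [h4, sum_const_zero, add_zero, Int.reduceNeg]

end

section

variable {q k : ℕ} {L : Type} [Field L] [Algebra ℂ L] {t : Fin q ⊕ Fin k → L}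

theorem exists_monomial_on (hd : 0 < q + k) (ht : IsCoords t) (a : Fin q ⊕ Fin k → ℕ)
    (ha : a ≠ 0) : ∃ (w : AddValuation L (WithTop ℤ)) (g' : ℕ), 0 < g' ∧
      IsDivisorial (q + k) w ∧ FormOrder (q + k) w (logForm t) (-1) ∧
      ∀ p : MvPolynomial (Fin q ⊕ Fin k) ℂ, p ≠ 0 → ∃ m ∈ p.support,
        (g' : ℤ) * ov w (aeval t p) = ∑ i, (a i : ℤ) * m i ∧
        ∀ m' ∈ p.support, ∑ i, (a i : ℤ) * m i ≤ ∑ i, (a i : ℤ) * m' i := by
  classical
  obtain ⟨w', g', hg', hconst, ⟨E0, hE0⟩, hres, hpoly⟩ := exists_monomial_valuation a ha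
  letI : Algebra (MvPolynomial (Fin q ⊕ Fin k) ℂ) L := algP t
  haveI := ht.isFractionRing
  let Φ : FractionRing (MvPolynomial (Fin q ⊕ Fin k) ℂ) ≃ₐ[MvPolynomial (Fin q ⊕ Fin k) ℂ] L :=
    FractionRing.algEquiv (MvPolynomial (Fin q ⊕ Fin k) ℂ) L
  have hΦ : ∀ p : MvPolynomial (Fin q ⊕ Fin k) ℂ, Φ.symm (aeval t p) = algebraMap _ _ p :=
    fun p => Φ.symm.commutes p
  let w : AddValuation L (WithTop ℤ) := w'.comap (Φ.symm : L →+* _)
  have hw : ∀ f, w f = w' (Φ.symm f) := fun f => rfl
  have hmono : ∀ u, Φ.symm (monoT t u) = mono u := by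
    intro u
    unfold monoT mono
    rw [map_prod]
    apply Finset.prod_congr rfl
    intro i _
    rw [map_zpow₀]
    congr 1
    have := hΦ (X i)
    rwa [aeval_X] at this
  have hconst' : ∀ c : ℂ, c ≠ 0 → w (algebraMap ℂ L c) = 0 := by
    intro c hc
    rw [hw]
    have h1 := hΦ (C c)
    rw [algHom_C] at h1
    rw [h1]
    have h2 : algebraMap (MvPolynomial (Fin q ⊕ Fin k) ℂ)
        (FractionRing (MvPolynomial (Fin q ⊕ Fin k) ℂ)) (C c) = algebraMap ℂ _ c := by
      rw [IsScalarTower.algebraMap_apply ℂ (MvPolynomial (Fin q ⊕ Fin k) ℂ)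
        (FractionRing (MvPolynomial (Fin q ⊕ Fin k) ℂ))]
      rfl
    rw [h2, hconst c hc]
  have hres' : ∃ E1 : Fin (q + k - 1) → Fin q ⊕ Fin k → ℤ,
      ∀ P : MvPolynomial (Fin (q + k - 1)) ℂ, P ≠ 0 →
        w (aeval (fun i => monoT t (E1 i)) P) = 0 := by
    have hcard : Fintype.card (Fin q ⊕ Fin k) = q + k := by simp only [Fintype.card_sum, Fintype.card_fin, Nat.add_left_cancel_iff]
    rw [hcard] at hres
    obtain ⟨E1, hE1⟩ := hres
    refine ⟨E1, ?_⟩
    have h2 : ∀ c : ℂ, Φ.symm (algebraMap ℂ L c) = algebraMap ℂ _ c := by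
      intro c
      have h1 := hΦ (C c)
      rw [algHom_C] at h1
      rw [h1, IsScalarTower.algebraMap_apply ℂ (MvPolynomial (Fin q ⊕ Fin k) ℂ)
        (FractionRing (MvPolynomial (Fin q ⊕ Fin k) ℂ))]
      rfl
    have h1 : ∀ P : MvPolynomial (Fin (q + k - 1)) ℂ,
        Φ.symm (aeval (fun i => monoT t (E1 i)) P) = aeval (fun i => mono (E1 i)) P := by
      intro P
      induction P using MvPolynomial.induction_on with
      | C c => rw [algHom_C, algHom_C, h2]
      | add p q hp hq => rw [map_add, map_add, map_add, hp, hq]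
      | mul_X p i hp => rw [map_mul, map_mul, map_mul, hp, aeval_X, aeval_X, hmono]
    intro P hP
    rw [hw, h1, hE1 P hP]
  obtain ⟨E1, hE1⟩ := hres'
  have hE0' : w (monoT t E0) = 1 := by rw [hw, hmono, hE0]
  refine ⟨w, g', hg', ⟨hconst', ⟨_, hE0'⟩, ⟨_, hE1⟩⟩, ?_, ?_⟩
  · exact formOrder_dlog_mono ht hd _ hconst' E0 hE0' E1 hE1
  · intro p hp
    obtain ⟨m, hm, h1, h2⟩ := hpoly p hp
    refine ⟨m, hm, ?_, ?_⟩
    · have hp0 := ht.aeval_ne_zero hp
      have h3 : w (aeval t p) = w' (algebraMap _ _ p) := by rw [hw, hΦ]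
      rw [← h3, ← coe_ov w hp0, ← WithTop.coe_nsmul] at h1
      have h4 : g' • ov w (aeval t p) = ((∑ i, a i * m i : ℕ) : ℤ) := by exact_mod_cast h1
      rw [nsmul_eq_mul] at h4
      rw [h4]; push_cast; rfl
    · intro m' hm'
      exact_mod_cast h2 m' hm'

end

end Vale.Agent.P283
end
end

section

section

/-!
The `ε`-lc condition along monomial valuations.
-/

set_option linter.style.haveILetI false

namespace Vale.Agent.P283

open scoped KaehlerDifferential
open MvPolynomial Finset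

/-- The centre of a valuation. -/
def centreIdeal {K : Type} [Field K] [Algebra ℂ K] (A : Subalgebra ℂ K)
    (v : AddValuation K (WithTop ℤ)) (hv : IsOver A v) : Ideal A where
  carrier := {a | 0 < v a}
  zero_mem' := by
    show 0 < v ((0 : A) : K)
    simp
  add_mem' := by
    intro a b ha hb
    show 0 < v ((a + b : A) : K)
    have h1 : ((a + b : A) : K) = a + b := rfl
    rw [h1]
    exact lt_of_lt_of_le (lt_min ha hb) (AddValuation.map_add v _ _)
  smul_mem' := by
    intro c a ha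
    show 0 < v ((c • a : A) : K)
    have h1 : ((c • a : A) : K) = c * a := rfl
    rw [h1, AddValuation.map_mul]
    exact lt_of_lt_of_le ha (le_add_of_nonneg_left (hv c))

/-- The hypotheses relating the pair `(X, B)` to the coordinates. -/
structure EnginePair (q k : ℕ) {K L : Type} [Field K] [Field L] [Algebra ℂ K] [Algebra ℂ L]
    [Algebra K L] (t : Fin q ⊕ Fin k → L) (A : Subalgebra ℂ K) (ω : ⋀[K]^(q + k) (Ω[K⁄ℂ]))
    (h : L) (B : QDivisor A) (c : Fin k → ℚ) : Prop where
  ω_ne : ω ≠ 0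
  h_ne : h ≠ 0
  pull : IsPullback ω (h • logForm t)
  eqn : ∃ (r : ℕ) (c' : Fin k → ℤ) (ψ : K) (χ : ℂ), 0 < r ∧ (∀ j, (c' j : ℚ) = r * c j) ∧ χ ≠ 0 ∧
    algebraMap K L ψ = χ • (h ^ r * ∏ j, t (Sum.inr j) ^ (-c' j))
  crep : ∀ (u : AddValuation K (WithTop ℤ)) (p : Ideal A) (m : ℤ) (w : AddValuation L (WithTop ℤ))
        (e : ℕ), IsPrimeDivisorOn A (q + k) u p → FormOrder (q + k) u ω m → 0 < e →
        (∃ f, w f = 1) → (∀ f : K, w (algebraMap K L f) = e • u f) →
        (e : ℚ) * (m + B.coeff p) = ov w h - ∑ j, c j * ov w (t (Sum.inr j))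

section

variable {q k J : ℕ} {K L : Type} [Field K] [Field L] [Algebra ℂ K] [Algebra ℂ L]
    [Algebra K L] [IsScalarTower ℂ K L] {t : Fin q ⊕ Fin k → L} {g : MvPolynomial (Fin k) ℂ}
    {x0 : L} {G G0 : Subgroup (L ≃ₐ[ℂ] L)} {A : Subalgebra ℂ K}
    (H : EngineData q k J t g x0 G G0 A)
    {ω : ⋀[K]^(q + k) (Ω[K⁄ℂ])} {h : L} {B : QDivisor A} {c : Fin k → ℚ}
    (P : EnginePair q k t A ω h B c)
include H P

theorem psi_bound (hd : 0 < q + k) {ε : ℝ} (hε : 0 < ε) (hlc : IsEpsLC (q + k) ω B ε)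
    (x : Fin q ⊕ Fin k → ℝ) (hx : InCone (supp g) x)
    (hxM : ∀ u ∈ invLattice t H.coords.ne_zero G0, ∃ z : ℤ, ∑ i, x i * u i = z) (hx0 : x ≠ 0) :
    ε ≤ ∑ j, (c j : ℝ) * x (Sum.inr j) := by
  classical
  haveI := H.isAlgebraic
  haveI := H.essL
  haveI := H.essK
  haveI := H.finDim
  haveI : Finite G := H.fin
  haveI : Finite G0 := Set.Finite.subset (Set.toFinite (G : Set (L ≃ₐ[ℂ] L))) H.le
  haveI : CharZero K := charZero_of_injective_algebraMap (algebraMap ℂ K).injective
  set r0 := Nat.card G0 with hr0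
  have hr0pos : 0 < r0 := Nat.card_pos
  -- the integral weight vector
  have hxi : ∀ i, ∃ a : ℕ, (a : ℝ) = r0 * x i := by
    intro i
    obtain ⟨z, hz⟩ := hxM _ (H.card_smul_mem (Pi.single i 1))
    have h1 : ∑ j, x j * (((r0 : ℤ) • (Pi.single i 1 : Fin q ⊕ Fin k → ℤ)) j : ℤ) = r0 * x i := by
      rw [Finset.sum_eq_single i]
      · simp [mul_comm]
      · intro j _ hj
        simp [Pi.single_eq_of_ne hj]
      · simp only [mem_univ, not_true_eq_false, Pi.smul_apply, Pi.single_eq_same, Int.zsmul_eq_mul, mul_one, Int.cast_natCast, mul_eq_zero, Nat.cast_eq_zero, IsEmpty.forall_iff]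
    have h2 : (z : ℝ) = r0 * x i := by rw [← hz, ← h1]
    have h3 : 0 ≤ (z : ℝ) := by
      rw [h2]
      exact mul_nonneg (by positivity) (hx.1 i)
    have h4 : 0 ≤ z := by exact_mod_cast h3
    obtain ⟨a, rfl⟩ := Int.eq_ofNat_of_zero_le h4
    exact ⟨a, by exact_mod_cast h2⟩
  choose a ha using hxi
  have ha0 : a ≠ 0 := by
    intro h0
    apply hx0
    ext i
    have h1 := ha i
    rw [h0] at h1
    simp only [Pi.zero_apply, Nat.cast_zero, zero_eq_mul] at h1
    rcases h1 with h1 | h1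
    · exact absurd (by exact_mod_cast h1) hr0pos.ne'
    · simpa using h1
  obtain ⟨w, g', hg', hw, hwΩ, hwp⟩ := exists_monomial_on hd H.coords a ha0
  obtain ⟨v, e, he, hv, hvw⟩ := exists_restriction (K := K) (q + k) w hw
  -- values of the coordinates
  have hwt : ∀ i, (g' : ℤ) * ov w (t i) = a i := by
    intro i
    obtain ⟨m, hm, h1, -⟩ := hwp (X i) (X_ne_zero i)
    rw [aeval_X] at h1
    rw [support_X, Finset.mem_singleton] at hm
    rw [h1, hm, Finset.sum_eq_single i]
    · simp
    · intro j _ hj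
      simp [Ne.symm hj]
    · simp only [mem_univ, not_true_eq_false, Finsupp.single_eq_same, Nat.cast_one, mul_one, Int.natCast_eq_zero, IsEmpty.forall_iff]
  have hwt0 : ∀ i, 0 ≤ ov w (t i) := by
    intro i
    have h1 := hwt i
    have h2 : (0 : ℤ) < g' := by exact_mod_cast hg'
    by_contra hcon
    push Not at hcon
    have : (g' : ℤ) * ov w (t i) < 0 := mul_neg_of_pos_of_neg h2 hcon
    omega
  have hwx0 : 0 ≤ ov w x0 := by
    have hgr0 : rename (Sum.inr : Fin k → Fin q ⊕ Fin k) g ≠ 0 := by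
      intro h
      exact H.g_ne (rename_injective _ Sum.inr_injective (by rw [h, map_zero]))
    obtain ⟨m, hm, h1, -⟩ := hwp (rename Sum.inr g) hgr0
    rw [← aeval_inr, ← H.x0_eq, ov_mul w H.x0_ne (Finset.prod_ne_zero_iff.2 fun l _ =>
      H.coords.ne_zero _), ov_prod _ _ fun l _ => H.coords.ne_zero _, mul_add, Finset.mul_sum] at h1
    simp only [hwt] at h1
    rw [support_rename_of_injective Sum.inr_injective] at hm
    obtain ⟨n, hn, rfl⟩ := Finset.mem_image.1 hm
    rw [Fintype.sum_sum_type] at h1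
    have h3 : ∀ l : Fin q, (Finsupp.mapDomain (Sum.inr : Fin k → Fin q ⊕ Fin k) n) (Sum.inl l)
        = 0 := by
      intro l
      apply Finsupp.mapDomain_of_notMem_range
      simp only [Set.mem_range, reduceCtorEq, exists_false, not_false_eq_true]
    simp only [h3, Finsupp.mapDomain_apply Sum.inr_injective] at h1
    have h4 := hx.2 (n : Fin k → ℕ) (Finset.mem_image_of_mem _ hn)
    unfold mdot at h4
    have h5 : (r0 : ℝ) * ∑ l, x (Sum.inl l) ≤ (r0 : ℝ) * ∑ j, (n j : ℝ) * x (Sum.inr j) :=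
      mul_le_mul_of_nonneg_left h4 (by positivity)
    rw [Finset.mul_sum, Finset.mul_sum] at h5
    have h6 : ∑ l, (a (Sum.inl l) : ℝ) ≤ ∑ j, (n j : ℝ) * (a (Sum.inr j) : ℝ) := by
      refine le_trans (le_of_eq ?_) (h5.trans (le_of_eq ?_))
      · exact Finset.sum_congr rfl fun l _ => ha _
      · refine Finset.sum_congr rfl fun j _ => ?_
        rw [ha]; ring
    have h7 : ∑ l, (a (Sum.inl l) : ℤ) ≤ ∑ j, (n j : ℤ) * (a (Sum.inr j) : ℤ) := by exact_mod_cast h6
    have h8 : ∑ j, (a (Sum.inr j) : ℤ) * (n j : ℤ) = ∑ j, (n j : ℤ) * (a (Sum.inr j) : ℤ) :=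
      Finset.sum_congr rfl fun j _ => mul_comm _ _
    simp only [Nat.cast_zero, mul_zero, Finset.sum_const_zero, zero_add, h8] at h1
    have h9 : 0 ≤ (g' : ℤ) * ov w x0 := by omega
    have h10 : (0 : ℤ) < g' := by exact_mod_cast hg'
    by_contra hcon
    push Not at hcon
    have : (g' : ℤ) * ov w x0 < 0 := mul_neg_of_pos_of_neg h10 hcon
    omega
  -- `v` has a centre on `X`
  have hover : IsOver A v := by
    intro a'
    have h1 : 0 ≤ w (algebraMap K L a') := by
      refine (fun (y : L) (hy : y ∈ Algebra.adjoin ℂ (insert x0 (Set.range t))) => ?_ :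
        ∀ y ∈ Algebra.adjoin ℂ (insert x0 (Set.range t)), 0 ≤ w y) _ (H.sub a' a'.2)
      induction hy using Algebra.adjoin_induction with
      | mem y hy =>
        rcases hy with rfl | ⟨i, rfl⟩
        · exact (nonneg_iff w H.x0_ne).2 hwx0
        · exact (nonneg_iff w (H.coords.ne_zero i)).2 (hwt0 i)
      | algebraMap r =>
        by_cases hr : r = 0
        · rw [hr]; simp
        · rw [hw.const r hr]
      | add y z _ _ hy hz => exact nonneg_add w hy hz
      | mul y z _ _ hy hz => exact nonneg_mul w hy hz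
    rw [hvw] at h1
    by_cases ha' : (a' : K) = 0
    · rw [ha']; simp
    · rw [← coe_ov v ha', ← WithTop.coe_nsmul] at h1
      rw [nonneg_iff v ha']
      have h2 : (0 : ℤ) ≤ e • ov v a' := by exact_mod_cast h1
      rw [nsmul_eq_mul] at h2
      by_contra hcon
      push Not at hcon
      have h3 : (0 : ℤ) < e := by exact_mod_cast he
      have : (e : ℤ) * ov v a' < 0 := mul_neg_of_pos_of_neg h3 hcon
      omega
  -- the local equation
  obtain ⟨r, c', ψ, χ, hr, hc', hχ, hψ⟩ := P.eqn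
  have hT0 : ∀ j : Fin k, t (Sum.inr j) ^ (-c' j) ≠ 0 := fun j => zpow_ne_zero _ (H.coords.ne_zero _)
  have hprod0 : h ^ r * ∏ j, t (Sum.inr j) ^ (-c' j) ≠ 0 :=
    mul_ne_zero (pow_ne_zero _ P.h_ne) (Finset.prod_ne_zero_iff.2 fun j _ => hT0 j)
  have hψ0 : ψ ≠ 0 := by
    rintro rfl
    rw [map_zero, Algebra.smul_def] at hψ
    exact (mul_ne_zero ((map_ne_zero _).2 hχ) hprod0) hψ.symm
  have hrQ : (r : ℚ) ≠ 0 := by exact_mod_cast hr.ne'
  have hval : ∀ (w1 : AddValuation L (WithTop ℤ)) (v1 : AddValuation K (WithTop ℤ)) (e1 : ℕ),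
      IsDivisorial (q + k) v1 →
      (∀ f : K, w1 (algebraMap K L f) = e1 • v1 f) →
      (e1 : ℚ) * ov v1 ψ = r * (ov w1 h - ∑ j, c j * ov w1 (t (Sum.inr j))) := by
    intro w1 v1 e1 hv1 hvw1
    have h1 : ov w1 (algebraMap K L ψ) = e1 * ov v1 ψ := by
      apply ov_eq_of
      rw [hvw1, ← coe_ov v1 hψ0, ← WithTop.coe_nsmul]
      simp
    have h2 : ov w1 (algebraMap ℂ L χ) = 0 := by
      apply ov_eq_of
      rw [IsScalarTower.algebraMap_apply ℂ K L, hvw1, hv1.const χ hχ, nsmul_zero]; rfl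
    have h3 : ov w1 (algebraMap K L ψ) = r * ov w1 h + ∑ j, (-c' j) * ov w1 (t (Sum.inr j)) := by
      rw [hψ, Algebra.smul_def, ov_mul w1 ((map_ne_zero _).2 hχ) hprod0, h2, zero_add,
        ov_mul w1 (pow_ne_zero _ P.h_ne) (Finset.prod_ne_zero_iff.2 fun j _ => hT0 j),
        ov_pow w1 P.h_ne, ov_prod _ _ fun j _ => hT0 j]
      congr 1
      exact Finset.sum_congr rfl fun j _ => ov_zpow w1 (H.coords.ne_zero _) _
    have h4 : ((ov w1 (algebraMap K L ψ) : ℤ) : ℚ) = e1 * ov v1 ψ := by rw [h1]; push_cast; rfl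
    rw [← h4, h3]
    push_cast
    rw [mul_sub, Finset.mul_sum, sub_eq_add_neg, ← Finset.sum_neg_distrib]
    congr 1
    apply Finset.sum_congr rfl
    intro j _
    rw [hc']; ring
  have hloc : IsLocalEquation (q + k) ω B (centreIdeal A v hover) r ψ := by
    refine ⟨hr, hψ0, ?_⟩
    intro u p m k' hu _ hm hk'
    obtain ⟨wu, eu, heu, hwu1, hwu2⟩ := exists_extension (L := L) u hu.1.normalized
    have h1 := P.crep u p m wu eu hu hm heu hwu1 hwu2
    have h2 := hval wu u eu hu.1 hwu2
    rw [ov_eq_of u hk', ← h1] at h2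
    have h3 : (eu : ℚ) ≠ 0 := by exact_mod_cast heu.ne'
    have h4 : (eu : ℚ) * k' = eu * (r * (m + B.coeff p)) := by rw [h2]; ring
    exact mul_left_cancel₀ h3 h4
  obtain ⟨m, hm⟩ := formOrder_exists hd H.trdegK hv P.ω_ne
  have hdisc := hlc.2 v (1 + m - (ov v ψ : ℚ) / r) hv hover
    ⟨centreIdeal A v hover, r, ψ, m, ov v ψ, fun _ => Iff.rfl, hloc, hm, (coe_ov v hψ0).symm, rfl⟩
  -- compute the log discrepancy
  have h1 := formOrder_transfer hd H.trdegK H.trdegL hv hw.normalized he hvw P.pull hm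
  have h2 := formOrder_smul' hd H.trdegL hw hwΩ P.h_ne
  have h3 := formOrder_unique h1 h2
  have h4 := hval w v e hv hvw
  have hee : (e : ℚ) * (1 + m - (ov v ψ : ℚ) / r) = ∑ j, c j * ov w (t (Sum.inr j)) := by
    have h5 : (e : ℚ) * (1 + m) = ov w h := by
      have h6 : (e : ℤ) * (1 + m) = ov w h := by linarith only [h3]
      exact_mod_cast h6
    have h6 : (e : ℚ) * ((ov v ψ : ℚ) / r) = ov w h - ∑ j, c j * ov w (t (Sum.inr j)) := by
      rw [← mul_div_assoc, h4]
      (clear * - hrQ; field_simp)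
    rw [mul_sub, h5, h6]; ring
  have hge : (g' : ℚ) * (e * (1 + m - (ov v ψ : ℚ) / r)) = ∑ j, c j * a (Sum.inr j) := by
    rw [hee, Finset.mul_sum]
    apply Finset.sum_congr rfl
    intro j _
    have h5 : (g' : ℚ) * ov w (t (Sum.inr j)) = a (Sum.inr j) := by exact_mod_cast hwt (Sum.inr j)
    rw [← h5]; ring
  -- divisibility of the ramification index
  have hdiv : (r0 : ℤ) ∣ g' * e := by
    obtain ⟨f, hf⟩ := hv.normalized
    obtain ⟨b, hb, b', hb', hb'0, rfl⟩ := H.frac f
    have hb0 : b ≠ 0 := by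
      rintro rfl
      rw [zero_div, AddValuation.map_zero] at hf
      exact absurd hf (by simp)
    have hval' : ∀ y ∈ A, y ≠ 0 → (r0 : ℤ) ∣ g' * (e * ov v y) := by
      intro y hy hy0
      have hy0' : algebraMap K L y ≠ 0 := (map_ne_zero _).2 hy0
      obtain ⟨u, hu, h5⟩ := H.lattice_value (w := w) (a := a) (g' := g')
        (fun p hp => by
          obtain ⟨m, hm, h6, -⟩ := hwp p hp
          exact ⟨m, hm, h6⟩) (H.sub y hy) hy0'
        (fun τ hτ => (H.fix _).2 ⟨y, rfl⟩ τ (H.le hτ))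
      obtain ⟨z, hz⟩ := hxM u hu
      have h6 : ov w (algebraMap K L y) = e * ov v y := by
        apply ov_eq_of
        rw [hvw, ← coe_ov v hy0, ← WithTop.coe_nsmul]
        simp
      rw [← h6, h5]
      refine ⟨z, ?_⟩
      have h7 : ((∑ i, (a i : ℤ) * u i : ℤ) : ℝ) = ((r0 * z : ℤ) : ℝ) := by
        push_cast
        rw [← hz, Finset.mul_sum]
        apply Finset.sum_congr rfl
        intro i _
        rw [ha]; ring
      exact_mod_cast h7
    have h5 := hval' b hb hb0
    have h6 := hval' b' hb' hb'0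
    have h7 : ov v (b / b') = 1 := ov_eq_of v (n := 1) (by simpa only [AddValuation.map_div, WithTop.coe_one] using hf)
    rw [ov_div v hb0 hb'0] at h7
    have h8 := dvd_sub h5 h6
    have h9 : (g' : ℤ) * (e * ov v b) - g' * (e * ov v b') = g' * e := by
      rw [← mul_sub, ← mul_sub, h7]; ring
    rwa [h9] at h8
  have hle : (r0 : ℤ) ≤ g' * e := Int.le_of_dvd (by (clear * - hg' he; positivity)) hdiv
  -- conclusion
  have hleR : (r0 : ℝ) ≤ g' * e := by exact_mod_cast hle
  have hfin : (g' : ℝ) * (e * ((1 + m - (ov v ψ : ℚ) / r : ℚ) : ℝ)) = r0 * ∑ j, (c j : ℝ) * x (Sum.inr j) := by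
    have h5 : ((g' * (e * (1 + m - (ov v ψ : ℚ) / r)) : ℚ) : ℝ)
        = ((∑ j, c j * a (Sum.inr j) : ℚ) : ℝ) := by rw [hge]
    push_cast at h5 ⊢
    rw [h5, Finset.mul_sum]
    apply Finset.sum_congr rfl
    intro j _
    rw [ha]; ring
  have h5 : (g' : ℝ) * e * ε ≤ r0 * ∑ j, (c j : ℝ) * x (Sum.inr j) := by
    rw [← hfin, mul_assoc]
    (clear * - hdisc he hg'; gcongr)
  have h6 : (r0 : ℝ) * ε ≤ g' * e * ε := mul_le_mul_of_nonneg_right hleR hε.le
  have h7 : (0 : ℝ) < r0 := by exact_mod_cast hr0pos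
  exact le_of_mul_le_mul_left (h6.trans h5) h7

end

end Vale.Agent.P283
end
end

section

section

/-!
Norms over the cosets of the diagonal subgroup.
-/

set_option linter.style.haveILetI false

namespace Vale.Agent.P283

open scoped KaehlerDifferential
open MvPolynomial Finset

namespace EngineData

variable {q k J : ℕ} {K L : Type} [Field K] [Field L] [Algebra ℂ K] [Algebra ℂ L]
    [Algebra K L] {t : Fin q ⊕ Fin k → L} {g : MvPolynomial (Fin k) ℂ} {x0 : L}
    {G G0 : Subgroup (L ≃ₐ[ℂ] L)} {A : Subalgebra ℂ K} (H : EngineData q k J t g x0 G G0 A)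
include H

theorem exists_norm (F : L) (hF : ∀ τ ∈ G0, τ F = F) (hF0 : F ≠ 0) :
    ∃ φ : K, φ ≠ 0 ∧ ∀ (w : AddValuation L (WithTop ℤ)) (v : AddValuation K (WithTop ℤ)) (e : ℕ),
      (∀ f : K, w (algebraMap K L f) = e • v f) →
      (∀ b : ℤ, (∀ τ ∈ G, b ≤ ov w (τ F)) → (J.factorial : ℤ) * b ≤ e * ov v φ) ∧
      (∀ b : ℤ, (∀ τ ∈ G, ov w (τ F) < b) → e * ov v φ < (J.factorial : ℤ) * b) := by
  classical
  haveI : Finite G := H.fin
  let S : Subgroup G := G0.subgroupOf G
  haveI : Finite (G ⧸ S) := inferInstance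
  letI : Fintype (G ⧸ S) := Fintype.ofFinite _
  let rep : G ⧸ S → (L ≃ₐ[ℂ] L) := fun c => ((Quotient.out c : G) : L ≃ₐ[ℂ] L)
  have hrep : ∀ c, rep c ∈ G := fun c => (Quotient.out c : G).2
  let P : L := ∏ c : G ⧸ S, rep c F
  have hP0 : P ≠ 0 := Finset.prod_ne_zero_iff.2 fun c _ => by
    simpa using hF0
  have hPinv : ∀ τ ∈ G, τ P = P := by
    intro τ hτ
    simp only [P]
    rw [map_prod]
    apply Fintype.prod_equiv (MulAction.toPerm (⟨τ, hτ⟩ : G))
    intro c
    simp only [MulAction.toPerm_apply]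
    -- compare representatives
    have h1 : (QuotientGroup.mk (⟨τ, hτ⟩ * Quotient.out c : G) : G ⧸ S)
        = QuotientGroup.mk (Quotient.out ((⟨τ, hτ⟩ : G) • c)) := by
      rw [QuotientGroup.out_eq']
      conv_rhs => rw [← QuotientGroup.out_eq' c]
      rfl
    have h2 := QuotientGroup.eq.1 h1
    have h3 : (((⟨τ, hτ⟩ * Quotient.out c : G)⁻¹ * Quotient.out ((⟨τ, hτ⟩ : G) • c) : G) :
        L ≃ₐ[ℂ] L) ∈ G0 := Subgroup.mem_subgroupOf.1 h2
    have h4 := hF _ h3
    simp only [Subgroup.coe_mul, InvMemClass.coe_inv, AlgEquiv.mul_apply] at h4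
    have h5 : (τ * rep c) ((τ * rep c)⁻¹ (rep ((⟨τ, hτ⟩ : G) • c) F)) = (τ * rep c) F :=
      congrArg (τ * rep c) h4
    rw [← AlgEquiv.mul_apply, mul_inv_cancel, AlgEquiv.one_apply] at h5
    rw [h5]
    rfl
  set j : ℕ := Nat.card (G ⧸ S) with hj
  have hj0 : 0 < j := Nat.card_pos
  have hjJ : j ≤ J := H.index
  obtain ⟨M, hM⟩ : j ∣ J.factorial := Nat.dvd_factorial hj0 hjJ
  have hM0 : 0 < M := by
    rcases Nat.eq_zero_or_pos M with h | h
    · rw [h, mul_zero] at hM
      exact absurd hM (Nat.factorial_ne_zero J)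
    · exact h
  obtain ⟨φ, hφ⟩ := (H.fix (P ^ M)).1 fun τ hτ => by rw [map_pow, hPinv τ hτ]
  have hφ0 : φ ≠ 0 := by
    rintro rfl
    rw [map_zero] at hφ
    exact pow_ne_zero M hP0 hφ.symm
  refine ⟨φ, hφ0, ?_⟩
  intro w v e hvw
  have key : (e : ℤ) * ov v φ = M * ∑ c, ov w (rep c F) := by
    have h1 := hvw φ
    have h2 : ov w (algebraMap K L φ) = e * ov v φ := by
      apply ov_eq_of
      rw [h1, ← coe_ov v hφ0, ← WithTop.coe_nsmul]
      simp
    rw [← h2, hφ, ov_pow w hP0]
    congr 1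
    exact ov_prod _ _ fun c _ => by simpa using hF0
  have hcard : (Fintype.card (G ⧸ S) : ℤ) = j := by
    rw [hj, Nat.card_eq_fintype_card]
  have hMJ : (J.factorial : ℤ) = M * j := by
    rw [hM]; push_cast; ring
  constructor
  · intro b hb
    rw [key, hMJ, mul_assoc]
    apply mul_le_mul_of_nonneg_left _ (by positivity)
    rw [← hcard]
    have := Finset.card_nsmul_le_sum (Finset.univ : Finset (G ⧸ S)) (fun c => ov w (rep c F)) b
      fun c _ => hb _ (hrep c)
    simpa only [ge_iff_le, card_univ, Int.nsmul_eq_mul] using this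
  · intro b hb
    rw [key, hMJ, mul_assoc]
    apply mul_lt_mul_of_pos_left _ (by exact_mod_cast hM0)
    rw [← hcard]
    haveI : Nonempty (G ⧸ S) := ⟨QuotientGroup.mk 1⟩
    have := Finset.sum_lt_sum_of_nonempty (s := (Finset.univ : Finset (G ⧸ S)))
      (f := fun c => ov w (rep c F)) (g := fun _ => b) Finset.univ_nonempty
      fun c _ => hb _ (hrep c)
    simpa only [gt_iff_lt, sum_const, card_univ, Int.nsmul_eq_mul] using this

end EngineData

end Vale.Agent.P283
end
end

section

section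

/-!
The engine: existence of bounded klt complements on quotients of `x₀ x₁ ⋯ x_q = g(z)`.
-/

set_option linter.style.haveILetI false

namespace Vale.Agent.P283

open scoped KaehlerDifferential
open MvPolynomial Finset

section

variable {q k J : ℕ} {K L : Type} [Field K] [Field L] [Algebra ℂ K] [Algebra ℂ L]
    [Algebra K L] [IsScalarTower ℂ K L] {t : Fin q ⊕ Fin k → L} {g : MvPolynomial (Fin k) ℂ}
    {x0 : L} {G G0 : Subgroup (L ≃ₐ[ℂ] L)} {A : Subalgebra ℂ K}
    (H : EngineData q k J t g x0 G G0 A)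

section
include H

/-- The character of `x₀` equals the character of every monomial of `g` divided by `x₁ ⋯ x_q`. -/
theorem EngineData.char_x0 {τ : L ≃ₐ[ℂ] L} {χ : Fin q ⊕ Fin k → ℂ}
    (hχ : ∀ i, τ (t i) = χ i • t i) {c : ℂ} (hc : τ x0 = c • x0) {μ : Fin k → ℕ}
    (hμ : μ ∈ supp g) :
    ∏ j, χ (Sum.inr j) ^ (μ j : ℤ) = c * ∏ l, χ (Sum.inl l) := by
  classical
  obtain ⟨n, hn, rfl⟩ := Finset.mem_image.1 hμ
  have h1 : τ (aeval t (rename Sum.inr g)) = (c * ∏ l, χ (Sum.inl l)) • aeval t (rename Sum.inr g) := by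
    rw [← aeval_inr, ← H.x0_eq, map_mul, hc, map_prod]
    simp only [hχ]
    simp only [Algebra.smul_def, Finset.prod_mul_distrib, map_mul, map_prod]
    ring
  have h2 := H.char_eq hχ h1 (m := Finsupp.mapDomain Sum.inr n) (by
    rw [support_rename_of_injective Sum.inr_injective]
    exact Finset.mem_image_of_mem _ hn)
  rw [Fintype.prod_sum_type] at h2
  have h3 : ∀ l : Fin q, (Finsupp.mapDomain (Sum.inr : Fin k → Fin q ⊕ Fin k) n) (Sum.inl l)
      = 0 := by
    intro l
    apply Finsupp.mapDomain_of_notMem_range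
    simp only [Set.mem_range, reduceCtorEq, exists_false, not_false_eq_true]
  simpa only [h3, Finsupp.mapDomain_apply Sum.inr_injective, Nat.cast_zero, zpow_zero,
    Finset.prod_const_one, one_mul] using h2

theorem EngineData.supp_mem (μ : Fin k → ℕ) (hμ : μ ∈ supp g) (μ' : Fin k → ℕ)
    (hμ' : μ' ∈ supp g) :
    (Sum.elim (fun _ => 0) (fun j => (μ j : ℤ) - μ' j)) ∈
      invLattice t H.coords.ne_zero G0 := by
  intro τ hτ
  choose χ hχ using H.diag τ hτ
  obtain ⟨c, hc⟩ := H.diag0 τ hτ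
  rw [map_monoT hχ]
  have h0 := H.coords.ne_zero
  have h1 := H.char_x0 hχ hc hμ
  have h2 := H.char_x0 hχ hc hμ'
  have h3 : ∏ i, χ i ^ (Sum.elim (fun _ => 0) (fun j => (μ j : ℤ) - μ' j) : Fin q ⊕ Fin k → ℤ) i
      = 1 := by
    rw [Fintype.prod_sum_type]
    simp only [Sum.elim_inl, Sum.elim_inr, zpow_zero, Finset.prod_const_one, one_mul]
    have h4 : ∀ j : Fin k, χ (Sum.inr j) ^ ((μ j : ℤ) - μ' j)
        = χ (Sum.inr j) ^ (μ j : ℤ) * (χ (Sum.inr j) ^ (μ' j : ℤ))⁻¹ := by
      intro j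
      rw [zpow_sub₀ (char_ne_zero h0 hχ _), div_eq_mul_inv]
    simp only [h4, Finset.prod_mul_distrib, Finset.prod_inv_distrib]
    rw [h1, ← h2]
    apply mul_inv_cancel₀
    exact Finset.prod_ne_zero_iff.2 fun j _ => zpow_ne_zero _ (char_ne_zero h0 hχ _)
  rw [h3, one_smul]

theorem EngineData.phi_inv (s : ℕ × (Fin q ⊕ Fin k → ℤ))
    (hs : ∀ μ ∈ supp g, s.2 + (s.1 : ℤ) • Sum.elim (fun _ => (-1 : ℤ)) (fun j => (μ j : ℤ)) ∈
      invLattice t H.coords.ne_zero G0) (τ : L ≃ₐ[ℂ] L) (hτ : τ ∈ G0) :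
    τ (phi t x0 s) = phi t x0 s := by
  classical
  have h0 := H.coords.ne_zero
  obtain ⟨μ, hμ⟩ : (supp g).Nonempty := by
    obtain ⟨n, hn⟩ := support_nonempty.2 H.g_ne
    exact ⟨_, Finset.mem_image_of_mem _ hn⟩
  choose χ hχ using H.diag τ hτ
  obtain ⟨c, hc⟩ := H.diag0 τ hτ
  have h1 := hs μ hμ τ hτ
  set U : Fin q ⊕ Fin k → ℤ := Sum.elim (fun _ => (-1 : ℤ)) (fun j => (μ j : ℤ)) with hU
  rw [map_monoT hχ] at h1
  have h2 : ∏ i, χ i ^ (s.2 + (s.1 : ℤ) • U) i = 1 := by
    have h3 : (1 : ℂ) • monoT t (s.2 + (s.1 : ℤ) • U)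
        = (∏ i, χ i ^ (s.2 + (s.1 : ℤ) • U) i) • monoT t (s.2 + (s.1 : ℤ) • U) := by
      rw [one_smul]; exact h1.symm
    exact (smul_left_injective ℂ (monoT_ne_zero h0 _) h3).symm
  have h3 := H.char_x0 hχ hc hμ
  have hc' : c * ∏ l, χ (Sum.inl l) ≠ 0 := by
    rw [← h3]
    exact Finset.prod_ne_zero_iff.2 fun j _ => zpow_ne_zero _ (char_ne_zero h0 hχ _)
  have h4 : (∏ i, χ i ^ s.2 i) * c ^ s.1 = 1 := by
    rw [← h2]
    have h5 : ∀ i, χ i ^ (s.2 + (s.1 : ℤ) • U) i = χ i ^ s.2 i * (χ i ^ U i) ^ s.1 := by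
      intro i
      rw [Pi.add_apply, zpow_add₀ (char_ne_zero h0 hχ _), Pi.smul_apply, smul_eq_mul, mul_comm
        (s.1 : ℤ), zpow_mul, zpow_natCast]
    simp only [h5, Finset.prod_mul_distrib, Finset.prod_pow]
    congr 2
    rw [Fintype.prod_sum_type]
    simp only [hU, Sum.elim_inl, Sum.elim_inr]
    rw [h3]
    simp only [zpow_neg, zpow_one, Finset.prod_inv_distrib]
    have h6 : ∏ l, χ (Sum.inl l) ≠ 0 := right_ne_zero_of_mul hc'
    field_simp
  unfold phi
  have h5 := map_monoT hχ (t := t) s.2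
  unfold monoT at h5
  rw [map_mul, map_pow, hc, h5, smul_pow, smul_mul_smul_comm, mul_comm (c ^ s.1), h4, one_smul]

end

omit [Algebra ℂ L] in
theorem list_prod_ne_zero (l : List (ℕ × (Fin q ⊕ Fin k → ℤ))) (f : _ → L)
    (h : ∀ s ∈ l, f s ≠ 0) : (l.map f).prod ≠ 0 := by
  induction l with
  | nil => simp
  | cons a l ih =>
    simp only [List.map_cons, List.prod_cons]
    exact mul_ne_zero (h a (by simp)) (ih fun s hs => h s (by simp [hs]))

omit [Algebra ℂ L] in
theorem ov_list_prod (w : AddValuation L (WithTop ℤ)) (l : List (ℕ × (Fin q ⊕ Fin k → ℤ)))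
    (f : _ → L) (h : ∀ s ∈ l, f s ≠ 0) : ov w (l.map f).prod = (l.map fun s => ov w (f s)).sum := by
  induction l with
  | nil => simp [ov_one]
  | cons a l ih =>
    simp only [List.map_cons, List.prod_cons, List.sum_cons]
    rw [ov_mul w (h a (by simp)) (list_prod_ne_zero l f fun s hs => h s (by simp [hs])),
      ih fun s hs => h s (by simp [hs])]

theorem map_list_prod' (τ : L ≃ₐ[ℂ] L) (l : List (ℕ × (Fin q ⊕ Fin k → ℤ)))
    (f : _ → L) (h : ∀ s ∈ l, τ (f s) = f s) : τ (l.map f).prod = (l.map f).prod := by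
  induction l with
  | nil => simp
  | cons a l ih =>
    simp only [List.map_cons, List.prod_cons, map_mul]
    rw [h a (by simp), ih fun s hs => h s (by simp [hs])]

theorem list_sum_ge (l : List (ℕ × (Fin q ⊕ Fin k → ℤ))) (f : _ → ℤ) (c : ℝ)
    (h : ∀ s ∈ l, c ≤ (f s : ℝ)) : (l.length : ℝ) * c ≤ (((l.map f).sum : ℤ) : ℝ) := by
  induction l with
  | nil => simp
  | cons a l ih =>
    rw [List.map_cons, List.sum_cons, List.length_cons, Int.cast_add, Nat.cast_add, Nat.cast_one]
    have h1 := h a (by simp)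
    have h2 := ih fun s hs => h s (by simp [hs])
    linarith only [h1, h2]

theorem one_add_phi_ne_zero (H : EngineData q k J t g x0 G G0 A)
    {s : ℕ × (Fin q ⊕ Fin k → ℤ)} (hs : s.1 = 0 ∨ ∃ l, s.2 (Sum.inl l) = 0) :
    1 + phi t x0 s ≠ 0 := by
  haveI : CharZero L := charZero_of_injective_algebraMap (algebraMap ℂ L).injective
  obtain ⟨B', hB'⟩ := exists_kaehler_basis t H.coords.isTranscendenceBasis
  intro h
  have h2 : phi t x0 s = -1 := by linear_combination h
  rcases eig_phi H.coords B' hB' H.x0_eq s hs with h3 | ⟨i, α, hα, h3⟩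
  · rw [h2] at h3
    have h5 : (2 : L) = 0 := by linear_combination -h3
    exact two_ne_zero h5
  · unfold Eig at h3
    rw [h2, map_neg, Derivation.map_one_eq_zero] at h3
    have : (α : L) = 0 := by linear_combination h3
    exact hα (by exact_mod_cast this)

/-- The lower bound for a section used for effectivity. -/
theorem phi_lower (H : EngineData q k J t g x0 G G0 A) {w : AddValuation L (WithTop ℤ)}
    (h1 : ∀ i, 0 ≤ ov w (t i)) (h0 : 0 ≤ ov w x0) {c : Fin k → ℚ} (hc : ∀ j, 0 < c j) {C : ℝ}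
    {s : ℕ × (Fin q ⊕ Fin k → ℤ)} (hs1 : ∀ l, 0 ≤ s.2 (Sum.inl l))
    (hs2 : ∀ j, -C * c j ≤ s.2 (Sum.inr j)) (hne : 1 + phi t x0 s ≠ 0) :
    -(|C| * ∑ j, (c j : ℝ) * ov w (t (Sum.inr j))) ≤ ((ov w (1 + phi t x0 s) : ℤ) : ℝ) := by
  set σ := ∑ j, (c j : ℝ) * ov w (t (Sum.inr j)) with hσ
  have hσ0 : 0 ≤ σ := Finset.sum_nonneg fun j _ => mul_nonneg (by exact_mod_cast (hc j).le)
    (by exact_mod_cast h1 _)
  have hφ0 := phi_ne_zero H.coords H.x0_ne s
  have h2 : -(|C| * σ) ≤ ((ov w (phi t x0 s) : ℤ) : ℝ) := by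
    rw [ov_phi H.coords H.x0_ne, Fintype.sum_sum_type]
    push_cast
    have h3 : 0 ≤ (s.1 : ℝ) * ov w x0 := mul_nonneg (by (clear * -; positivity)) (by exact_mod_cast h0)
    have h4 : 0 ≤ ∑ l, (s.2 (Sum.inl l) : ℝ) * ov w (t (Sum.inl l)) :=
      Finset.sum_nonneg fun l _ => mul_nonneg (by exact_mod_cast hs1 l) (by exact_mod_cast h1 _)
    have h5 : -(|C| * σ) ≤ ∑ j, (s.2 (Sum.inr j) : ℝ) * ov w (t (Sum.inr j)) := by
      rw [hσ, Finset.mul_sum, ← Finset.sum_neg_distrib]
      apply Finset.sum_le_sum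
      intro j _
      have h6 : (0 : ℝ) ≤ ov w (t (Sum.inr j)) := by exact_mod_cast h1 _
      have h7 : -|C| * c j ≤ (s.2 (Sum.inr j) : ℝ) := by
        refine le_trans ?_ (hs2 j)
        have h8 : (0 : ℝ) < c j := by exact_mod_cast hc j
        nlinarith only [h8, le_abs_self C]
      calc -(|C| * ((c j : ℝ) * ov w (t (Sum.inr j)))) = (-|C| * c j) * ov w (t (Sum.inr j)) := by
            ring
        _ ≤ _ := mul_le_mul_of_nonneg_right h7 h6
    linarith only [h3, h4, h5]
  have h3 : min 0 (ov w (phi t x0 s)) ≤ ov w (1 + phi t x0 s) := by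
    have h4 := AddValuation.map_add w 1 (phi t x0 s)
    rw [AddValuation.map_one, ← coe_ov w hφ0, ← coe_ov w hne] at h4
    exact_mod_cast h4
  have h4 : ((min 0 (ov w (phi t x0 s)) : ℤ) : ℝ) ≤ ((ov w (1 + phi t x0 s) : ℤ) : ℝ) := by
    exact_mod_cast h3
  refine le_trans ?_ h4
  push_cast
  apply le_min _ h2
  have : 0 ≤ |C| * σ := mul_nonneg (abs_nonneg _) hσ0
  linarith only [this]

end

/-- **The engine.** -/
theorem engine (q k : ℕ) (hd : 0 < q + k) (ε : ℝ) (hε : 0 < ε) (J : ℕ) : ∃ n : ℕ, 0 < n ∧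
    ∀ (K L : Type) [Field K] [Field L] [Algebra ℂ K] [Algebra ℂ L] [Algebra K L]
      [IsScalarTower ℂ K L] (t : Fin q ⊕ Fin k → L) (g : MvPolynomial (Fin k) ℂ) (x0 : L)
      (G G0 : Subgroup (L ≃ₐ[ℂ] L)) (A : Subalgebra ℂ K), EngineData q k J t g x0 G G0 A →
    ∀ (ω : ⋀[K]^(q + k) (Ω[K⁄ℂ])) (h : L), ω ≠ 0 → h ≠ 0 → IsPullback ω (h • logForm t) →
      (∀ τ ∈ G0, τ h = h) →
    ∀ (B : QDivisor A) (c : Fin k → ℚ) (r : ℕ) (c' : Fin k → ℤ) (ψ : K) (χ : ℂ), 0 < r →
      (∀ j, (c' j : ℚ) = r * c j) → χ ≠ 0 →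
      algebraMap K L ψ = χ • (h ^ r * ∏ j, t (Sum.inr j) ^ (-c' j)) →
      (∀ (u : AddValuation K (WithTop ℤ)) (p : Ideal A) (m : ℤ) (w : AddValuation L (WithTop ℤ))
        (e : ℕ), IsPrimeDivisorOn A (q + k) u p → FormOrder (q + k) u ω m → 0 < e →
        (∃ f, w f = 1) → (∀ f : K, w (algebraMap K L f) = e • u f) →
        (e : ℚ) * (m + B.coeff p) = ov w h - ∑ j, c j * ov w (t (Sum.inr j))) →
      (∀ p, 0 ≤ B.coeff p) → IsEpsLC (q + k) ω B ε →
      ∀ z : Ideal A, z ≠ ⊤ → HasKltComplement (q + k) ω B n z := by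
  classical
  obtain ⟨C, hC⟩ := sections_exist q k ε hε
  obtain ⟨N0, hN0⟩ := exists_nat_ge (2 * ((q : ℝ) + k) * |C|)
  set N : ℕ := 2 * (q + k) + 1 + N0 with hN
  refine ⟨N * J.factorial, by positivity, ?_⟩
  intro K L _ _ _ _ _ _ t g x0 G G0 A H ω h hω hh hpull hhG B c r c' ψ χ hr hc' hχ hψ hcrep hB hlc
    z hz
  have P : EnginePair q k t A ω h B c := ⟨hω, hh, hpull, ⟨r, c', ψ, χ, hr, hc', hχ, hψ⟩, hcrep⟩
  haveI := H.isAlgebraic
  haveI := H.essL
  haveI := H.essK
  haveI := H.finDim
  haveI : Finite G := H.fin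
  haveI : Finite G0 := Set.Finite.subset (Set.toFinite (G : Set (L ≃ₐ[ℂ] L))) H.le
  haveI : CharZero K := charZero_of_injective_algebraMap (algebraMap ℂ K).injective
  have ht0 := H.coords.ne_zero
  have hr0 : 0 < Nat.card G0 := Nat.card_pos
  have hSne : (supp g).Nonempty := by
    obtain ⟨n, hn⟩ := support_nonempty.2 H.g_ne
    exact ⟨_, Finset.mem_image_of_mem _ hn⟩
  have hpsi := psi_bound H P hd hε hlc
  -- positivity of the coefficients
  have hcpos : ∀ j, 0 < c j := by
    intro j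
    let x : Fin q ⊕ Fin k → ℝ := Pi.single (Sum.inr j) (Nat.card G0 : ℝ)
    have h1 := hpsi x ?_ ?_ ?_
    · have h2 : ∑ j', (c j' : ℝ) * x (Sum.inr j') = c j * Nat.card G0 := by
        rw [Finset.sum_eq_single j]
        · simp only [Pi.single_eq_same, x]
        · intro j' _ hj'
          have : (Sum.inr j' : Fin q ⊕ Fin k) ≠ Sum.inr j := fun h => hj' (Sum.inr_injective h)
          simp only [Pi.single_eq_of_ne this, mul_zero, x]
        · simp only [mem_univ, not_true_eq_false, mul_eq_zero, Rat.cast_eq_zero, IsEmpty.forall_iff]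
      rw [h2] at h1
      have h3 : (0 : ℝ) < Nat.card G0 := by exact_mod_cast hr0
      have h4 : (0 : ℝ) < c j := by
        by_contra hcon
        push Not at hcon
        have : (c j : ℝ) * Nat.card G0 ≤ 0 := mul_nonpos_of_nonpos_of_nonneg hcon h3.le
        linarith only [hε, h1, this]
      exact_mod_cast h4
    · refine ⟨?_, ?_⟩
      · intro i
        by_cases hi : i = Sum.inr j
        · subst hi; simp only [Pi.single_eq_same, Nat.cast_nonneg, x]
        · simp only [Pi.single_eq_of_ne hi, Std.le_refl, x]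
      · intro μ _
        have h1 : ∑ l : Fin q, x (Sum.inl l) = 0 := by
          apply Finset.sum_eq_zero
          intro l _
          simp only [ne_eq, reduceCtorEq, not_false_eq_true, Pi.single_eq_of_ne, x]
        rw [h1]
        unfold mdot
        apply Finset.sum_nonneg
        intro j' _
        apply mul_nonneg (by (clear * -; positivity))
        by_cases hi : (Sum.inr j' : Fin q ⊕ Fin k) = Sum.inr j
        · rw [hi]; simp only [Pi.single_eq_same, Nat.cast_nonneg, x]
        · simp only [Pi.single_eq_of_ne hi, Std.le_refl, x]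
    · intro u _
      refine ⟨Nat.card G0 * u (Sum.inr j), ?_⟩
      rw [Finset.sum_eq_single (Sum.inr j)]
      · simp only [Pi.single_eq_same, Int.cast_mul, Int.cast_natCast, x]
      · intro i _ hi
        simp only [Pi.single_eq_of_ne hi, zero_mul, x]
      · simp only [mem_univ, not_true_eq_false, mul_eq_zero, Int.cast_eq_zero, IsEmpty.forall_iff]
    · intro h0
      have := congrFun h0 (Sum.inr j)
      simp only [x, Pi.single_eq_same, Pi.zero_apply] at this
      exact hr0.ne' (by exact_mod_cast this)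
  obtain ⟨Ls, hLlen, hL1, hL2⟩ := hC (invLattice t ht0 G0) (Nat.card G0) hr0
    (fun u => H.card_smul_mem u) (supp g) hSne H.supp_mem (fun j => (c j : ℝ))
    (fun j => by exact_mod_cast hcpos j) hpsi
  have hLs : ∀ s ∈ Ls, s.1 = 0 ∨ ∃ l, s.2 (Sum.inl l) = 0 := fun s hs => (hL1 s hs).2.1
  have hne : ∀ s ∈ Ls, 1 + phi t x0 s ≠ 0 := fun s hs => one_add_phi_ne_zero H (hLs s hs)
  let Q : L := (Ls.map fun s => 1 + phi t x0 s).prod
  have hQ0 : Q ≠ 0 := list_prod_ne_zero Ls _ hne
  let F : L := h ^ N * Q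
  have hF0 : F ≠ 0 := mul_ne_zero (pow_ne_zero _ hh) hQ0
  have hFinv : ∀ τ ∈ G0, τ F = F := by
    intro τ hτ
    simp only [F, map_mul, map_pow, hhG τ hτ]
    congr 1
    apply map_list_prod'
    intro s hs
    rw [map_add, map_one, H.phi_inv s (hL1 s hs).2.2.1 τ hτ]
  have hFov : ∀ w : AddValuation L (WithTop ℤ),
      ov w F = N * ov w h + (Ls.map fun s => ov w (1 + phi t x0 s)).sum := by
    intro w
    simp only [F]
    rw [ov_mul w (pow_ne_zero _ hh) hQ0, ov_pow w hh]
    congr 1
    exact ov_list_prod w Ls _ hne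
  obtain ⟨φ, hφ0, hφ⟩ := H.exists_norm F hFinv hF0
  -- common facts on the twisted valuations
  have htw : ∀ (v : AddValuation K (WithTop ℤ)) (w : AddValuation L (WithTop ℤ)) (e : ℕ),
      IsOver A v → (∀ f : K, w (algebraMap K L f) = e • v f) →
      ∀ τ ∈ G, (∀ i, 0 ≤ (w.comap (τ : L →+* L)) (t i)) ∧ 0 ≤ (w.comap (τ : L →+* L)) x0 := by
    intro v w e hover hvw τ hτ
    have hnn : ∀ a ∈ A, 0 ≤ (w.comap (τ : L →+* L)) (algebraMap K L a) := by
      intro a ha
      rw [H.twist hvw hτ]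
      exact nsmul_nonneg (hover ⟨a, ha⟩) e
    exact ⟨fun i => nonneg_of_integral hnn (H.int i), nonneg_of_integral hnn H.int0⟩
  refine ⟨1, fun h1 => hz ((Ideal.eq_top_iff_one z).2 h1), φ, hφ0, ?_, ?_⟩
  · -- effectivity
    intro u p m k' hu _ hm hk'
    obtain ⟨w, e, he, hw1, hvw⟩ := exists_extension (L := L) u hu.1.normalized
    have heQ : (0 : ℚ) < e := by exact_mod_cast he
    have hb : ∀ τ ∈ G, ⌈(N : ℚ) * (e * (m + B.coeff p))⌉ ≤ ov w (τ F) := by
      intro τ hτ
      rw [Int.ceil_le]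
      set w1 := w.comap (τ : L →+* L) with hw1def
      have hcr := hcrep u p m w1 e hu hm he (comap_normalized hw1 τ) (fun f => H.twist hvw hτ f)
      obtain ⟨h1, h0⟩ := htw u w e hu.2.1 hvw τ hτ
      have h1' : ∀ i, 0 ≤ ov w1 (t i) := fun i => (nonneg_iff w1 (ht0 i)).1 (h1 i)
      have h0' : 0 ≤ ov w1 x0 := (nonneg_iff w1 H.x0_ne).1 h0
      have h2 : ov w (τ F) = ov w1 F := rfl
      rw [h2, hFov]
      have h3 := list_sum_ge Ls (fun s => ov w1 (1 + phi t x0 s))
        (-(|C| * ∑ j, (c j : ℝ) * ov w1 (t (Sum.inr j)))) fun s hs =>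
          phi_lower H h1' h0' hcpos (hL1 s hs).1 (hL1 s hs).2.2.2 (hne s hs)
      rw [hLlen] at h3
      set σ : ℝ := ∑ j, (c j : ℝ) * ov w1 (t (Sum.inr j)) with hσ
      have hσ0 : 0 ≤ σ := Finset.sum_nonneg fun j _ => mul_nonneg
        (by exact_mod_cast (hcpos j).le) (by exact_mod_cast h1' _)
      have h4 : ((e * (m + B.coeff p) : ℚ) : ℝ) = ov w1 h - σ := by
        rw [hcr]; push_cast; rfl
      have h5 : (2 * ((q : ℝ) + k) * |C|) * σ ≤ N * σ := by
        apply mul_le_mul_of_nonneg_right _ hσ0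
        refine hN0.trans ?_
        rw [hN]; push_cast
        have : (0 : ℝ) ≤ 2 * (q + k) + 1 := by (clear * -; positivity)
        linarith only []
      have h6 : ((N : ℚ) * (e * (m + B.coeff p)) : ℚ)
          ≤ ((N * ov w1 h + (Ls.map fun s => ov w1 (1 + phi t x0 s)).sum : ℤ) : ℚ) := by
        have h7 : (((N : ℚ) * (e * (m + B.coeff p)) : ℚ) : ℝ)
            ≤ (((N * ov w1 h + (Ls.map fun s => ov w1 (1 + phi t x0 s)).sum : ℤ) : ℚ) : ℝ) := by
          rw [Rat.cast_mul, h4, Rat.cast_intCast, Int.cast_add, Int.cast_mul]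
          push_cast at h3 ⊢
          nlinarith only [h5, h3]
        exact_mod_cast h7
      exact_mod_cast h6
    have h1 := (hφ w u e hvw).1 _ hb
    rw [ov_eq_of u hk'] at h1
    have h2 : (J.factorial : ℚ) * ((N : ℚ) * (e * (m + B.coeff p))) ≤ e * k' := by
      have h3 : (J.factorial : ℚ) * (⌈(N : ℚ) * (e * (m + B.coeff p))⌉ : ℚ) ≤ e * k' := by
        exact_mod_cast h1
      refine le_trans ?_ h3
      exact mul_le_mul_of_nonneg_left (Int.le_ceil _) (by positivity)
    have hnpos : (0 : ℚ) < ((N * J.factorial : ℕ) : ℚ) := by (clear * - hd; positivity)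
    have h3 : (m : ℚ) + B.coeff p ≤ (k' : ℚ) / ((N * J.factorial : ℕ) : ℚ) := by
      rw [le_div_iff₀ hnpos]
      have h4 : (e : ℚ) * ((m + B.coeff p) * ((N * J.factorial : ℕ) : ℚ)) ≤ e * k' := by
        refine le_trans (le_of_eq ?_) h2
        push_cast; ring
      exact le_of_mul_le_mul_left h4 heQ
    have h4 := hB p
    constructor <;> linarith only [h3, h4]
  · -- the complement is klt
    intro v m k' hv hover _ hm hk'
    obtain ⟨w, e, he, hw1, hvw⟩ := exists_extension (L := L) v hv.normalized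
    have heQ : (0 : ℚ) < e := by exact_mod_cast he
    have hb : ∀ τ ∈ G, ov w (τ F) < N * (e * (1 + m)) := by
      intro τ hτ
      set w1 := w.comap (τ : L →+* L) with hw1def
      have hw1n := comap_normalized hw1 τ
      have hvw1 : ∀ f : K, w1 (algebraMap K L f) = e • v f := fun f => H.twist hvw hτ f
      have hdiv := isDivisorial_of_ext hv hw1n hvw1
      obtain ⟨h1, h0⟩ := htw v w e hover hvw τ hτ
      have hf := formOrder_transfer hd H.trdegK H.trdegL hv hw1n he hvw1 hpull hm
      have hf2 := formOrder_smul' hd H.trdegL hdiv hf (inv_ne_zero hh)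
      rw [smul_smul, inv_mul_cancel₀ hh, one_smul, ov_inv] at hf2
      have hcore := (core_positivity hd H.coords H.g_ne H.x0_eq hdiv h1 h0 hf2 Ls hLlen hLs hL2
        (N : ℤ) (by rw [hN]; push_cast; omega)).2
      have h2 : ov w (τ F) = ov w1 F := rfl
      rw [h2, hFov]
      have h3 : (N : ℤ) * (e * (1 + m) - 1 + -ov w1 h + 1) = N * (e * (1 + m)) - N * ov w1 h := by
        ring
      rw [h3] at hcore
      linarith only [hcore]
    have h1 := (hφ w v e hvw).2 _ hb
    rw [ov_eq_of v hk'] at h1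
    have h2 : (e : ℚ) * k' < J.factorial * (N * (e * (1 + m))) := by exact_mod_cast h1
    have hnpos : (0 : ℚ) < ((N * J.factorial : ℕ) : ℚ) := by (clear * - hd; positivity)
    have h3 : (k' : ℚ) / ((N * J.factorial : ℕ) : ℚ) < 1 + m := by
      rw [div_lt_iff₀ hnpos]
      have h4 : (e : ℚ) * k' < e * ((1 + m) * ((N * J.factorial : ℕ) : ℚ)) := by
        refine lt_of_lt_of_le h2 (le_of_eq ?_)
        push_cast; ring
      exact lt_of_mul_lt_mul_left h4 heQ.le
    linarith only [h3]

end Vale.Agent.P283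
end
end

section

section

/-!
Deduction of the main theorem from the engine.
-/

namespace Vale.Agent.P283

open scoped KaehlerDifferential
open MvPolynomial Finset

/-- a klt `n`-complement is a klt `nm`-complement -/
lemma HasKltComplement.mul {K : Type} [Field K] [Algebra ℂ K] {A : Subalgebra ℂ K} {d : ℕ}
    {ω : ⋀[K]^d (Ω[K⁄ℂ])} {B : QDivisor A} {n : ℕ} {z : Ideal A}
    (h : HasKltComplement d ω B n z) {m : ℕ} (hm : 0 < m) :
    HasKltComplement d ω B (n * m) z := by
  obtain ⟨s, hs, φ, hφ, h1, h2⟩ := h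
  have hmQ : (m : ℚ) ≠ 0 := by exact_mod_cast hm.ne'
  have key : ∀ (u : AddValuation K (WithTop ℤ)) (k : ℤ), u (φ ^ m) = (k : WithTop ℤ) →
      (k : ℚ) / ((n * m : ℕ) : ℚ) = (ov u φ : ℚ) / n := by
    intro u k hk
    have h3 : k = m * ov u φ := by
      have := ov_eq_of u hk
      rw [ov_pow u hφ] at this
      exact this.symm
    rw [h3]
    push_cast
    rw [mul_comm (m : ℚ), mul_div_mul_right _ _ hmQ]
  refine ⟨s, hs, φ ^ m, pow_ne_zero _ hφ, ?_, ?_⟩
  · intro u q m' k hu hq hω hk
    rw [key u k hk]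
    exact h1 u q m' (ov u φ) hu hq hω (coe_ov u hφ).symm
  · intro v m' k hv hv' hvs hω hk
    rw [key v k hk]
    exact h2 v m' (ov v φ) hv hv' hvs hω (coe_ov v hφ).symm

/-- the coefficient of a pulled back form with respect to the logarithmic form is invariant under
diagonal automorphisms -/
theorem h_invariant {K L : Type} [Field K] [Field L] [Algebra ℂ K] [Algebra ℂ L] [Algebra K L]
    {q k : ℕ} (t : Fin q ⊕ Fin k → L) (hc : IsCoords t) (τ : L ≃ₐ[ℂ] L)
    (hτK : ∀ f : K, τ (algebraMap K L f) = algebraMap K L f)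
    (hdiag : ∀ i, ∃ c : ℂ, τ (t i) = c • t i) (ω : ⋀[K]^(q + k) (Ω[K⁄ℂ])) (h : L)
    (hp : IsPullback ω (h • logForm t)) : τ h = h := by
  classical
  obtain ⟨a, β, -, hω⟩ := hp
  obtain ⟨B, hB⟩ := exists_kaehler_basis _ hc.isTranscendenceBasis
  let β' : Fin q ⊕ Fin k → L := fun i => algebraMap K L (β (finSumFinEquiv i))
  have h2 : wedgeS β' = wedgeD (q + k) (fun i => algebraMap K L (β i)) := by
    unfold wedgeS
    congr 1
    funext i
    simp [β']
  have h3 : logForm t = (∏ i, t i)⁻¹ • wedgeS t := by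
    unfold logForm dlogForm wedgeS
    congr 2
    rw [← Equiv.prod_comp (finSumFinEquiv (m := q) (n := k)).symm t]
    rfl
  have h1 := wedgeS_det B hB β'
  set J := (Matrix.of fun i j => pd B j (β' i)).det with hJ
  have hprod : ∏ i, t i ≠ 0 := Finset.prod_ne_zero_iff.mpr fun i _ => hc.ne_zero i
  have h4 : h * (∏ i, t i)⁻¹ = algebraMap K L a * J := by
    rw [← h2, h1, h3, smul_smul, smul_smul] at hω
    exact smul_left_injective L (wedgeS_ne_zero B hB) hω
  have h5 : h = algebraMap K L a * J * ∏ i, t i := by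
    rw [← h4]; field_simp
  choose c hcτ using hdiag
  have hchain : ∀ f m, pd B m (τ f) = τ (pd B m f) * algebraMap ℂ L (c m) := by
    intro f m
    rw [chain_rule B hB τ m f, Finset.sum_eq_single m]
    · rw [hcτ, Derivation.map_smul, pd_self B hB, if_pos rfl, Algebra.smul_def, mul_one]
    · intro j _ hj
      rw [hcτ, Derivation.map_smul, pd_self B hB, if_neg hj, smul_zero, mul_zero]
    · intro hm; exact absurd (Finset.mem_univ _) hm
  have h6 : (Matrix.of fun i j => pd B j (β' i))
      = ((Matrix.of fun i j => pd B j (β' i)).map τ)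
        * Matrix.diagonal (fun m => algebraMap ℂ L (c m)) := by
    ext i m
    rw [Matrix.mul_diagonal]
    have h7 := hchain (β' i) m
    rw [hτK] at h7
    exact h7
  have h8 : J = τ J * ∏ m, algebraMap ℂ L (c m) := by
    rw [hJ]
    conv_lhs => rw [h6]
    rw [Matrix.det_mul, Matrix.det_diagonal]
    congr 1
    have := RingHom.map_det (τ : L →+* L) (Matrix.of fun i j => pd B j (β' i))
    exact this.symm
  have h9 : τ (∏ i, t i) = (∏ m, algebraMap ℂ L (c m)) * ∏ i, t i := by
    rw [map_prod, ← Finset.prod_mul_distrib]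
    exact Finset.prod_congr rfl fun i _ => by rw [hcτ, Algebra.smul_def]
  rw [h5, map_mul, map_mul, hτK, h9]
  conv_rhs => rw [h8]
  ring

end Vale.Agent.P283
end
end

section

section

/-!
First consequences of `IsQuotient`.
-/

namespace Vale.Agent.P283

open MvPolynomial

theorem isCoords_of_quotient {q k : ℕ} {K L : Type} [Field K] [Field L] [Algebra ℂ K]
    [Algebra ℂ L] [Algebra K L] {x : Fin (q + 1) → L} {z : Fin k → L}
    {g : MvPolynomial (Fin k) ℂ} {b : Fin k → ℚ} {G : Subgroup (L ≃ₐ[ℂ] L)} {A : Subalgebra ℂ K}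
    (H : Q.IsQuotient x z g b G A) : IsCoords (Sum.elim (Fin.tail x) z) where
  ind := H.independent
  gen := by
    intro f
    have h1 : f ∈ IntermediateField.adjoin ℂ (Set.range (Sum.elim (Fin.tail x) z)) := by
      rw [Set.Sum.elim_range, H.generate]; trivial
    obtain ⟨r, hr, s, hs, rfl⟩ := IntermediateField.mem_adjoin_iff_div.1 h1
    rw [Algebra.adjoin_range_eq_range_aeval] at hr hs
    obtain ⟨p, rfl⟩ := hr
    obtain ⟨p', rfl⟩ := hs
    by_cases h : p' = 0
    · subst h
      exact ⟨0, 1, one_ne_zero, by simp only [AlgHom.toRingHom_eq_coe, RingHom.coe_coe, map_zero, div_zero, map_one, div_one]⟩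
    · exact ⟨p, p', h, rfl⟩

theorem isAlgebraic_of_quotient {q k : ℕ} {K L : Type} [Field K] [Field L] [Algebra ℂ K]
    [Algebra ℂ L] [Algebra K L] {x : Fin (q + 1) → L} {z : Fin k → L}
    {g : MvPolynomial (Fin k) ℂ} {b : Fin k → ℚ} {G : Subgroup (L ≃ₐ[ℂ] L)} {A : Subalgebra ℂ K}
    (H : Q.IsQuotient x z g b G A) : Algebra.IsAlgebraic K L := by
  classical
  have := H.finite
  have : Fintype G := Fintype.ofFinite G
  constructor
  intro f
  let P : Polynomial L := ∏ τ : G, (Polynomial.X - Polynomial.C ((τ : L ≃ₐ[ℂ] L) f))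
  have hP : ∀ n, P.coeff n ∈ Set.range (algebraMap K L) := by
    intro n
    rw [H.field]
    intro σ hσ
    have h1 : P.map (σ : L →+* L) = P := by
      simp only [P]
      rw [Polynomial.map_prod]
      refine Fintype.prod_equiv (Equiv.mulLeft (⟨σ, hσ⟩ : G)) _ _ fun τ => ?_
      rw [Polynomial.map_sub, Polynomial.map_X, Polynomial.map_C]
      rfl
    have h2 := congrArg (fun p => Polynomial.coeff p n) h1
    simp only [Polynomial.coeff_map] at h2
    exact h2
  have hmon : P.Monic := Polynomial.monic_prod_of_monic _ _ fun τ _ => Polynomial.monic_X_sub_C _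
  obtain ⟨Q, hQ1, -, hQ2⟩ := Polynomial.lifts_and_natDegree_eq_and_monic
    ((Polynomial.lifts_iff_coeff_lifts P).2 hP) hmon
  refine ⟨Q, hQ2.ne_zero, ?_⟩
  rw [Polynomial.aeval_def, ← Polynomial.eval_map, hQ1]
  simp only [P]
  rw [Polynomial.eval_prod]
  refine Finset.prod_eq_zero (Finset.mem_univ (1 : G)) ?_
  simp

end Vale.Agent.P283
end
end

section

section

/-!
The canonical form of `Y` is semi-invariant under the group `G` (abstract setting).
-/

namespace Vale.Agent.P283.Abs

open scoped KaehlerDifferential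
open MvPolynomial Finset

variable {q k : ℕ} {K L : Type} [Field K] [Field L] [Algebra ℂ K] [Algebra ℂ L] [Algebra K L]
  [IsScalarTower ℂ K L]

/-- the coordinates -/
def cT (x : Fin (q + 1) → L) (z : Fin k → L) : Fin q ⊕ Fin k → L := Sum.elim (Fin.tail x) z

/-- the canonical form -/
noncomputable def omY (x : Fin (q + 1) → L) (z : Fin k → L) : ⋀[L]^(q + k) (Ω[L⁄ℂ]) :=
  (∏ l, Fin.tail x l)⁻¹ • wedgeD (q + k) (Fin.append (Fin.tail x) z)

omit [Field L] [Algebra ℂ L] in
@[simp] lemma cT_inl (x : Fin (q + 1) → L) (z : Fin k → L) (l : Fin q) :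
    cT x z (Sum.inl l) = x l.succ := rfl

omit [Field L] [Algebra ℂ L] in
@[simp] lemma cT_inr (x : Fin (q + 1) → L) (z : Fin k → L) (j : Fin k) :
    cT x z (Sum.inr j) = z j := rfl

omit [Field L] [Algebra ℂ L] in
lemma cT_comp (x : Fin (q + 1) → L) (z : Fin k → L) :
    (cT x z) ∘ (finSumFinEquiv (m := q) (n := k)).symm = Fin.append (Fin.tail x) z := by
  funext i
  refine Fin.addCases (fun l => ?_) (fun j => ?_) i
  · simp [cT]
  · simp [cT]

variable {x : Fin (q + 1) → L} {z : Fin k → L} {g : MvPolynomial (Fin k) ℂ} {b : Fin k → ℚ}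
  {G : Subgroup (L ≃ₐ[ℂ] L)} {A : Subalgebra ℂ K}

omit [IsScalarTower ℂ K L]

lemma coords (H : Q.IsQuotient x z g b G A) : IsCoords (cT x z) := isCoords_of_quotient H

lemma z_ne (H : Q.IsQuotient x z g b G A) (j : Fin k) : z j ≠ 0 := (coords H).ne_zero (Sum.inr j)

lemma xs_ne (H : Q.IsQuotient x z g b G A) (l : Fin q) : Fin.tail x l ≠ 0 :=
  (coords H).ne_zero (Sum.inl l)

lemma aeval_z_ne (H : Q.IsQuotient x z g b G A) {p : MvPolynomial (Fin k) ℂ} (hp : p ≠ 0) :
    aeval z p ≠ 0 := by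
  have h1 : aeval z p = aeval (cT x z) (rename Sum.inr p) := by
    rw [aeval_rename]; rfl
  rw [h1]
  refine (coords H).aeval_ne_zero ?_
  intro h
  exact hp (rename_injective _ Sum.inr_injective (by rw [h, map_zero]))

lemma prod_ne (H : Q.IsQuotient x z g b G A) : ∏ l, Fin.tail x l ≠ 0 :=
  Finset.prod_ne_zero_iff.mpr fun l _ => xs_ne H l

lemma x0_mul (H : Q.IsQuotient x z g b G A) : x 0 * ∏ l, Fin.tail x l = aeval z g := by
  have := H.equation
  rw [Fin.prod_univ_succ] at this
  exact this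

lemma x0_eq (H : Q.IsQuotient x z g b G A) : x 0 = aeval z g / ∏ l, Fin.tail x l := by
  rw [eq_div_iff (prod_ne H)]
  exact x0_mul H

lemma x_ne (H : Q.IsQuotient x z g b G A) (i : Fin (q + 1)) : x i ≠ 0 := by
  refine Fin.cases ?_ (fun l => ?_) i
  · rw [x0_eq H]
    exact div_ne_zero (aeval_z_ne H H.nonzero) (prod_ne H)
  · exact xs_ne H l

section Eigs

variable (B : Module.Basis (Fin q ⊕ Fin k) L (Ω[L⁄ℂ]))
  (hB : ∀ i, B i = KaehlerDifferential.D ℂ L (cT x z i))

/-- logarithmic derivation -/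
noncomputable def logD (t : Fin q ⊕ Fin k → L) (B : Module.Basis (Fin q ⊕ Fin k) L (Ω[L⁄ℂ]))
    (i : Fin q ⊕ Fin k) : Derivation ℂ L L := t i • pd B i

include hB

lemma logD_std (i j : Fin q ⊕ Fin k) :
    logD (cT x z) B i (cT x z j) = if i = j then cT x z j else 0 := by
  show cT x z i • pd B i (cT x z j) = _
  rw [pd_self B hB]
  by_cases h : i = j
  · subst h; simp
  · rw [if_neg (Ne.symm h), if_neg h, smul_zero]

lemma eig_x (H : Q.IsQuotient x z g b G A) (m : Fin q) (i : Fin (q + 1)) :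
    EigV (logD (cT x z) B (Sum.inl m)) (x i)
      (Fin.cases (motive := fun _ => ℂ) (-1) (fun l => if m = l then 1 else 0) i) := by
  refine Fin.cases ?_ (fun l => ?_) i
  · show EigV (logD (cT x z) B (Sum.inl m)) (x 0) (-1)
    rw [x0_eq H, div_eq_mul_inv]
    have h0 : EigV (logD (cT x z) B (Sum.inl m)) (aeval z g) 0 := by
      unfold EigV
      rw [derivation_aeval_zero, map_zero, zero_mul]
      intro j
      have := logD_std B hB (Sum.inl m) (Sum.inr j)
      simpa only [cT_inr, reduceCtorEq, ↓reduceIte] using this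
    have h1 : EigV (logD (cT x z) B (Sum.inl m)) (∏ l, Fin.tail x l) 1 := by
      have h2 : EigV (logD (cT x z) B (Sum.inl m)) (∏ l', Fin.tail x l')
          (∑ l', if m = l' then (1 : ℂ) else 0) := by
        refine EigV.prod _ fun l' _ => ?_
        have h3 := eigV_t (logD (cT x z) B) (cT x z) (logD_std B hB) (Sum.inl m) (Sum.inl l')
        simp only [cT_inl, Sum.inl.injEq] at h3
        exact h3
      simpa only [sum_ite_eq, mem_univ, ↓reduceIte] using h2
    have h2 := h0.mul h1.inv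
    simpa only [zero_add] using h2
  · have h3 := eigV_t (logD (cT x z) B) (cT x z) (logD_std B hB) (Sum.inl m) (Sum.inl l)
    simp only [cT_inl, Sum.inl.injEq] at h3
    exact h3

/-- the Jacobian of an element of `G` -/
theorem jacobian_det (H : Q.IsQuotient x z g b G A) (τ : L ≃ₐ[ℂ] L) (hτ : τ ∈ G) :
    ∃ κ : ℂ, (Matrix.of fun i j => pd B j (τ (cT x z i))).det
      = τ (∏ l, Fin.tail x l) * (∏ l, Fin.tail x l)⁻¹ * algebraMap ℂ L κ := by
  classical
  choose i' c hic using fun l : Fin q => H.permX τ hτ l.succ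
  have hM : ∀ j, ∃ M : Fin k → ℂ, τ (z j) = ∑ i, M i • z i := by
    intro j
    have := H.linZ τ hτ j
    rw [Submodule.mem_span_range_iff_exists_fun] at this
    obtain ⟨M, hM⟩ := this
    exact ⟨M, hM.symm⟩
  choose M hM using hM
  let p : Matrix (Fin q) (Fin q) ℂ := Matrix.of fun l m =>
    (Fin.cases (motive := fun _ => ℂ) (-1) (fun l' => if m = l' then 1 else 0) (i' l))
  let P : Matrix (Fin q ⊕ Fin k) (Fin q ⊕ Fin k) L :=
    Matrix.of fun i j => pd B j (τ (cT x z i))
  have hx : ∀ (m : Fin q), Fin.tail x m ≠ 0 := xs_ne H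
  have h11 : P.toBlocks₁₁ = Matrix.diagonal (fun l => τ (Fin.tail x l))
      * p.map (algebraMap ℂ L) * Matrix.diagonal (fun m => (Fin.tail x m)⁻¹) := by
    ext l m
    rw [Matrix.mul_diagonal, Matrix.diagonal_mul]
    show pd B (Sum.inl m) (τ (Fin.tail x l))
      = τ (Fin.tail x l) * algebraMap ℂ _ (p l m) * (Fin.tail x m)⁻¹
    have h1 := (eig_x B hB H m (i' l)).smul (c l)
    have h2 : τ (Fin.tail x l) = algebraMap ℂ L (c l) * x (i' l) := by
      have := hic l
      rw [Algebra.smul_def] at this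
      exact this
    rw [← h2] at h1
    unfold EigV at h1
    have h3 : logD (cT x z) B (Sum.inl m) (τ (Fin.tail x l))
      = Fin.tail x m * pd B (Sum.inl m) (τ (Fin.tail x l)) := rfl
    rw [h3] at h1
    have h4 : pd B (Sum.inl m) (τ (Fin.tail x l)) = (Fin.tail x m)⁻¹ * (algebraMap ℂ L (p l m)
        * τ (Fin.tail x l)) := by
      rw [eq_inv_mul_iff_mul_eq₀ (hx m)]
      exact h1
    rw [h4]; ring
  have h21 : P.toBlocks₂₁ = 0 := by
    ext j m
    show pd B (Sum.inl m) (τ (z j)) = 0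
    rw [hM j, map_sum]
    refine Finset.sum_eq_zero fun i _ => ?_
    rw [Derivation.map_smul]
    have h1 : pd B (Sum.inl m) (z i) = 0 := by
      have := pd_self B hB (Sum.inr i) (Sum.inl m)
      simpa only [cT_inr, reduceCtorEq, ↓reduceIte] using this
    rw [h1, smul_zero]
  have h22 : P.toBlocks₂₂ = (Matrix.of M).map (algebraMap ℂ L) := by
    ext j i
    show pd B (Sum.inr i) (τ (z j)) = algebraMap ℂ _ (M j i)
    rw [hM j, map_sum, Finset.sum_eq_single i]
    · rw [Derivation.map_smul]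
      have h1 : pd B (Sum.inr i) (z i) = 1 := by
        have := pd_self B hB (Sum.inr i) (Sum.inr i)
        simpa using this
      rw [h1, Algebra.smul_def, mul_one]
    · intro i₂ _ hne
      rw [Derivation.map_smul]
      have h1 : pd B (Sum.inr i) (z i₂) = 0 := by
        have := pd_self B hB (Sum.inr i₂) (Sum.inr i)
        rw [if_neg (by simpa using hne)] at this
        exact this
      rw [h1, smul_zero]
    · intro h; exact absurd (Finset.mem_univ _) h
  refine ⟨p.det * (Matrix.of M).det, ?_⟩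
  show P.det = _
  have hd1 : (p.map (algebraMap ℂ L)).det = algebraMap ℂ L p.det :=
    (RingHom.map_det _ _).symm
  have hd2 : ((Matrix.of M).map (algebraMap ℂ L)).det
      = algebraMap ℂ L (Matrix.of M).det := (RingHom.map_det _ _).symm
  rw [← Matrix.fromBlocks_toBlocks P, h21, Matrix.det_fromBlocks_zero₂₁, h11, h22,
    Matrix.det_mul, Matrix.det_mul, Matrix.det_diagonal, Matrix.det_diagonal, hd1, hd2, map_mul,
    map_prod, Finset.prod_inv_distrib]
  ring

/-- semi-invariance of the coefficient of a `G`-invariant form -/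
theorem semi_inv (H : Q.IsQuotient x z g b G A) (τ : L ≃ₐ[ℂ] L) (hτ : τ ∈ G)
    (β : Fin q ⊕ Fin k → L) (hβ : ∀ i, τ (β i) = β i) (a : L)
    (ha : τ a = a) : ∃ κ : ℂ,
      a * (∏ l, Fin.tail x l) * (Matrix.of fun i j => pd B j (β i)).det
        = algebraMap ℂ L κ
          * τ (a * (∏ l, Fin.tail x l) * (Matrix.of fun i j => pd B j (β i)).det) := by
  obtain ⟨κ, hκ⟩ := jacobian_det B hB H τ hτ
  refine ⟨κ, ?_⟩
  have h1 : (Matrix.of fun i j => pd B j (β i))
      = ((Matrix.of fun i j => pd B j (β i)).map τ)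
        * (Matrix.of fun i j => pd B j (τ (cT x z i))) := by
    ext i m
    rw [Matrix.mul_apply]
    have := chain_rule B hB τ m (β i)
    rw [hβ] at this
    exact this
  have h2 : (Matrix.of fun i j => pd B j (β i)).det
      = τ ((Matrix.of fun i j => pd B j (β i)).det)
        * (τ (∏ l, Fin.tail x l) * (∏ l, Fin.tail x l)⁻¹ * algebraMap ℂ L κ) := by
    rw [← hκ]
    conv_lhs => rw [h1]
    rw [Matrix.det_mul]
    congr 1
    have := RingHom.map_det (τ : L →+* L)
      (Matrix.of fun i j => pd B j (β i))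
    exact this.symm
  rw [map_mul, map_mul, ha]
  conv_lhs => rw [h2]
  have h3 := prod_ne H
  field_simp

end Eigs

end Vale.Agent.P283.Abs
end
end

section

section

/-!
A subgroup of bounded index acting diagonally (abstract setting).
-/

namespace Vale.Agent.P283.Abs

open scoped KaehlerDifferential
open MvPolynomial Finset

variable {q k : ℕ} {K L : Type} [Field K] [Field L] [Algebra ℂ K] [Algebra ℂ L] [Algebra K L]

/-- linear combinations of the `z_j` -/
noncomputable def lin (z : Fin k → L) : (Fin k → ℂ) →ₗ[ℂ] L :=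
  Fintype.linearCombination ℂ z

lemma lin_apply (z : Fin k → L) (a : Fin k → ℂ) : lin z a = ∑ j, a j • z j :=
  Fintype.linearCombination_apply ℂ _ _

lemma lin_single (z : Fin k → L) (j : Fin k) : lin z (Pi.single j 1) = z j := by
  rw [lin_apply, Finset.sum_eq_single j]
  · simp
  · intro i _ hi; simp only [ne_eq, hi, not_false_eq_true, Pi.single_eq_of_ne, zero_smul]
  · intro h; exact absurd (Finset.mem_univ _) h

variable {x : Fin (q + 1) → L} {z : Fin k → L} {g : MvPolynomial (Fin k) ℂ} {b : Fin k → ℚ}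
  {G : Subgroup (L ≃ₐ[ℂ] L)} {A : Subalgebra ℂ K}

lemma lin_injective (H : Q.IsQuotient x z g b G A) : Function.Injective (lin z) := by
  have h1 : LinearIndependent ℂ z := by
    have h2 : LinearIndependent ℂ (cT x z) := (coords H).ind.linearIndependent
    exact h2.comp Sum.inr Sum.inr_injective
  exact h1.fintypeLinearCombination_injective

lemma mem_range_lin (H : Q.IsQuotient x z g b G A) (τ : L ≃ₐ[ℂ] L) (hτ : τ ∈ G)
    (a : Fin k → ℂ) : ∃ a', lin z a' = τ (lin z a) := by
  have h1 : ∀ j, ∃ a', lin z a' = τ (z j) := by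
    intro j
    have := H.linZ τ hτ j
    rw [Submodule.mem_span_range_iff_exists_fun] at this
    obtain ⟨M, hM⟩ := this
    exact ⟨M, by rw [lin_apply]; exact hM⟩
  choose A hA using h1
  refine ⟨∑ j, a j • A j, ?_⟩
  rw [map_sum, lin_apply, map_sum]
  refine Finset.sum_congr rfl fun j _ => ?_
  rw [map_smul, hA]
  exact (alg_smul τ (a j) (z j)).symm

/-- the action of `G` on the coefficients of linear combinations of the `z_j` -/
noncomputable def repFun (H : Q.IsQuotient x z g b G A) (τ : G) (a : Fin k → ℂ) : Fin k → ℂ :=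
  (mem_range_lin H τ.1 τ.2 a).choose

lemma repFun_spec (H : Q.IsQuotient x z g b G A) (τ : G) (a : Fin k → ℂ) :
    lin z (repFun H τ a) = τ.1 (lin z a) :=
  (mem_range_lin H τ.1 τ.2 a).choose_spec

/-- the representation of `G` on the span of the `z_j` -/
noncomputable def repZ (H : Q.IsQuotient x z g b G A) :
    G →* ((Fin k → ℂ) →ₗ[ℂ] (Fin k → ℂ)) where
  toFun := fun τ =>
    { toFun := repFun H τ
      map_add' := by
        intro x y
        apply lin_injective H
        rw [map_add, repFun_spec, repFun_spec, repFun_spec, map_add, map_add]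
      map_smul' := by
        intro c x
        apply lin_injective H
        rw [map_smul, repFun_spec, repFun_spec, map_smul]
        exact alg_smul _ _ _ }
  map_one' := by
    refine LinearMap.ext fun x => ?_
    apply lin_injective H
    exact repFun_spec H 1 x
  map_mul' := by
    intro τ σ
    refine LinearMap.ext fun x => ?_
    apply lin_injective H
    show lin z (repFun H (τ * σ) x) = lin z (repFun H τ (repFun H σ x))
    rw [repFun_spec, repFun_spec, repFun_spec]
    rfl

lemma repZ_spec (H : Q.IsQuotient x z g b G A) (τ : G) (a : Fin k → ℂ) :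
    lin z (repZ H τ a) = τ.1 (lin z a) := repFun_spec H τ a

/-- **diagonalization**: a subgroup of bounded index acts diagonally in suitable coordinates -/
theorem exists_diag (q k : ℕ) : ∃ J : ℕ, ∀ (K L : Type) [Field K] [Field L] [Algebra ℂ K]
    [Algebra ℂ L] [Algebra K L] (x : Fin (q + 1) → L) (z : Fin k → L)
    (g : MvPolynomial (Fin k) ℂ) (b : Fin k → ℚ) (G : Subgroup (L ≃ₐ[ℂ] L))
    (A : Subalgebra ℂ K), Q.IsQuotient x z g b G A →
    ∃ (G0 : Subgroup (L ≃ₐ[ℂ] L)) (v : Fin k → (Fin k → ℂ)),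
      G0 ≤ G ∧ G0.relIndex G ≤ J ∧ LinearIndependent ℂ v ∧
      (∀ j, b j ≠ 0 → v j = Pi.single j 1) ∧
      (∀ τ ∈ G0, ∀ i, ∃ c : ℂ, τ (x i) = c • x i) ∧
      (∀ τ ∈ G0, ∀ j, ∃ c : ℂ, τ (lin z (v j)) = c • lin z (v j)) := by
  classical
  obtain ⟨J₀, -, hJ₀⟩ := jordan_rep' k
  refine ⟨J₀ * (Fintype.card (Fin (q + 1) → Fin (q + 1))
    * Fintype.card (Fin k → Fin k)), ?_⟩
  intro K L _ _ _ _ _ x z g b G R H
  have hfin : Finite G := H.finite
  obtain ⟨A₁, hA₁, hspan⟩ := hJ₀ G (repZ H)
  let A₂ : Subgroup G := (stab x).subgroupOf G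
  let A₃ : Subgroup G := (stab (fun j : {j // b j ≠ 0} => z j.1)).subgroupOf G
  have hA₂ : A₂.index ≤ Fintype.card (Fin (q + 1) → Fin (q + 1)) := by
    choose i' c hic using fun (τ : G) => H.permX τ.1 τ.2
    refine index_le_of_map A₂ (fun τ i => i' τ i) ?_
    intro τ σ h
    rw [Subgroup.mem_subgroupOf]
    refine stab_of_eq x (x_ne H) (fun i => x (i' τ i)) τ σ
      (c τ) (c σ) (hic τ) ?_
    intro i
    have := congrFun h i
    rw [hic σ i, this]
  have hA₃ : A₃.index ≤ Fintype.card (Fin k → Fin k) := by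
    choose j' c hbj hjc using fun (τ : G) => H.permZ τ.1 τ.2
    refine index_le_of_map A₃ (fun τ j => if h : b j ≠ 0 then j' τ j h else j) ?_
    intro τ σ h
    rw [Subgroup.mem_subgroupOf]
    refine stab_of_eq (fun j : {j // b j ≠ 0} => z j.1)
      (fun j => z_ne H j.1) (fun j => z (j' τ j.1 j.2)) τ σ
      (fun j => c τ j.1 j.2) (fun j => c σ j.1 j.2) (fun j => hjc τ j.1 j.2) ?_
    intro j
    have h1 := congrFun h j.1
    simp only [dif_pos j.2] at h1
    rw [hjc σ j.1 j.2, h1]
  let A : Subgroup G := A₁ ⊓ (A₂ ⊓ A₃)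
  have hA : A.index ≤ J₀ * (Fintype.card (Fin (q + 1) → Fin (q + 1))
      * Fintype.card (Fin k → Fin k)) :=
    Subgroup.index_inf_le.trans (Nat.mul_le_mul hA₁
      (Subgroup.index_inf_le.trans (Nat.mul_le_mul hA₂ hA₃)))
  let s : Set (Fin k → ℂ) := {v | ∀ a ∈ A, ∃ c : ℂ, repZ H a v = c • v}
  have hs : Submodule.span ℂ s = ⊤ := by
    rw [eq_top_iff, ← hspan]
    refine Submodule.span_mono ?_
    intro v hv a ha
    exact hv a ha.1
  obtain ⟨v, hv1, hv2, hv3⟩ := exists_basis_ext s hs b (by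
    intro j hj a ha
    have h1 : (a : L ≃ₐ[ℂ] L) ∈ stab (fun j : {j // b j ≠ 0} => z j.1) := ha.2.2
    obtain ⟨c, hc⟩ := h1 ⟨j, hj⟩
    refine ⟨c, lin_injective H ?_⟩
    rw [repZ_spec, map_smul, lin_single]
    exact hc)
  refine ⟨A.map G.subtype, v, Subgroup.map_subtype_le A, ?_, hv1, hv3, ?_, ?_⟩
  · have : (A.map G.subtype).relIndex G = A.index := by
      unfold Subgroup.relIndex
      congr 1
      exact Subgroup.comap_map_eq_self_of_injective G.subtype_injective A
    rw [this]; exact hA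
  · rintro _ ⟨a, ha, rfl⟩ i
    exact ha.2.1 i
  · rintro _ ⟨a, ha, rfl⟩ j
    obtain ⟨c, hc⟩ := hv2 j a ha
    refine ⟨c, ?_⟩
    rw [← map_smul, ← hc]
    exact (repZ_spec H a (v j)).symm

/-! Linear change of the coordinates `z_j`. -/

variable (x z) (v : Fin k → (Fin k → ℂ))

/-- the new coordinates -/
noncomputable def nT : Fin q ⊕ Fin k → L :=
  Sum.elim (Fin.tail x) fun j => lin z (v j)

@[simp] lemma nT_inl (l : Fin q) : nT x z v (Sum.inl l) = Fin.tail x l := rfl

@[simp] lemma nT_inr (j : Fin k) : nT x z v (Sum.inr j) = lin z (v j) := rfl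

lemma nT_eq (i : Fin q ⊕ Fin k) : nT x z v i = aeval (cT x z) (lsub q v i) := by
  rcases i with l | j
  · simp only [lsub, Sum.elim_inl, aeval_X, cT_inl, nT_inl]
    rfl
  · simp only [nT_inr, lsub, Sum.elim_inr, map_sum, map_mul, aeval_C, aeval_X, cT_inr]
    rw [lin_apply]
    exact Finset.sum_congr rfl fun i _ => by rw [Algebra.smul_def]

lemma aeval_nT (p : MvPolynomial (Fin q ⊕ Fin k) ℂ) :
    aeval (nT x z v) p = aeval (cT x z) (bind₁ (lsub q v) p) := by
  rw [aeval_bind₁]
  congr 2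
  funext i
  exact nT_eq x z v i

variable {x z} (hv : LinearIndependent ℂ v)
include hv

theorem isCoords_nT (H : Q.IsQuotient x z g b G A) : IsCoords (nT x z v) := by
  obtain ⟨w, hvw, hwv, -⟩ := exists_inv v hv
  have hstd := coords H
  constructor
  · rw [AlgebraicIndependent, injective_iff_map_eq_zero]
    intro p hp
    rw [aeval_nT] at hp
    by_contra hne
    refine hstd.aeval_ne_zero (p := bind₁ (lsub q v) p) ?_ hp
    intro h0
    apply hne
    rw [← bind_lsub (q := q) v w hvw p, h0, map_zero]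
  · intro f
    obtain ⟨p, r, hr, hf⟩ := hstd.gen f
    have h1 : ∀ p : MvPolynomial (Fin q ⊕ Fin k) ℂ,
        aeval (nT x z v) (bind₁ (lsub q w) p) = aeval (cT x z) p := by
      intro p
      rw [aeval_nT, bind_lsub w v hwv]
    refine ⟨bind₁ (lsub q w) p, bind₁ (lsub q w) r, ?_, ?_⟩
    · intro h0
      apply hr
      rw [← bind_lsub (q := q) w v hwv r, h0, map_zero]
    · rw [h1, h1, hf]

/-- the old coordinates are linear combinations of the new ones -/
lemma z_mem (j : Fin k) : z j ∈ Submodule.span ℂ (Set.range fun j => lin z (v j)) := by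
  have h1 : (⊤ : Submodule ℂ (Fin k → ℂ)) = Submodule.span ℂ (Set.range v) := by
    refine (hv.span_eq_top_of_card_eq_finrank' ?_).symm
    simp only [Fintype.card_fin, Module.finrank_fintype_fun_eq_card]
  have h2 : (Pi.single j 1 : Fin k → ℂ) ∈ Submodule.span ℂ (Set.range v) := by
    rw [← h1]; exact Submodule.mem_top
  have h3 := Submodule.mem_map_of_mem (f := lin z) h2
  rw [lin_single, Submodule.map_span, ← Set.range_comp] at h3
  exact h3

/-- the equation in the new coordinates -/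
theorem exists_newg (H : Q.IsQuotient x z g b G A) : ∃ g' : MvPolynomial (Fin k) ℂ,
    g' ≠ 0 ∧ aeval (fun j => nT x z v (Sum.inr j)) g' = aeval z g := by
  classical
  obtain ⟨w, hvw, hwv, -⟩ := exists_inv v hv
  have hkey : aeval (fun j => nT x z v (Sum.inr j)) (bind₁ (fun i => lform (w i)) g)
      = aeval z g := by
    rw [aeval_bind₁]
    congr 2
    funext i
    simp only [lform, map_sum, map_mul, aeval_C, aeval_X, nT_inr]
    have h2 : ∑ j, algebraMap ℂ L (w i j) * lin z (v j)
        = lin z (∑ j, w i j • v j) := by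
      rw [map_sum]
      exact Finset.sum_congr rfl fun j _ => by rw [map_smul, Algebra.smul_def]
    rw [h2, ← lin_single z i]
    congr 1
    funext l
    have := congrFun (congrFun hwv i) l
    rw [Matrix.mul_apply, Matrix.one_apply] at this
    simp only [Finset.sum_apply, Pi.smul_apply, smul_eq_mul, Pi.single_apply]
    have h5 : (if l = i then (1 : ℂ) else 0) = if i = l then 1 else 0 := by
      simp only [eq_comm]
    rw [h5]
    exact this
  refine ⟨bind₁ (fun i => lform (w i)) g, ?_, hkey⟩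
  intro h0
  rw [h0, map_zero] at hkey
  exact aeval_z_ne H H.nonzero hkey.symm

/-- the canonical form in the new coordinates -/
theorem omY_eq (H : Q.IsQuotient x z g b G A) : ∃ c : ℂ, c ≠ 0 ∧
    omY x z = (algebraMap ℂ L c * ∏ j, lin z (v j)) • logForm (nT x z v) := by
  classical
  obtain ⟨w, hvw, hwv, hdet⟩ := exists_inv v hv
  have hstd := coords H
  obtain ⟨B, hB⟩ := exists_kaehler_basis _ hstd.isTranscendenceBasis
  have h1 : wedgeS (nT x z v) = algebraMap ℂ L (Matrix.of v).det • wedgeS (cT x z) := by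
    have h2 := wedgeS_sum B (b := cT x z) (nT x z v)
      (Matrix.fromBlocks 1 0 0 ((Matrix.of v).map (algebraMap ℂ L))) (by
        rintro (l | j)
        · rw [Fintype.sum_sum_type]
          simp only [nT_inl, Matrix.fromBlocks_apply₁₁, Matrix.one_apply, ite_smul, one_smul,
            zero_smul, Finset.sum_ite_eq, Finset.mem_univ, if_true, Matrix.fromBlocks_apply₁₂,
            Matrix.zero_apply, Finset.sum_const_zero, add_zero]
          rfl
        · rw [Fintype.sum_sum_type]
          simp only [nT_inr, Matrix.fromBlocks_apply₂₁, Matrix.zero_apply, zero_smul, sum_const_zero, Matrix.fromBlocks_apply₂₂, Matrix.map_apply, Matrix.of_apply, cT_inr, zero_add]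
          rw [lin_apply, map_sum]
          refine Finset.sum_congr rfl fun i _ => ?_
          rw [Derivation.map_smul, algebraMap_smul])
    rw [h2, Matrix.det_fromBlocks_zero₂₁, Matrix.det_one, one_mul]
    congr 1
    exact (RingHom.map_det _ _).symm
  have h3 : logForm (nT x z v) = (∏ i, nT x z v i)⁻¹ • wedgeS (nT x z v) := by
    unfold logForm dlogForm wedgeS
    congr 2
    rw [← Equiv.prod_comp (finSumFinEquiv (m := q) (n := k)).symm (nT x z v)]
    rfl
  have h4 : omY x z = (∏ l, Fin.tail x l)⁻¹ • wedgeS (cT x z) := by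
    unfold omY wedgeS
    rw [cT_comp]
  have hc : algebraMap ℂ L (Matrix.of v).det ≠ 0 := (map_ne_zero _).mpr hdet
  have hx := prod_ne H
  have hz : ∏ j, lin z (v j) ≠ 0 := Finset.prod_ne_zero_iff.mpr fun j _ =>
    (isCoords_nT v hv H).ne_zero (Sum.inr j)
  refine ⟨((Matrix.of v).det)⁻¹, inv_ne_zero hdet, ?_⟩
  rw [h3, h4, h1, Fintype.prod_sum_type, smul_smul, smul_smul]
  congr 1
  simp only [nT_inl, nT_inr, map_inv₀]
  field_simp

end Vale.Agent.P283.Abs
end
end

section

section

/-!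
The coordinate ring of `X = Y / G`, pullback of forms (abstract setting).
-/

namespace Vale.Agent.P283.Abs

open scoped KaehlerDifferential
open MvPolynomial Finset

variable {q k : ℕ} {K L : Type} [Field K] [Field L] [Algebra ℂ K] [Algebra ℂ L] [Algebra K L]
  {x : Fin (q + 1) → L} {z : Fin k → L} {g : MvPolynomial (Fin k) ℂ} {b : Fin k → ℚ}
  {G : Subgroup (L ≃ₐ[ℂ] L)} {A : Subalgebra ℂ K}

/-- the coordinate ring of `Y` -/
noncomputable def rY (x : Fin (q + 1) → L) (z : Fin k → L) : Subalgebra ℂ L :=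
  Algebra.adjoin ℂ (Set.range x ∪ Set.range z)

lemma x_mem (x : Fin (q + 1) → L) (z : Fin k → L) (i : Fin (q + 1)) : x i ∈ rY x z :=
  Algebra.subset_adjoin (Or.inl ⟨i, rfl⟩)

lemma z_mem_rY (x : Fin (q + 1) → L) (z : Fin k → L) (j : Fin k) : z j ∈ rY x z :=
  Algebra.subset_adjoin (Or.inr ⟨j, rfl⟩)

lemma lin_mem (x : Fin (q + 1) → L) (z : Fin k → L) (a : Fin k → ℂ) : lin z a ∈ rY x z := by
  rw [lin_apply]
  exact Subalgebra.sum_mem _ fun j _ => Subalgebra.smul_mem _ (z_mem_rY x z j) _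

lemma span_le_of_mem {S : Subalgebra ℂ L} {ι : Type} (u : ι → L)
    (hu : ∀ i, u i ∈ S) {x : L} (hx : x ∈ Submodule.span ℂ (Set.range u)) : x ∈ S := by
  have h1 : Submodule.span ℂ (Set.range u) ≤ Subalgebra.toSubmodule S := by
    rw [Submodule.span_le]
    rintro _ ⟨i, rfl⟩
    exact hu i
  exact h1 hx

lemma rY_stable (H : Q.IsQuotient x z g b G A) (τ : L ≃ₐ[ℂ] L) (hτ : τ ∈ G)
    {a : L} (ha : a ∈ rY x z) : τ a ∈ rY x z := by
  have h1 : rY x z ≤ (rY x z).comap (τ : L →ₐ[ℂ] L) := by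
    unfold rY
    rw [Algebra.adjoin_le_iff]
    rintro y (⟨i, rfl⟩ | ⟨j, rfl⟩)
    · obtain ⟨i', c, h⟩ := H.permX τ hτ i
      show τ (x i) ∈ rY x z
      rw [h]
      exact Subalgebra.smul_mem _ (x_mem x z i') c
    · show τ (z j) ∈ rY x z
      exact span_le_of_mem _ (fun j => z_mem_rY x z j) (H.linZ τ hτ j)
  exact h1 ha

lemma aeval_cT_mem (x : Fin (q + 1) → L) (z : Fin k → L) (p : MvPolynomial (Fin q ⊕ Fin k) ℂ) :
    aeval (cT x z) p ∈ rY x z := by
  have h1 : aeval (cT x z) p ∈ Algebra.adjoin ℂ (Set.range (cT x z)) := by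
    rw [Algebra.adjoin_range_eq_range_aeval]; exact ⟨p, rfl⟩
  have h2 : Algebra.adjoin ℂ (Set.range (cT x z)) ≤ rY x z := by
    rw [Algebra.adjoin_le_iff]
    rintro _ ⟨l | j, rfl⟩
    · exact x_mem x z l.succ
    · exact z_mem_rY x z j
  exact h2 h1

/-- `K = Frac(A)` -/
theorem ring_frac (H : Q.IsQuotient x z g b G A) (f : K) : ∃ x ∈ A, ∃ y ∈ A,
    y ≠ 0 ∧ f = x / y := by
  classical
  have hfin : Finite G := H.finite
  have : Fintype G := Fintype.ofFinite G
  obtain ⟨p, r, hr, hf⟩ := (coords H).gen (algebraMap K L f)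
  set R := aeval (cT x z) r with hR
  have hR0 : R ≠ 0 := (coords H).aeval_ne_zero hr
  let N : L := ∏ τ : G, (τ : L ≃ₐ[ℂ] L) R
  have hN0 : N ≠ 0 := Finset.prod_ne_zero_iff.mpr fun τ _ => (map_ne_zero _).mpr hR0
  have hNfix : N ∈ Set.range (algebraMap K L) := by
    rw [H.field]
    intro σ hσ
    simp only [N, map_prod]
    exact Fintype.prod_equiv (Equiv.mulLeft (⟨σ, hσ⟩ : G)) _ _ fun τ => rfl
  have hNmem : N ∈ rY x z :=
    Subalgebra.prod_mem _ fun τ _ => rY_stable H τ.1 τ.2 (aeval_cT_mem x z r)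
  obtain ⟨y, hy⟩ := hNfix
  have hy0 : y ≠ 0 := fun h => hN0 (by rw [← hy, h, map_zero])
  refine ⟨f * y, ?_, y, ?_, hy0, ?_⟩
  · rw [H.ring, map_mul, hy]
    show algebraMap K L f * N ∈ rY x z
    have h1 : N = R * ∏ τ ∈ Finset.univ.erase (1 : G), (τ : L ≃ₐ[ℂ] L) R := by
      simp only [N]
      rw [← Finset.mul_prod_erase Finset.univ _ (Finset.mem_univ (1 : G))]
      rfl
    have h2 : algebraMap K L f * N = aeval (cT x z) p
        * ∏ τ ∈ Finset.univ.erase (1 : G), (τ : L ≃ₐ[ℂ] L) R := by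
      rw [h1, hf]
      (clear * - hR0; field_simp)
    rw [h2]
    exact Subalgebra.mul_mem _ (aeval_cT_mem x z p)
      (Subalgebra.prod_mem _ fun τ _ => rY_stable H τ.1 τ.2 (aeval_cT_mem x z r))
  · rw [H.ring, hy]
    exact hNmem
  · field_simp

/-- functions on `Y` are integral over the functions on `X` -/
theorem rY_integral (H : Q.IsQuotient x z g b G A) {y : L} (hy : y ∈ rY x z) :
    IsIntegral A y := by
  classical
  have hfin : Finite G := H.finite
  have : Fintype G := Fintype.ofFinite G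
  let P : Polynomial L :=
    ∏ τ : G, (Polynomial.X - Polynomial.C ((τ : L ≃ₐ[ℂ] L) y))
  have hmon : P.Monic := Polynomial.monic_prod_of_monic _ _ fun τ _ => Polynomial.monic_X_sub_C _
  have hcoefY : ∀ n, P.coeff n ∈ rY x z := by
    have h1 : P ∈ Polynomial.lifts (rY x z).val.toRingHom := by
      refine Subsemiring.prod_mem _ fun τ _ => ?_
      refine (Polynomial.lifts_iff_coeff_lifts _).mpr fun n => ?_
      rw [Polynomial.coeff_sub]
      have e1 : Polynomial.coeff (Polynomial.X : Polynomial L) n ∈ rY x z := by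
        rw [Polynomial.coeff_X]
        split_ifs
        · exact Subalgebra.one_mem _
        · exact Subalgebra.zero_mem _
      have e2 : Polynomial.coeff (Polynomial.C ((τ : L ≃ₐ[ℂ] L) y)) n
          ∈ rY x z := by
        rw [Polynomial.coeff_C]
        split_ifs
        · exact rY_stable H τ.1 τ.2 hy
        · exact Subalgebra.zero_mem _
      exact ⟨⟨_, Subalgebra.sub_mem _ e1 e2⟩, rfl⟩
    intro n
    obtain ⟨c, hc⟩ := (Polynomial.lifts_iff_coeff_lifts _).mp h1 n
    rw [← hc]
    exact c.2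
  have hcoefK : ∀ n, P.coeff n ∈ Set.range (algebraMap K L) := by
    intro n
    rw [H.field]
    intro σ hσ
    have h1 : P.map (σ : L →+* L) = P := by
      simp only [P]
      rw [Polynomial.map_prod]
      refine Fintype.prod_equiv (Equiv.mulLeft (⟨σ, hσ⟩ : G)) _ _ fun τ => ?_
      rw [Polynomial.map_sub, Polynomial.map_X, Polynomial.map_C]
      rfl
    have h2 := congrArg (fun p => Polynomial.coeff p n) h1
    simp only [Polynomial.coeff_map] at h2
    exact h2
  have hlift : P ∈ Polynomial.lifts (algebraMap A L) := by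
    refine (Polynomial.lifts_iff_coeff_lifts _).mpr fun n => ?_
    obtain ⟨c, hc⟩ := hcoefK n
    have hcA : c ∈ A := by
      rw [H.ring, hc]; exact hcoefY n
    exact ⟨⟨c, hcA⟩, hc⟩
  obtain ⟨Q, hQ1, -, hQ2⟩ := Polynomial.lifts_and_natDegree_eq_and_monic hlift hmon
  refine ⟨Q, hQ2, ?_⟩
  rw [← Polynomial.eval_map, hQ1]
  simp only [P]
  rw [Polynomial.eval_prod]
  refine Finset.prod_eq_zero (Finset.mem_univ (1 : G)) ?_
  simp only [OneMemClass.coe_one, AlgEquiv.one_apply, Polynomial.eval_sub, Polynomial.eval_X, Polynomial.eval_C, sub_self]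

theorem ring_sub (H : Q.IsQuotient x z g b G A) (v : Fin k → (Fin k → ℂ))
    (hv : LinearIndependent ℂ v) (a : K) (ha : a ∈ A) :
    algebraMap K L a ∈ Algebra.adjoin ℂ (insert (x 0) (Set.range (nT x z v))) := by
  have h1 : rY x z ≤ Algebra.adjoin ℂ (insert (x 0) (Set.range (nT x z v))) := by
    unfold rY
    rw [Algebra.adjoin_le_iff]
    rintro y (⟨i, rfl⟩ | ⟨j, rfl⟩)
    · refine Fin.cases ?_ (fun l => ?_) i
      · exact Algebra.subset_adjoin (Set.mem_insert _ _)
      · exact Algebra.subset_adjoin (Set.mem_insert_of_mem _ ⟨Sum.inl l, rfl⟩)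
    · refine span_le_of_mem _ (fun i => ?_) (z_mem (z := z) v hv j)
      exact Algebra.subset_adjoin (Set.mem_insert_of_mem _ ⟨Sum.inr i, rfl⟩)
  exact h1 ((H.ring a).mp ha)

/-- coefficient of a form in terms of the canonical form of `Y` -/
theorem coef_omY (H : Q.IsQuotient x z g b G A)
    (B : Module.Basis (Fin q ⊕ Fin k) L (Ω[L⁄ℂ]))
    (hB : ∀ i, B i = KaehlerDifferential.D ℂ L (cT x z i)) (a : L) (β : Fin (q + k) → L) :
    (a * (∏ l, Fin.tail x l) * (Matrix.of fun i j => pd B j (β (finSumFinEquiv i))).det) • omY x z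
      = a • wedgeD (q + k) β := by
  have h1 := wedgeS_det B hB (fun i => β (finSumFinEquiv i))
  have h2 : wedgeS (fun i : Fin q ⊕ Fin k => β (finSumFinEquiv i)) = wedgeD (q + k) β := by
    unfold wedgeS
    congr 1
    funext i
    simp
  have hx := prod_ne H
  have h3 : wedgeS (cT x z) = (∏ l, Fin.tail x l) • omY x z := by
    unfold omY wedgeS
    rw [cT_comp, smul_smul, mul_inv_cancel₀ hx, one_smul]
  rw [← h2, h1, h3, smul_smul, smul_smul]
  congr 1
  ring

/-- the pullback of a rational form on `X`, and its semi-invariance -/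
theorem exists_pullback [IsScalarTower ℂ K L] (H : Q.IsQuotient x z g b G A)
    (ω : ⋀[K]^(q + k) (Ω[K⁄ℂ])) (hω : ω ≠ 0) : ∃ F : L, F ≠ 0 ∧ IsPullback ω (F • omY x z) ∧
      ∀ τ ∈ G, ∃ κ : ℂ, κ ≠ 0 ∧ τ F = algebraMap ℂ L κ * F := by
  classical
  have htr : Algebra.trdeg ℂ L = ((q + k : ℕ) : Cardinal) := by
    rw [(coords H).trdeg_eq]; simp only [Fintype.card_sum, Fintype.card_fin, Nat.cast_add]
  obtain ⟨a, β, ha, hne⟩ := gen_pullback (isAlgebraic_of_quotient H) htr ω hω
  obtain ⟨B, hB⟩ := exists_kaehler_basis _ (coords H).isTranscendenceBasis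
  have h4 := coef_omY H B hB (algebraMap K L a) (fun i => algebraMap K L (β i))
  set F : L := algebraMap K L a * (∏ l, Fin.tail x l)
    * (Matrix.of fun i j => pd B j (algebraMap K L (β (finSumFinEquiv i)))).det with hFdef
  have hF0 : F ≠ 0 := by
    intro h0
    rw [h0, zero_smul] at h4
    exact hne h4.symm
  refine ⟨F, hF0, ⟨a, β, ha, h4⟩, ?_⟩
  intro τ hτ
  obtain ⟨κ, hκ⟩ := semi_inv B hB H τ hτ
    (fun i => algebraMap K L (β (finSumFinEquiv i)))
    (fun i => (H.field _).mp ⟨_, rfl⟩ τ hτ)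
    (algebraMap K L a) ((H.field _).mp ⟨_, rfl⟩ τ hτ)
  rw [← hFdef] at hκ
  have hκ0 : κ ≠ 0 := by
    rintro rfl
    rw [map_zero, zero_mul] at hκ
    exact hF0 hκ
  refine ⟨κ⁻¹, inv_ne_zero hκ0, ?_⟩
  conv_rhs => rw [hκ]
  rw [← mul_assoc, ← map_mul, inv_mul_cancel₀ hκ0, map_one, one_mul]

/-- the product of powers of the `z_j` is semi-invariant -/
theorem prodZ_semi (H : Q.IsQuotient x z g b G A) (e : Fin k → ℤ)
    (he : ∀ i j, b i = b j → e i = e j)
    (he0 : ∀ j, b j = 0 → e j = 0) (τ : L ≃ₐ[ℂ] L) (hτ : τ ∈ G) :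
    ∃ κ : ℂ, τ (∏ j, z j ^ e j) = algebraMap ℂ L κ * ∏ j, z j ^ e j := by
  classical
  choose j' c hbj hjc using H.permZ τ hτ
  let S : Finset (Fin k) := Finset.univ.filter fun j => b j ≠ 0
  have hS : ∀ f : Fin k → L, ∏ j, f j ^ e j = ∏ j ∈ S, f j ^ e j := by
    intro f
    rw [Finset.prod_filter]
    refine Finset.prod_congr rfl fun j _ => ?_
    split_ifs with h
    · rfl
    · push Not at h
      rw [he0 j h, zpow_zero]
  let π : Fin k → Fin k := fun j => if h : b j ≠ 0 then j' j h else j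
  have hπ : ∀ j (h : b j ≠ 0), π j = j' j h := fun j h => dif_pos h
  have hπS : ∀ j ∈ S, π j ∈ S := by
    intro j hj
    have h := (Finset.mem_filter.mp hj).2
    rw [Finset.mem_filter]
    refine ⟨Finset.mem_univ _, ?_⟩
    rw [hπ j h, hbj j h]; exact h
  have hinj : Set.InjOn π S := by
    intro i hi j hj hij
    have hi' := (Finset.mem_filter.mp hi).2
    have hj' := (Finset.mem_filter.mp hj).2
    rw [hπ i hi', hπ j hj'] at hij
    have h1 := hjc i hi'
    have h2 := hjc j hj'
    rw [hij] at h1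
    -- `c_j z_i - c_i z_j = 0`
    have h3 : τ ((c j hj') • z i) = τ ((c i hi') • z j) := by
      rw [alg_smul, alg_smul, h1, h2, smul_smul, smul_smul, mul_comm]
    have h4 := τ.injective h3
    have h5 : lin z (c j hj' • Pi.single i 1 - c i hi' • Pi.single j 1) = 0 := by
      rw [map_sub, map_smul, map_smul, lin_single, lin_single]
      exact sub_eq_zero.mpr h4
    have h6 := lin_injective H (h5.trans (map_zero _).symm)
    by_contra hne
    have h7 := congrFun h6 j
    simp only [Pi.sub_apply, Pi.smul_apply, Pi.single_eq_same, smul_eq_mul, mul_one,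
      Pi.single_eq_of_ne (Ne.symm hne), mul_zero, zero_sub, Pi.zero_apply, neg_eq_zero] at h7
    have h8 := hjc i hi'
    rw [h7, zero_smul] at h8
    exact z_ne H i ((map_eq_zero _).mp h8)
  have himg : S.image π = S := by
    apply Finset.eq_of_subset_of_card_le
    · intro j hj
      obtain ⟨i, hi, rfl⟩ := Finset.mem_image.mp hj
      exact hπS i hi
    · rw [Finset.card_image_of_injOn hinj]
  let c' : Fin k → ℂ := fun j => if h : b j ≠ 0 then c j h else 1
  refine ⟨∏ j ∈ S, c' j ^ e j, ?_⟩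
  rw [hS]
  have h1 : ∏ j ∈ S, z j ^ e j = ∏ j ∈ S, z (π j) ^ e (π j) := by
    conv_lhs => rw [← himg]
    rw [Finset.prod_image hinj]
  rw [map_prod, h1, map_prod, ← Finset.prod_mul_distrib]
  refine Finset.prod_congr rfl fun j hj => ?_
  have hj' := (Finset.mem_filter.mp hj).2
  have h2 : e (π j) = e j := he _ _ (by rw [hπ j hj', hbj j hj'])
  have h3 : c' j = c j hj' := dif_pos hj'
  rw [h2, h3, hπ j hj', map_zpow₀, hjc j hj', Algebra.smul_def, mul_zpow, map_zpow₀]

/-- a power of a semi-invariant function is invariant -/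
theorem pow_invariant (H : Q.IsQuotient x z g b G A) (F : L)
    (hF : ∀ τ ∈ G, ∃ κ : ℂ, τ F = algebraMap ℂ L κ * F) :
    F ^ Nat.card G ∈ Set.range (algebraMap K L) := by
  have hfin : Finite G := H.finite
  rw [H.field]
  intro τ hτ
  obtain ⟨κ, hκ⟩ := hF τ hτ
  have h1 : ∀ m : ℕ, (τ ^ m) F = algebraMap ℂ L κ ^ m * F := by
    intro m
    induction m with
    | zero => simp
    | succ m ih =>
      rw [pow_succ, AlgEquiv.mul_apply, hκ, map_mul, ih, AlgEquiv.commutes]
      ring
  have h2 : τ ^ Nat.card G = 1 := by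
    have h3 : (⟨τ, hτ⟩ : G) ^ Nat.card G = 1 := pow_card_eq_one'
    exact congrArg Subtype.val h3
  have h3 := h1 (Nat.card G)
  rw [h2, AlgEquiv.one_apply] at h3
  by_cases hF0 : F = 0
  · rw [hF0, zero_pow Nat.card_pos.ne', map_zero]
  have h4 : algebraMap ℂ L κ ^ Nat.card G = 1 := by
    have h5 : (1 - algebraMap ℂ L κ ^ Nat.card G) * F = 0 := by
      rw [sub_mul, one_mul, ← h3, sub_self]
    rcases mul_eq_zero.mp h5 with h6 | h6
    · exact (sub_eq_zero.mp h6).symm
    · exact absurd h6 hF0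
  rw [map_pow, hκ, mul_pow, h4, one_mul]

end Vale.Agent.P283.Abs
end
end

section

section

/-!
The main theorem (abstract setting) from the engine.
-/

namespace Vale.Agent.P283

open scoped KaehlerDifferential
open MvPolynomial Finset

theorem Abs.result_qk (q k : ℕ) (hd : 0 < q + k) (ε : ℝ) (hε : 0 < ε) : ∃ n : ℕ, 0 < n ∧
    ∀ (K L : Type) [Field K] [Field L] [Algebra ℂ K] [Algebra ℂ L]
      [Algebra K L] [IsScalarTower ℂ K L] (x : Fin (q + 1) → L) (z : Fin k → L)
      (g : MvPolynomial (Fin k) ℂ) (b : Fin k → ℚ) (G : Subgroup (L ≃ₐ[ℂ] L))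
      (A : Subalgebra ℂ K), Q.IsQuotient x z g b G A →
    ∀ ω : ⋀[K]^(q + k) (Ω[K⁄ℂ]), ω ≠ 0 → ∀ B : QDivisor A, (∀ p, 0 ≤ B.coeff p) →
    (∀ h : L, IsPullback ω (h • ((∏ l, Fin.tail x l)⁻¹ • wedgeD (q + k)
        (Fin.append (Fin.tail x) z))) →
      ∀ (u : AddValuation K (WithTop ℤ)) (p : Ideal A) (m : ℤ) (w : AddValuation L (WithTop ℤ))
        (e : ℕ), IsPrimeDivisorOn A (q + k) u p → FormOrder (q + k) u ω m → 0 < e →
        (∃ f, w f = 1) → (∀ f : K, w (algebraMap K L f) = e • u f) →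
        (e : ℚ) * (m + B.coeff p) = ov w h + ∑ j, b j * ov w (z j)) →
    IsEpsLC (q + k) ω B ε → ∀ m : Ideal A, m ≠ ⊤ → HasKltComplement (q + k) ω B n m := by
  classical
  obtain ⟨J, hJ⟩ := Abs.exists_diag q k
  obtain ⟨n, hn, heng⟩ := engine q k hd ε hε J
  refine ⟨n, hn, ?_⟩
  intro K L _ _ _ _ _ _ x z g b G A H ω hω B hB0 hcrep hlc m₀ hm₀
  obtain ⟨G0, v, hle, hidx, hv, hvb, hdiag0, hdiag⟩ := hJ K L x z g b G A H
  obtain ⟨g', hg', haev⟩ := Abs.exists_newg v hv H
  obtain ⟨c₀, hc₀, homega⟩ := Abs.omY_eq v hv H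
  obtain ⟨F₀, hF₀, hpull, hsemi⟩ := Abs.exists_pullback H ω hω
  have hcoords := Abs.isCoords_nT v hv H
  -- the data
  have hdata : EngineData q k J (Abs.nT x z v) g' (x 0) G G0 A :=
    { coords := hcoords
      g_ne := hg'
      x0_eq := by
        rw [haev]
        exact Abs.x0_mul H
      fin := H.finite
      fix := fun f => (H.field f).symm
      le := hle
      index := hidx
      diag := by
        rintro τ hτ (l | j)
        · exact hdiag0 τ hτ l.succ
        · exact hdiag τ hτ j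
      diag0 := fun τ hτ => hdiag0 τ hτ 0
      frac := by
        intro f
        obtain ⟨x, hx, y, hy, hy0, h⟩ := Abs.ring_frac H f
        exact ⟨x, hx, y, hy, hy0, h⟩
      sub := fun a ha => Abs.ring_sub H v hv a ha
      int0 := Abs.rY_integral H (Abs.x_mem x z 0)
      int := by
        rintro (l | j)
        · exact Abs.rY_integral H (Abs.x_mem x z l.succ)
        · exact Abs.rY_integral H (Abs.lin_mem x z _) }
  -- denominators
  let D : ℕ := ∏ j, (b j).den
  have hD : 0 < D := Finset.prod_pos fun j _ => (b j).den_pos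
  have hDb : ∀ j, ∃ e : ℤ, (e : ℚ) = D * b j := by
    intro j
    obtain ⟨m, hm⟩ : (b j).den ∣ D := Finset.dvd_prod_of_mem _ (Finset.mem_univ j)
    refine ⟨m * (b j).num, ?_⟩
    rw [hm]
    push_cast
    have := Rat.den_mul_eq_num (b j)
    rw [mul_comm ((b j).den : ℚ) m, mul_assoc, this]
  choose e₀ he₀ using hDb
  have he1 : ∀ i j, b i = b j → e₀ i = e₀ j := by
    intro i j hij
    have h1 := he₀ i
    rw [hij, ← he₀ j] at h1
    exact_mod_cast h1
  have he2 : ∀ j, b j = 0 → e₀ j = 0 := by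
    intro j hj
    have h1 := he₀ j
    rw [hj, mul_zero] at h1
    exact_mod_cast h1
  -- the semi-invariant function
  let F : L := F₀ ^ D * ∏ j, z j ^ e₀ j
  have hF : ∀ τ ∈ G, ∃ κ : ℂ, τ F = algebraMap ℂ L κ * F := by
    intro τ hτ
    obtain ⟨κ₁, -, h1⟩ := hsemi τ hτ
    obtain ⟨κ₂, h2⟩ := Abs.prodZ_semi H e₀ he1 he2 τ hτ
    refine ⟨κ₁ ^ D * κ₂, ?_⟩
    simp only [F]
    rw [map_mul, map_pow, h1, h2, map_mul, map_pow]
    ring
  have hfin : Finite G := H.finite
  let N : ℕ := Nat.card G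
  have hN : 0 < N := Nat.card_pos
  obtain ⟨ψ, hψ⟩ := Abs.pow_invariant H F hF
  let zz : Fin k → L := fun j => Abs.lin z (v j)
  have hzz : ∀ j, zz j ≠ 0 := fun j => hcoords.ne_zero (Sum.inr j)
  have hzb : ∀ j, b j ≠ 0 → zz j = z j := by
    intro j hj
    show Abs.lin z (v j) = _
    rw [hvb j hj, Abs.lin_single]
  have hc₁ : algebraMap ℂ L c₀ ≠ 0 := (map_ne_zero _).mpr hc₀
  let h : L := F₀ * (algebraMap ℂ L c₀ * ∏ j, zz j)
  have hprodzz : ∏ j, zz j ≠ 0 := Finset.prod_ne_zero_iff.mpr fun j _ => hzz j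
  have hh0 : h ≠ 0 := mul_ne_zero hF₀ (mul_ne_zero hc₁ hprodzz)
  have hpull' : IsPullback ω (h • logForm (Abs.nT x z v)) := by
    have : h • logForm (Abs.nT x z v) = F₀ • Abs.omY x z := by
      rw [homega, smul_smul]
    rw [this]
    exact hpull
  have hinv : ∀ τ ∈ G0, τ h = h := by
    intro τ hτ
    refine h_invariant (Abs.nT x z v) hcoords τ
      (fun f => (H.field _).mp ⟨f, rfl⟩ τ (hle hτ)) ?_ ω h hpull'
    rintro (l | j)
    · exact hdiag0 τ hτ l.succ
    · exact hdiag τ hτ j
  have hpow : ∀ j, zz j ^ (((D * N : ℕ) : ℤ) - (((D * N : ℕ) : ℤ) - N * e₀ j))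
      = z j ^ (N * e₀ j) := by
    intro j
    rw [sub_sub_cancel]
    by_cases hj : b j = 0
    · rw [he2 j hj]; simp
    · rw [hzb j hj]
  refine heng K L (Abs.nT x z v) g' (x 0) G G0 A hdata
    ω h hω hh0 hpull' hinv B (fun j => 1 - b j) (D * N) (fun j => ((D * N : ℕ) : ℤ) - N * e₀ j) ψ
    ((c₀ ^ (D * N))⁻¹) (Nat.mul_pos hD hN) ?_ (inv_ne_zero (pow_ne_zero _ hc₀)) ?_ ?_ hB0 hlc m₀
    hm₀
  · intro j
    push_cast
    rw [he₀ j]
    ring
  · -- the equation of `r (K_X + B)`
    rw [hψ]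
    show F ^ N = ((c₀ ^ (D * N))⁻¹) • (h ^ (D * N) * ∏ j, Abs.nT x z v (Sum.inr j) ^
      (-(((D * N : ℕ) : ℤ) - N * e₀ j)))
    have h1 : ∏ j, Abs.nT x z v (Sum.inr j) ^ (-(((D * N : ℕ) : ℤ) - N * e₀ j))
        = (∏ j, z j ^ (N * e₀ j)) / (∏ j, zz j) ^ (D * N) := by
      rw [← Finset.prod_pow, ← Finset.prod_div_distrib]
      refine Finset.prod_congr rfl fun j _ => ?_
      rw [← hpow j]
      show zz j ^ (-(((D * N : ℕ) : ℤ) - N * e₀ j)) = _
      rw [zpow_sub₀ (hzz j) ((D * N : ℕ) : ℤ), zpow_natCast, zpow_neg]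
      have h2 : zz j ^ (D * N) ≠ 0 := pow_ne_zero _ (hzz j)
      field_simp
    rw [h1, Algebra.smul_def, map_inv₀, map_pow]
    have h3 : ∏ j, z j ^ (N * e₀ j) = (∏ j, z j ^ e₀ j) ^ N := by
      rw [← Finset.prod_pow]
      refine Finset.prod_congr rfl fun j _ => ?_
      rw [mul_comm (N : ℤ), zpow_mul, zpow_natCast]
    rw [h3]
    simp only [F, h]
    have h4 : (∏ j, zz j) ^ (D * N) ≠ 0 := pow_ne_zero _ hprodzz
    have h5 : algebraMap ℂ L c₀ ^ (D * N) ≠ 0 := pow_ne_zero _ hc₁
    rw [mul_pow, mul_pow, mul_pow, ← pow_mul]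
    field_simp
  · -- crepancy
    intro u p m w e hu hum he hw huw
    have h1 := hcrep F₀ hpull u p m w e hu hum he hw huw
    rw [h1]
    have hwc : ov w (algebraMap ℂ L c₀) = 0 := by
      have h2 := huw (algebraMap ℂ K c₀)
      rw [hu.1.const c₀ hc₀, smul_zero] at h2
      have h3 : algebraMap K L (algebraMap ℂ K c₀) = algebraMap ℂ L c₀ :=
        (IsScalarTower.algebraMap_apply ℂ K L c₀).symm
      rw [h3] at h2
      exact ov_eq_of w h2
    have h2 : ov w h = ov w F₀ + ∑ j, ov w (zz j) := by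
      show ov w (F₀ * (algebraMap ℂ L c₀ * ∏ j, zz j)) = _
      rw [ov_mul w hF₀ (mul_ne_zero hc₁ hprodzz), ov_mul w hc₁ hprodzz, hwc, zero_add,
        ov_prod Finset.univ zz (fun j _ => hzz j)]
    rw [h2]
    push_cast
    have h3 : ∑ j, (1 - b j) * (ov w (Abs.nT x z v (Sum.inr j)) : ℚ)
        = ∑ j, (ov w (zz j) : ℚ) - ∑ j, b j * (ov w (z j) : ℚ) := by
      rw [← Finset.sum_sub_distrib]
      refine Finset.sum_congr rfl fun j _ => ?_
      show (1 - b j) * (ov w (zz j) : ℚ) = _
      by_cases hj : b j = 0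
      · rw [hj]; ring
      · rw [hzb j hj]; ring
    rw [h3]
    ring

theorem result_abs (d : ℕ) (hd : 0 < d) (ε : ℝ) (hε : 0 < ε) : ∃ n : ℕ, 0 < n ∧
    ∀ q k : ℕ, q + k = d → ∀ (K L : Type) [Field K] [Field L] [Algebra ℂ K] [Algebra ℂ L]
      [Algebra K L] [IsScalarTower ℂ K L] (x : Fin (q + 1) → L) (z : Fin k → L)
      (g : MvPolynomial (Fin k) ℂ) (b : Fin k → ℚ) (G : Subgroup (L ≃ₐ[ℂ] L))
      (A : Subalgebra ℂ K), Q.IsQuotient x z g b G A →
    ∀ ω : ⋀[K]^(q + k) (Ω[K⁄ℂ]), ω ≠ 0 → ∀ B : QDivisor A, (∀ p, 0 ≤ B.coeff p) →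
    (∀ h : L, IsPullback ω (h • ((∏ l, Fin.tail x l)⁻¹ • wedgeD (q + k)
        (Fin.append (Fin.tail x) z))) →
      ∀ (u : AddValuation K (WithTop ℤ)) (p : Ideal A) (m : ℤ) (w : AddValuation L (WithTop ℤ))
        (e : ℕ), IsPrimeDivisorOn A (q + k) u p → FormOrder (q + k) u ω m → 0 < e →
        (∃ f, w f = 1) → (∀ f : K, w (algebraMap K L f) = e • u f) →
        (e : ℚ) * (m + B.coeff p) = ov w h + ∑ j, b j * ov w (z j)) →
    IsEpsLC (q + k) ω B ε → ∀ m : Ideal A, m ≠ ⊤ → HasKltComplement (q + k) ω B n m := by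
  classical
  have key : ∀ q k : ℕ, ∃ n : ℕ, 0 < n ∧ (q + k = d →
      ∀ (K L : Type) [Field K] [Field L] [Algebra ℂ K] [Algebra ℂ L]
      [Algebra K L] [IsScalarTower ℂ K L] (x : Fin (q + 1) → L) (z : Fin k → L)
      (g : MvPolynomial (Fin k) ℂ) (b : Fin k → ℚ) (G : Subgroup (L ≃ₐ[ℂ] L))
      (A : Subalgebra ℂ K), Q.IsQuotient x z g b G A →
    ∀ ω : ⋀[K]^(q + k) (Ω[K⁄ℂ]), ω ≠ 0 → ∀ B : QDivisor A, (∀ p, 0 ≤ B.coeff p) →
    (∀ h : L, IsPullback ω (h • ((∏ l, Fin.tail x l)⁻¹ • wedgeD (q + k)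
        (Fin.append (Fin.tail x) z))) →
      ∀ (u : AddValuation K (WithTop ℤ)) (p : Ideal A) (m : ℤ) (w : AddValuation L (WithTop ℤ))
        (e : ℕ), IsPrimeDivisorOn A (q + k) u p → FormOrder (q + k) u ω m → 0 < e →
        (∃ f, w f = 1) → (∀ f : K, w (algebraMap K L f) = e • u f) →
        (e : ℚ) * (m + B.coeff p) = ov w h + ∑ j, b j * ov w (z j)) →
    IsEpsLC (q + k) ω B ε → ∀ m : Ideal A, m ≠ ⊤ → HasKltComplement (q + k) ω B n m) := by
    intro q k
    by_cases h : q + k = d
    · obtain ⟨n, hn, h1⟩ := Abs.result_qk q k (by omega) ε hε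
      exact ⟨n, hn, fun _ => h1⟩
    · exact ⟨1, one_pos, fun h' => absurd h' h⟩
  choose N hN hkey using key
  refine ⟨∏ p ∈ Finset.HasAntidiagonal.antidiagonal d, N p.1 p.2,
    Finset.prod_pos fun p _ => hN _ _, ?_⟩
  intro q k hqk K L _ _ _ _ _ _ x z g b G A H ω hω B hB0 hcrep hlc m hm
  have h1 := hkey q k hqk K L x z g b G A H ω hω B hB0 hcrep hlc m hm
  have hmem : (q, k) ∈ Finset.HasAntidiagonal.antidiagonal d :=
    Finset.HasAntidiagonal.mem_antidiagonal.mpr hqk
  rw [← Finset.mul_prod_erase _ _ hmem]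
  exact h1.mul (Finset.prod_pos fun p _ => hN _ _)

end Vale.Agent.P283
end
end

section

section

end
end

section

section

/-!
Translation between forms and families of derivations.
-/

set_option linter.style.haveILetI false

namespace Vale.Agent.P283

open scoped KaehlerDifferential
open MvPolynomial Finset

section Frame

variable {K : Type} [Field K] [Algebra ℂ K] {d : ℕ}

theorem der_eq_sum {ι : Type} [Fintype ι] {b : ι → K} (B : Module.Basis ι K (Ω[K⁄ℂ]))
    (hB : ∀ i, B i = KaehlerDifferential.D ℂ K (b i)) (δ : Derivation ℂ K K) (f : K) :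
    δ f = ∑ j, pd B j f * δ (b j) := by
  have h1 : ∀ g, δ g = δ.liftKaehlerDifferential (KaehlerDifferential.D ℂ K g) := by
    intro g
    exact (Derivation.liftKaehlerDifferential_comp_D δ g).symm
  rw [h1, D_eq_sum B, map_sum]
  refine Finset.sum_congr rfl fun j _ => ?_
  rw [map_smul, hB, ← h1, smul_eq_mul]

variable {b : Fin d → K} (B : Module.Basis (Fin d) K (Ω[K⁄ℂ]))
  (hB : ∀ i, B i = KaehlerDifferential.D ℂ K (b i)) (D : Fin d → Derivation ℂ K K)
include hB

theorem jac_eq (f : Fin d → K) :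
    Q.jac D f = (Matrix.of fun i j => pd B j (f i)).det * Q.jac D b := by
  unfold Q.jac
  rw [← Matrix.det_mul]
  congr 1
  ext i j
  rw [Matrix.mul_apply, Matrix.of_apply, der_eq_sum B hB]
  rfl

/-- The form `ω` with `ω(D₁, …, D_d) = 1`. -/
theorem wedgeD_eq_jac (hD : ∃ f, Q.jac D f ≠ 0) :
    Q.jac D b ≠ 0 ∧ ((Q.jac D b)⁻¹ • wedgeD d b) ≠ 0 ∧
      ∀ f : Fin d → K, wedgeD d f = Q.jac D f • ((Q.jac D b)⁻¹ • wedgeD d b) := by
  obtain ⟨f, hf⟩ := hD
  have h1 : Q.jac D b ≠ 0 := by
    intro h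
    rw [jac_eq B hB, h, mul_zero] at hf
    exact hf rfl
  refine ⟨h1, smul_ne_zero (inv_ne_zero h1) (wedgeD_basis_ne_zero B hB), ?_⟩
  intro f
  rw [wedgeD_eq_det B hB f, jac_eq B hB, smul_smul, mul_assoc, mul_inv_cancel₀ h1, mul_one]

end Frame

section Order

variable {K : Type} [Field K] [Algebra ℂ K] {d : ℕ}

theorem divisorial_iff {v : AddValuation K (WithTop ℤ)} :
    Q.IsDivisorial d v ↔ IsDivisorial d v :=
  ⟨fun h => ⟨h.const, h.normalized, h.residue⟩, fun h => ⟨h.const, h.normalized, h.residue⟩⟩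

theorem formOrder_iff_jac {D : Fin d → Derivation ℂ K K} {ω : ⋀[K]^d (Ω[K⁄ℂ])} (hω : ω ≠ 0)
    (hD : ∀ f : Fin d → K, wedgeD d f = Q.jac D f • ω) {v : AddValuation K (WithTop ℤ)} {m : ℤ} :
    Q.FormOrder v D m ↔ FormOrder d v ω m := by
  have h1 : {k : ℤ | ∃ (h : K) (f : Fin d → K),
      v h = (k : WithTop ℤ) ∧ (∀ i, 0 ≤ v (f i)) ∧ h * Q.jac D f = 1}
      = {k : ℤ | ∃ (h : K) (f : Fin d → K),
      v h = (k : WithTop ℤ) ∧ (∀ i, 0 ≤ v (f i)) ∧ ω = h • wedgeD d f} := by
    ext k
    simp only [Set.mem_ofPred_eq]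
    constructor
    · rintro ⟨h, f, h1, h2, h3⟩
      refine ⟨h, f, h1, h2, ?_⟩
      rw [hD, smul_smul, h3, one_smul]
    · rintro ⟨h, f, h1, h2, h3⟩
      refine ⟨h, f, h1, h2, ?_⟩
      rw [hD, smul_smul] at h3
      have h4 : (1 : K) • ω = (h * Q.jac D f) • ω := by rw [one_smul]; exact h3
      exact (smul_left_injective K hω h4).symm
  unfold Q.FormOrder FormOrder
  rw [h1]

theorem primeDivisor_iff {A : Subalgebra ℂ K} {u : AddValuation K (WithTop ℤ)} {p : Ideal A} :
    Q.IsPrimeDivisorOn A d u p ↔ IsPrimeDivisorOn A d u p := by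
  unfold Q.IsPrimeDivisorOn IsPrimeDivisorOn
  rw [divisorial_iff]
  rfl

/-- Translation of divisors. -/
def toOld {A : Subalgebra ℂ K} (B : Q.QDivisor A) : QDivisor A := ⟨B.coeff, B.finite, B.prime⟩

variable {D : Fin d → Derivation ℂ K K} {ω : ⋀[K]^d (Ω[K⁄ℂ])} (hω : ω ≠ 0)
    (hD : ∀ f : Fin d → K, wedgeD d f = Q.jac D f • ω) {A : Subalgebra ℂ K} {B : Q.QDivisor A}
include hω hD

theorem localEquation_iff {q : Ideal A} {r : ℕ} {φ : K} :
    Q.IsLocalEquation D B q r φ ↔ IsLocalEquation d ω (toOld B) q r φ := by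
  unfold Q.IsLocalEquation IsLocalEquation
  simp only [primeDivisor_iff, formOrder_iff_jac hω hD]
  rfl

theorem epsLC_old {ε : ℝ} (h : Q.IsEpsLC D B ε) : IsEpsLC d ω (toOld B) ε := by
  refine ⟨?_, ?_⟩
  · intro p hp
    obtain ⟨r, φ, h1⟩ := h.1 p hp
    exact ⟨r, φ, (localEquation_iff hω hD).1 h1⟩
  · rintro v a hv hover ⟨p, r, φ, m, k, h1, h2, h3, h4, rfl⟩
    have h5 := h.2 v p r φ m k (divisorial_iff.2 hv) hover h1 ((localEquation_iff hω hD).2 h2)
      ((formOrder_iff_jac hω hD).2 h3) h4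
    push_cast
    exact h5

theorem klt_new {n : ℕ} {z : Ideal A} (h : HasKltComplement d ω (toOld B) n z) :
    Q.HasKltComplement D B n z := by
  obtain ⟨s, hs, φ, hφ, h1, h2⟩ := h
  refine ⟨s, hs, φ, hφ, ?_, ?_⟩
  · intro u p m k h3 h4 h5 h6
    exact h1 u p m k (primeDivisor_iff.1 h3) h4 ((formOrder_iff_jac hω hD).1 h5) h6
  · intro v m k h3 h4 h5 h6 h7
    exact h2 v m k (divisorial_iff.1 h3) h4 h5 ((formOrder_iff_jac hω hD).1 h6) h7

end Order

section Extension

variable {K L : Type} [Field K] [Field L] [Algebra ℂ K] [Algebra ℂ L] [Algebra K L]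
  [IsScalarTower ℂ K L] {d : ℕ}

/-- Extension of derivations, and the pullback of the form attached to `D`. -/
theorem exists_derivation_ext {b : Fin d → K} (B : Module.Basis (Fin d) K (Ω[K⁄ℂ]))
    (hB : ∀ i, B i = KaehlerDifferential.D ℂ K (b i)) (BL : Module.Basis (Fin d) L (Ω[L⁄ℂ]))
    (hBL : ∀ i, BL i = KaehlerDifferential.D ℂ L (algebraMap K L (b i)))
    (D : Fin d → Derivation ℂ K K) : ∃ D' : Fin d → Derivation ℂ L L,
      ∀ i (f : K), D' i (algebraMap K L f) = algebraMap K L (D i f) := by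
  refine ⟨fun i => ∑ l, algebraMap K L (D i (b l)) • pd BL l, ?_⟩
  intro i f
  have h1 : ∀ l, pd BL l (algebraMap K L f) = algebraMap K L (pd B l f) := by
    intro l
    rw [pd_apply, D_algebraMap B hB f]
    simp only [← hBL]
    rw [map_sum, Finsupp.finsetSum_apply]
    simp only [map_smul, Finsupp.smul_apply, Module.Basis.repr_self, smul_eq_mul,
      Finsupp.single_apply, mul_ite, mul_one, mul_zero, Finset.sum_ite_eq', Finset.mem_univ,
      if_true]
  have h2 : (∑ l, algebraMap K L (D i (b l)) • pd BL l) (algebraMap K L f)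
      = ∑ l, algebraMap K L (D i (b l)) * pd BL l (algebraMap K L f) := by
    have h3 := map_sum (Derivation.coeFnAddMonoidHom (R := ℂ) (A := L) (M := L))
      (fun l => algebraMap K L (D i (b l)) • pd BL l) Finset.univ
    have h4 := congrFun h3 (algebraMap K L f)
    rw [Finset.sum_apply] at h4
    exact h4
  rw [h2, der_eq_sum B hB (D i) f, map_sum]
  apply Finset.sum_congr rfl
  intro l _
  rw [h1, map_mul, mul_comm]

end Extension

end Vale.Agent.P283
end
end

section

section

/-!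
Translation of the crepancy condition.
-/

set_option linter.style.haveILetI false

namespace Vale.Agent.P283

open scoped KaehlerDifferential
open MvPolynomial Finset

variable {K L : Type} [Field K] [Field L] [Algebra ℂ K] [Algebra ℂ L] [Algebra K L]
  [IsScalarTower ℂ K L] {d : ℕ}

theorem exists_common_basis [Algebra.IsAlgebraic K L] (htr : Algebra.trdeg ℂ L = (d : ℕ)) :
    ∃ b : Fin d → K, IsTranscendenceBasis ℂ b ∧
      IsTranscendenceBasis ℂ (fun i => algebraMap K L (b i)) := by
  have h1 : Algebra.trdeg ℂ K = (d : ℕ) := by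
    rw [← htr, ← trdeg_add_eq (R := ℂ) (S := K) (A := L), trdeg_eq_zero (R := K) (A := L),
      add_zero]
  obtain ⟨s, hs⟩ := exists_isTranscendenceBasis ℂ K
  have h2 := hs.cardinalMk_eq_trdeg
  rw [h1] at h2
  obtain ⟨e⟩ := Cardinal.eq.1 (h2.trans (by simp only [Cardinal.mk_fintype, Fintype.card_fin] : ((d : ℕ) : Cardinal) = Cardinal.mk (Fin d)))
  have h3 : IsTranscendenceBasis ℂ ((Subtype.val : s → K) ∘ e.symm) :=
    (isTranscendenceBasis_equiv e.symm).2 hs
  exact ⟨_, h3, h3.algebraMap_comp (A := L)⟩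

/-- The new crepancy condition implies the old one. -/
theorem crepant_old {q k : ℕ} (x : Fin (q + 1) → L) (z : Fin k → L) (b : Fin k → ℚ)
    (hx : ∀ l, Fin.tail x l ≠ 0) (hz : ∀ j, z j ≠ 0)
    {b0 : Fin (q + k) → K} (BK : Module.Basis (Fin (q + k)) K (Ω[K⁄ℂ]))
    (hBK : ∀ i, BK i = KaehlerDifferential.D ℂ K (b0 i))
    (BL : Module.Basis (Fin (q + k)) L (Ω[L⁄ℂ]))
    (hBL : ∀ i, BL i = KaehlerDifferential.D ℂ L (algebraMap K L (b0 i)))
    {D : Fin (q + k) → Derivation ℂ K K} {ω : ⋀[K]^(q + k) (Ω[K⁄ℂ])} (hω : ω ≠ 0)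
    (hD : ∀ f : Fin (q + k) → K, wedgeD (q + k) f = Q.jac D f • ω) {A : Subalgebra ℂ K}
    {B : Q.QDivisor A} (hc : Q.IsCrepant x z b A D B) :
    ∀ h : L, IsPullback ω (h • ((∏ l, Fin.tail x l)⁻¹ • wedgeD (q + k)
        (Fin.append (Fin.tail x) z))) →
      ∀ (u : AddValuation K (WithTop ℤ)) (p : Ideal A) (m : ℤ) (w : AddValuation L (WithTop ℤ))
        (e : ℕ), IsPrimeDivisorOn A (q + k) u p → FormOrder (q + k) u ω m → 0 < e →
        (∃ f, w f = 1) → (∀ f : K, w (algebraMap K L f) = e • u f) →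
        (e : ℚ) * (m + (toOld B).coeff p) = ov w h + ∑ j, b j * ov w (z j) := by
  intro h hpull u p m w e hu hm he hw1 hvw
  obtain ⟨D', hD'⟩ := exists_derivation_ext BK hBK BL hBL D
  -- the Jacobian on `K` and on `L`
  have hjac : ∀ f : Fin (q + k) → K, Q.jac D' (fun i => algebraMap K L (f i))
      = algebraMap K L (Q.jac D f) := by
    intro f
    unfold Q.jac
    rw [RingHom.map_det]
    congr 1
    ext i j
    simp [hD']
  have hω1 : ∃ f, Q.jac D f ≠ 0 := by
    refine ⟨b0, ?_⟩
    intro h0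
    have := hD b0
    rw [h0, zero_smul] at this
    exact wedgeD_basis_ne_zero BK hBK this
  have hD'1 : ∃ f, Q.jac D' f ≠ 0 := by
    obtain ⟨f, hf⟩ := hω1
    refine ⟨fun i => algebraMap K L (f i), ?_⟩
    rw [hjac]
    exact (map_ne_zero _).2 hf
  obtain ⟨ωL, hωL0, hωL⟩ : ∃ ωL : ⋀[L]^(q + k) (Ω[L⁄ℂ]), ωL ≠ 0 ∧
      ∀ f : Fin (q + k) → L, wedgeD (q + k) f = Q.jac D' f • ωL := by
    obtain ⟨-, h1, h2⟩ := wedgeD_eq_jac BL hBL D' hD'1
    exact ⟨_, h1, h2⟩
  obtain ⟨h0, f0, he1, he2⟩ := hpull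
  have h1 : h0 * Q.jac D f0 = 1 := by
    have h2 := he1
    rw [hD f0, smul_smul] at h2
    have h4 : (1 : K) • ω = (h0 * Q.jac D f0) • ω := by rw [one_smul]; exact h2
    exact (smul_left_injective K hω h4).symm
  have hprod : (∏ l, Fin.tail x l) ≠ 0 := Finset.prod_ne_zero_iff.2 fun l _ => hx l
  have h2 : h * Q.jac D' (Fin.append (Fin.tail x) z) = ∏ l, Fin.tail x l := by
    rw [hωL (fun i => algebraMap K L (f0 i)), hωL, hjac, smul_smul, smul_smul, smul_smul,
      ← map_mul, h1, map_one] at he2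
    have h3 : h * (∏ l, Fin.tail x l)⁻¹ * Q.jac D' (Fin.append (Fin.tail x) z) = 1 :=
      smul_left_injective L hωL0 he2
    have h4 : h * Q.jac D' (Fin.append (Fin.tail x) z) * (∏ l, Fin.tail x l)⁻¹ = 1 := by
      rw [← h3]; ring
    rw [← div_eq_mul_inv, div_eq_one_iff_eq hprod] at h4
    exact h4
  have hh : h ≠ 0 := by
    rintro rfl
    rw [zero_mul] at h2
    exact hprod h2.symm
  exact hc D' h hD' h2 u p m w e (ov w h) (fun j => ov w (z j)) (primeDivisor_iff.2 hu)
    ((formOrder_iff_jac hω hD).2 hm) he hw1 hvw (coe_ov w hh).symm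
    (fun j => (coe_ov w (hz j)).symm)

end Vale.Agent.P283
end
end

section

section

/-!
The main theorem in the form-free setting.
-/

namespace Vale.Agent.P283

open scoped KaehlerDifferential
open MvPolynomial

theorem main (d : ℕ) (hd : 0 < d) (ε : ℝ) (hε : 0 < ε) : ∃ n : ℕ, 0 < n ∧
    ∀ q k : ℕ, q + k = d → ∀ (K L : Type) [Field K] [Field L] [Algebra ℂ K] [Algebra ℂ L]
      [Algebra K L] [IsScalarTower ℂ K L] (x : Fin (q + 1) → L) (z : Fin k → L)
      (g : MvPolynomial (Fin k) ℂ) (b : Fin k → ℚ) (G : Subgroup (L ≃ₐ[ℂ] L))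
      (A : Subalgebra ℂ K), Q.IsQuotient x z g b G A →
    ∀ D : Fin (q + k) → Derivation ℂ K K, (∃ f, Q.jac D f ≠ 0) →
    ∀ B : Q.QDivisor A, (∀ p, 0 ≤ B.coeff p) → Q.IsCrepant x z b A D B → Q.IsEpsLC D B ε →
    ∀ m : Ideal A, m.IsMaximal → Q.HasKltComplement D B n m := by
  obtain ⟨n, hn, hmain⟩ := result_abs d hd ε hε
  refine ⟨n, hn, ?_⟩
  intro q k hqk K L _ _ _ _ _ _ x z g b G A H D hD B hB hc hlc m hm
  have hcoords := isCoords_of_quotient H
  have halg : Algebra.IsAlgebraic K L := isAlgebraic_of_quotient H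
  have htr : Algebra.trdeg ℂ L = ((q + k : ℕ) : Cardinal) := by
    rw [hcoords.trdeg_eq]; simp only [Fintype.card_sum, Fintype.card_fin, Nat.cast_add]
  obtain ⟨b0, hb0, hb0'⟩ := exists_common_basis (K := K) (L := L) htr
  obtain ⟨BK, hBK⟩ := exists_kaehler_basis b0 hb0
  obtain ⟨BL, hBL⟩ := exists_kaehler_basis _ hb0'
  obtain ⟨-, hω, hDω⟩ := wedgeD_eq_jac BK hBK D hD
  have hx : ∀ l, Fin.tail x l ≠ 0 := fun l => hcoords.ne_zero (Sum.inl l)
  have hz : ∀ j, z j ≠ 0 := fun j => hcoords.ne_zero (Sum.inr j)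
  exact klt_new hω hDω (hmain q k hqk K L x z g b G A H _ hω (toOld B) hB
    (crepant_old x z b hx hz BK hBK BL hBL hω hDω hc) (epsLC_old hω hDω hlc) m hm.ne_top)

end Vale.Agent.P283
end
end
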